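import Vale.Agent.P308.ArcC

/-! The linearised Poincaré inequality for weights close to an ultrametric. -/

namespace Vale.Agent.P308

open Finset Equiv

variable {V : Type} [DecidableEq V] [Fintype V] [Inhabited V]

/-- A split at an edge of least similarity. -/
noncomputable def sp (σ : V → V → ℝ) (Q : List V) : List V × List V :=
  Classical.epsilon fun p => p.1 ≠ [] ∧ p.2 ≠ [] ∧ p.1 ++ p.2 = Q ∧ σ (lt p.1) (hd p.2) = mQ σ Q

/-- The error of the split. -/
noncomputable def err (a σ : V → V → ℝ) (h : PM V → ℝ) (Q : List V) : ℝ :=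
  if 2 ≤ Q.length then FQ a σ h Q - FQ a σ h (sp σ Q).1 -
    (if Even (sp σ Q).1.length then FQ a σ h (sp σ Q).2 else -FQ a σ h (sp σ Q).2) else 0

open Classical in
/-- Instances in either orientation. -/
noncomputable def I2 (Q : List V) (p : PM V × PM V) : ℝ :=
  (if Inst Q p.1 p.2 then 1 else 0) + if Inst Q p.2 p.1 then 1 else 0

/-- Total deviation. -/
noncomputable def Dev (a σ : V → V → ℝ) (h : PM V → ℝ) : ℝ :=
  ∑ Q ∈ arcs V, ∑ p : PM V × PM V, od a σ h Q p.1 p.2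

/-- Total error. -/
noncomputable def Err (a σ : V → V → ℝ) (h : PM V → ℝ) : ℝ :=
  ∑ Q ∈ arcs V, ∑ p : PM V × PM V, om a σ Q p.1 p.2 * err a σ h Q ^ 2

/-- Open alternating lists whose outer edges are no more similar than the inner ones. -/
def GoodArc (σ : V → V → ℝ) (Q : List V) (X Y : PM V) : Prop :=
  Q ≠ [] ∧ Q.Nodup ∧ Alt X Y Q ∧ σ (hd Q) (Y.1 (hd Q)) ≤ mQ σ Q ∧
    σ (lt Q) ((if Odd Q.length then X else Y).1 (lt Q)) ≤ mQ σ Q

open Classical in
/-- Errors of the good lists of a pair. -/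
noncomputable def GG (a σ : V → V → ℝ) (h : PM V → ℝ) (p : PM V × PM V) : ℝ :=
  ∑ Q ∈ arcs V, ((if GoodArc σ Q p.1 p.2 then err a σ h Q ^ 2 else 0) +
    if GoodArc σ Q p.2 p.1 then err a σ h Q ^ 2 else 0)

variable {a σ : V → V → ℝ} {κ : ℝ} {h : PM V → ℝ}

omit [DecidableEq V] [Fintype V] in
theorem US.sp_spec (H : US a σ κ) {Q : List V} (hQ : 2 ≤ Q.length) :
    (sp σ Q).1 ≠ [] ∧ (sp σ Q).2 ≠ [] ∧ (sp σ Q).1 ++ (sp σ Q).2 = Q ∧
      σ (lt (sp σ Q).1) (hd (sp σ Q).2) = mQ σ Q :=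
  Classical.epsilon_spec (H.exists_split hQ)

theorem US.dev_le (H : US a σ κ) : Dev a σ h ≤ κ ^ 4 * Darc a h := by
  rw [Dev, Darc, mul_sum]
  refine sum_le_sum fun Q hQ => ?_
  obtain ⟨h0, hn⟩ := mem_arcs.1 hQ
  rw [Fintype.sum_prod_type, mul_sum]
  refine sum_le_sum fun X _ => ?_
  have z : ∑ Y, be a σ Q Y * (gl h Q Y - FQ a σ h Q) = 0 := by
    simp only [mul_sub, sum_sub_distrib, ← sum_mul]
    by_cases e : ∑ Y, be a σ Q Y = 0
    · rw [e, zero_mul, sub_zero]
      exact sum_eq_zero fun Y hY => by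
        rw [(sum_eq_zero_iff_of_nonneg fun Y _ => H.be_nonneg Q Y).1 e Y hY, zero_mul]
    · rw [FQ, mul_div_cancel₀ _ e, sub_self]
  calc ∑ Y, od a σ h Q X Y = ∑ Y, (om a σ Q X Y * (fl h Q X - gl h Q Y) ^ 2 +
        2 * al a σ Q X * (fl h Q X - FQ a σ h Q) * (be a σ Q Y * (gl h Q Y - FQ a σ h Q))) :=
        sum_congr rfl fun Y _ => by rw [od, om]; ring
    _ = ∑ Y, om a σ Q X Y * (fl h Q X - gl h Q Y) ^ 2 := by
        rw [sum_add_distrib, ← mul_sum, z, mul_zero, add_zero]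
    _ ≤ _ := by
        rw [mul_sum]
        refine sum_le_sum fun Y _ => ?_
        split_ifs with hi
        · rw [← mul_assoc, show fl h Q X - gl h Q Y =
            h ((tau Q)⁻¹ • Y) + h (tau Q • X) - (h X + h Y) by rw [fl, gl]; ring]
          refine mul_le_mul_of_nonneg_right ?_ (sq_nonneg _)
          rcases min_choice (wt a X * wt a Y) (wt a ((tau Q)⁻¹ • Y) * wt a (tau Q • X)) with e | e
          · rw [e]
            exact (H.om_le hi).trans
              (le_mul_of_one_le_left (mul_pos (H.wpos X) (H.wpos Y)).le H.k4)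
          · rw [e]
            exact H.om_flip hi
        · rw [om_of_not h0 hn hi, zero_mul, mul_zero]

omit [DecidableEq V] [Fintype V] [Inhabited V] in
theorem I2_nonneg (Q : List V) (p : PM V × PM V) : 0 ≤ I2 Q p := by
  unfold I2
  split_ifs <;> norm_num

omit [DecidableEq V] [Fintype V] [Inhabited V] in
theorem le_I2 {Q : List V} {X Y : PM V} (hi : Inst Q X Y ∨ Inst Q Y X) {x : ℝ} (hx : 0 ≤ x) :
    x ≤ x * I2 Q (X, Y) := by
  refine le_mul_of_one_le_right hx ?_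
  unfold I2
  rcases hi with hi | hi <;> simp only [if_pos hi] <;> split_ifs <;> norm_num

theorem sum_I2 (p : PM V × PM V) : ∑ Q ∈ arcs V, I2 Q p ≤ 2 * (Fintype.card V : ℝ) ^ 2 := by
  simp only [I2, sum_add_distrib]
  linarith [card_inst p.1 p.2, card_inst p.2 p.1]

/-- Action on both matchings. -/
def act (g g' : Perm V) : PM V × PM V ≃ PM V × PM V :=
  (MulAction.toPerm g).prodCongr (MulAction.toPerm g')

theorem US.key (H : US a σ κ) {Q : List V} (hn : Q.Nodup) (hQ : 2 ≤ Q.length) :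
    ∑ p : PM V × PM V, om a σ Q p.1 p.2 * err a σ h Q ^ 2 ≤
      4 * (∑ p : PM V × PM V, od a σ h Q p.1 p.2 + κ ^ 8 *
        (∑ p : PM V × PM V, od a σ h (sp σ Q).1 p.1 p.2 * I2 (sp σ Q).2 p +
          ∑ p : PM V × PM V, od a σ h (sp σ Q).2 p.1 p.2 * I2 (sp σ Q).1 p +
          ∑ p : PM V × PM V, wt a p.1 * swt a h p.2 * I2 Q p)) := by
  obtain ⟨hL, hR, e, hm⟩ := H.sp_spec hQ
  rw [err, if_pos hQ]
  generalize (sp σ Q).1 = L at *
  generalize (sp σ Q).2 = R at *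
  subst e
  have h0 : L ++ R ≠ [] := by simp [hL]
  have k : 0 ≤ κ ^ 8 := by positivity
  obtain ⟨e2, e3, e4, hp⟩ : ∃ e2 e3 e4 : PM V × PM V ≃ PM V × PM V, ∀ X Y, Inst (L ++ R) X Y →
      om a σ (L ++ R) X Y * (FQ a σ h (L ++ R) - FQ a σ h L -
        (if Even L.length then FQ a σ h R else -FQ a σ h R)) ^ 2 ≤
      4 * (od a σ h (L ++ R) X Y + κ ^ 8 *
        (od a σ h L (e2 (X, Y)).1 (e2 (X, Y)).2 * I2 R (e2 (X, Y)) +
          od a σ h R (e3 (X, Y)).1 (e3 (X, Y)).2 * I2 L (e3 (X, Y)) +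
          wt a (e4 (X, Y)).1 * swt a h (e4 (X, Y)).2 * I2 (L ++ R) (e4 (X, Y)))) := by
    rcases Nat.even_or_odd L.length with he | ho
    · refine ⟨(Equiv.refl _).prodCongr (MulAction.toPerm (swap (hd L) (hd R))),
        ((Equiv.refl _).prodCongr (MulAction.toPerm (swap (hd L) (hd R)))).trans
          (act (tau L) (tau L)⁻¹),
        (Equiv.prodComm _ _).trans (act (tau (L ++ R))⁻¹ (tau (L ++ R))), fun X Y hi => ?_⟩
      obtain ⟨i1, i2, -⟩ := hi.splitA hL hR he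
      rw [if_pos he]
      exact (H.keyA hi hL hR he hm).trans (mul_le_mul_of_nonneg_left (add_le_add le_rfl
        (mul_le_mul_of_nonneg_left (add_le_add_three (le_I2 (.inl i2) (H.od_nonneg _ _ _))
          (le_I2 (.inr i1.flip) (H.od_nonneg _ _ _))
          (le_I2 (.inl hi.flip) (mul_nonneg (H.wpos _).le (H.swt_nonneg _)))) k)) (by norm_num))
    · obtain ⟨v, hv⟩ : ∃ v, v = if Even R.length then lt R else hd R := ⟨_, rfl⟩
      refine ⟨(MulAction.toPerm (swap (lt L) v)).prodCongr (Equiv.refl _),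
        ((MulAction.toPerm (swap (lt L) v)).prodCongr (Equiv.refl _)).trans
          ((Equiv.prodComm _ _).trans (act (tau L)⁻¹ (tau L))),
        Equiv.prodComm _ _, fun X Y hi => ?_⟩
      obtain ⟨i1, i2, t⟩ := H.keyB (h := h) hi ho hR hm hv
      rw [if_neg (Nat.not_even_iff_odd.2 ho), sub_neg_eq_add]
      exact t.trans (mul_le_mul_of_nonneg_left (add_le_add le_rfl
        (mul_le_mul_of_nonneg_left (add_le_add_three (le_I2 (.inr i2) (H.od_nonneg _ _ _))
          (le_I2 (.inl i1.flip) (H.od_nonneg _ _ _))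
          (le_I2 (.inr hi) (mul_nonneg (H.wpos _).le (H.swt_nonneg _)))) k)) (by norm_num))
  rw [← e2.sum_comp fun p => od a σ h L p.1 p.2 * I2 R p,
    ← e3.sum_comp fun p => od a σ h R p.1 p.2 * I2 L p,
    ← e4.sum_comp fun p => wt a p.1 * swt a h p.2 * I2 (L ++ R) p, ← sum_add_distrib,
    ← sum_add_distrib, mul_sum, ← sum_add_distrib, mul_sum]
  refine sum_le_sum fun p _ => ?_
  by_cases hi : Inst (L ++ R) p.1 p.2
  · exact hp _ _ hi
  · rw [om_of_not h0 hn hi, zero_mul]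
    have := H.od_nonneg (h := h) (L ++ R) p.1 p.2
    have := mul_nonneg (H.od_nonneg (h := h) L (e2 p).1 (e2 p).2) (I2_nonneg R (e2 p))
    have := mul_nonneg (H.od_nonneg (h := h) R (e3 p).1 (e3 p).2) (I2_nonneg L (e3 p))
    have := mul_nonneg (mul_nonneg (H.wpos (e4 p).1).le (H.swt_nonneg (h := h) (e4 p).2))
      (I2_nonneg (L ++ R) (e4 p))
    positivity

theorem US.sum_sp (H : US a σ κ) (f : List V → List V → ℝ) (hf : ∀ L R, 0 ≤ f L R) :
    ∑ Q ∈ (arcs V).filter (2 ≤ ·.length), f (sp σ Q).1 (sp σ Q).2 ≤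
      ∑ L ∈ arcs V, ∑ R ∈ arcs V, f L R := by
  rw [← sum_product', ← sum_image (g := sp σ) (f := fun x => f x.1 x.2)]
  · refine sum_le_sum_of_subset_of_nonneg (fun x hx => ?_) fun x _ _ => hf _ _
    obtain ⟨Q, hQ, rfl⟩ := mem_image.1 hx
    obtain ⟨h1, h2⟩ := mem_filter.1 hQ
    obtain ⟨hL, hR, e, -⟩ := H.sp_spec h2
    have hn := (mem_arcs.1 h1).2
    rw [← e] at hn
    exact mem_product.2 ⟨mem_arcs.2 ⟨hL, hn.of_append_left⟩, mem_arcs.2 ⟨hR, hn.of_append_right⟩⟩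
  · intro Q hQ Q' hQ' e
    rw [← (H.sp_spec (mem_filter.1 hQ).2).2.2.1, e, (H.sp_spec (mem_filter.1 hQ').2).2.2.1]

theorem US.sum_od_I2 (H : US a σ κ) :
    ∑ L ∈ arcs V, ∑ R ∈ arcs V, ∑ p : PM V × PM V, od a σ h L p.1 p.2 * I2 R p ≤
      2 * (Fintype.card V : ℝ) ^ 2 * Dev a σ h := by
  rw [Dev, mul_sum]
  refine sum_le_sum fun L _ => ?_
  rw [sum_comm, mul_sum]
  refine sum_le_sum fun p _ => ?_
  rw [← mul_sum, mul_comm]
  exact mul_le_mul_of_nonneg_right (sum_I2 p) (H.od_nonneg _ _ _)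

theorem US.err_le (H : US a σ κ) :
    Err a σ h ≤ 20 * (Fintype.card V : ℝ) ^ 2 * κ ^ 12 * (Darc a h + Zf a * Dsw a h) := by
  have o : ∀ L R, 0 ≤ ∑ p : PM V × PM V, od a σ h L p.1 p.2 * I2 R p := fun L R =>
    sum_nonneg fun p _ => mul_nonneg (H.od_nonneg _ _ _) (I2_nonneg _ _)
  have s1 := (H.sum_sp (fun L R => ∑ p : PM V × PM V, od a σ h L p.1 p.2 * I2 R p) o).trans
    H.sum_od_I2
  have s2 := (H.sum_sp (fun L R => ∑ p : PM V × PM V, od a σ h R p.1 p.2 * I2 L p)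
    fun L R => o R L).trans (sum_comm.trans_le H.sum_od_I2)
  have s3 : ∑ Q ∈ (arcs V).filter (2 ≤ ·.length), ∑ p : PM V × PM V, od a σ h Q p.1 p.2 ≤
      Dev a σ h := sum_le_sum_of_subset_of_nonneg (filter_subset _ _) fun Q _ _ =>
    sum_nonneg fun p _ => H.od_nonneg _ _ _
  have z : Zf a * Dsw a h = ∑ p : PM V × PM V, wt a p.1 * swt a h p.2 := by
    rw [Fintype.sum_prod_type, Zf, sum_mul]
    refine sum_congr rfl fun X _ => ?_
    simp only [← mul_sum]
    congr 1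
    simp only [swt, Dsw]
    exact (sum_congr rfl fun u _ => sum_comm).trans sum_comm
  have w : ∀ p : PM V × PM V, 0 ≤ wt a p.1 * swt a h p.2 := fun p =>
    mul_nonneg (H.wpos _).le (H.swt_nonneg _)
  have s4 : ∑ Q ∈ (arcs V).filter (2 ≤ ·.length), ∑ p : PM V × PM V,
      wt a p.1 * swt a h p.2 * I2 Q p ≤ 2 * (Fintype.card V : ℝ) ^ 2 * (Zf a * Dsw a h) := by
    refine (sum_le_sum_of_subset_of_nonneg (filter_subset _ _) fun Q _ _ =>
      sum_nonneg fun p _ => mul_nonneg (w p) (I2_nonneg _ _)).trans ?_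
    rw [z, sum_comm, mul_sum]
    refine sum_le_sum fun p _ => ?_
    rw [← mul_sum, mul_comm]
    exact mul_le_mul_of_nonneg_right (sum_I2 p) (w p)
  have e : Err a σ h = ∑ Q ∈ (arcs V).filter (2 ≤ ·.length),
      ∑ p : PM V × PM V, om a σ Q p.1 p.2 * err a σ h Q ^ 2 := by
    rw [sum_filter, Err]
    refine sum_congr rfl fun Q _ => ?_
    split_ifs with hQ
    · rfl
    · simp [err, hQ]
  have s := sum_le_sum fun Q (hQ : Q ∈ (arcs V).filter (2 ≤ ·.length)) =>
    H.key (h := h) (mem_arcs.1 (mem_filter.1 hQ).1).2 (mem_filter.1 hQ).2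
  rw [← e, ← mul_sum, sum_add_distrib, ← mul_sum, sum_add_distrib, sum_add_distrib] at s
  have d := H.dev_le (h := h)
  have d0 : 0 ≤ Dev a σ h := sum_nonneg fun Q _ => sum_nonneg fun p _ => H.od_nonneg _ _ _
  have z0 : 0 ≤ Zf a * Dsw a h := z ▸ sum_nonneg fun p _ => w p
  have n1 : (1 : ℝ) ≤ (Fintype.card V : ℝ) ^ 2 :=
    one_le_pow₀ (by exact_mod_cast Fintype.card_pos)
  have k4 := H.k4
  have k8 : 1 ≤ κ ^ 8 := one_le_pow₀ H.hκ
  have d1 : 0 ≤ Darc a h := (mul_nonneg_iff_of_pos_left (by positivity)).1 (d0.trans d)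
  generalize (Fintype.card V : ℝ) ^ 2 = N at *
  calc _ ≤ _ := s
    _ ≤ 4 * (N * κ ^ 8 * Dev a σ h + κ ^ 8 * (2 * N * Dev a σ h + 2 * N * Dev a σ h +
        2 * N * (κ ^ 4 * (Zf a * Dsw a h)))) := by
        gcongr
        · exact s3.trans (le_mul_of_one_le_left d0 (one_le_mul_of_one_le_of_one_le n1 k8))
        · exact s4.trans (mul_le_mul_of_nonneg_left (le_mul_of_one_le_left z0 k4) (by positivity))
    _ = 20 * N * κ ^ 8 * Dev a σ h + 8 * N * κ ^ 12 * (Zf a * Dsw a h) := by ring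
    _ ≤ 20 * N * κ ^ 8 * (κ ^ 4 * Darc a h) + 20 * N * κ ^ 12 * (Zf a * Dsw a h) := by
        gcongr; norm_num
    _ = _ := by ring

omit [DecidableEq V] [Fintype V] in
theorem GoodArc.split (H : US a σ κ) {L R : List V} {X Y : PM V} (hg : GoodArc σ (L ++ R) X Y)
    (hL : L ≠ []) (hR : R ≠ []) (hm : σ (lt L) (hd R) = mQ σ (L ++ R)) :
    GoodArc σ L X Y ∧ (GoodArc σ R X Y ∨ GoodArc σ R Y X) := by
  obtain ⟨-, hn, hA, g1, g2⟩ := hg
  have mL := H.mQ_mono hL (List.subset_append_left L R)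
  have mR := H.mQ_mono hR (List.subset_append_right L R)
  rw [hd_append hL] at g1
  rw [lt_append _ hR, List.length_append] at g2
  rcases Nat.even_or_odd L.length with he | ho
  · obtain ⟨a1, a2, a3⟩ := hA.splitA hL hR he
    refine ⟨⟨hL, hn.of_append_left, a1, g1.trans mL, ?_⟩,
      .inl ⟨hR, hn.of_append_right, a2, ?_, ?_⟩⟩
    · rw [if_neg (Nat.not_odd_iff_even.2 he), a3, hm]; exact mL
    · rw [Y.eq_iff.1 a3, H.hs, hm]; exact mR
    · simp only [Nat.odd_add', he, iff_true] at g2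
      exact g2.trans mR
  · obtain ⟨a1, a2, a3⟩ := hA.splitB hR ho
    refine ⟨⟨hL, hn.of_append_left, a1, g1.trans mL, ?_⟩,
      .inr ⟨hR, hn.of_append_right, a2, ?_, ?_⟩⟩
    · rw [if_pos ho, a3, hm]; exact mL
    · rw [X.eq_iff.1 a3, H.hs, hm]; exact mR
    · simp only [Nat.odd_add, ho, true_iff, ← Nat.not_odd_iff_even, ite_not] at g2
      exact g2.trans mR

theorem US.FQ_le (H : US a σ κ) {X Y : PM V} {c : ℝ}
    (hc : ∀ Q, GoodArc σ Q X Y ∨ GoodArc σ Q Y X → |err a σ h Q| ≤ c) (Q : List V)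
    (hg : GoodArc σ Q X Y ∨ GoodArc σ Q Y X) : |FQ a σ h Q| ≤ (Q.length - 1 : ℝ) * c := by
  induction hk : Q.length using Nat.strong_induction_on generalizing Q with
  | _ k ih =>
  subst hk
  by_cases hQ : 2 ≤ Q.length
  · obtain ⟨hL, hR, e, hm⟩ := H.sp_spec hQ
    have h1 := hc Q hg
    rw [err, if_pos hQ] at h1
    generalize (sp σ Q).1 = L at *
    generalize (sp σ Q).2 = R at *
    subst e
    have hp : (GoodArc σ L X Y ∨ GoodArc σ L Y X) ∧ (GoodArc σ R X Y ∨ GoodArc σ R Y X) := by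
      rcases hg with hg | hg
      · exact ⟨.inl (hg.split H hL hR hm).1, (hg.split H hL hR hm).2⟩
      · exact ⟨.inr (hg.split H hL hR hm).1, (hg.split H hL hR hm).2.symm⟩
    have l1 := List.length_pos_iff.2 hL
    have l2 := List.length_pos_iff.2 hR
    have h2 := abs_le.1 (ih _ (by simp; omega) L hp.1 rfl)
    have h3 := abs_le.1 (ih _ (by simp; omega) R hp.2 rfl)
    rw [List.length_append, Nat.cast_add, abs_le] at *
    split_ifs at h1 <;> constructor <;> linarith [h1.1, h1.2]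
  · have h0 : Q ≠ [] := hg.elim (·.1) (·.1)
    obtain ⟨b, l, rfl⟩ := List.exists_cons_of_ne_nil h0
    obtain rfl : l = [] := List.length_eq_zero_iff.1 (by rw [List.length_cons] at hQ; omega)
    simp [FQ, gl]

theorem GoodArc.wt_le (H : US a σ κ) {Q : List V} {X Y : PM V} (hg : GoodArc σ Q X Y) :
    ∃ u, wt a X * wt a Y ≤ κ ^ 4 * om a σ Q X (swap (hd Q) u • Y) := by
  obtain ⟨h0, hn, hA, g1, g2⟩ := hg
  have w1 := H.wpos X
  have w2 := H.wpos Y
  have k4 := H.k4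
  have easy : Inst Q X Y → (Odd Q.length → σ (lt Q) (X.1 (lt Q)) ≤ mQ σ Q) →
      ∃ u, wt a X * wt a Y ≤ κ ^ 4 * om a σ Q X (swap (hd Q) u • Y) := fun hi g3 => by
    refine ⟨hd Q, ?_⟩
    rw [swap_self, ← Perm.one_def, one_smul, om, al, be, if_pos hi.2.2.1, if_pos hi.2.2.2,
      H.dsc_eq_one g1, mul_one]
    split_ifs with ho
    · rw [H.dsc_eq_one (g3 ho), mul_one]
      exact le_mul_of_one_le_left (by positivity) k4
    · rw [mul_one]
      exact le_mul_of_one_le_left (by positivity) k4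
  rcases Nat.even_or_odd Q.length with he | ho
  · have hno := Nat.not_odd_iff_even.2 he
    rw [if_neg hno] at g2
    by_cases hc : Y.1 (hd Q) = lt Q
    · exact easy (hA.inst h0 hn fun _ => hc) fun ho => absurd ho hno
    · have hi := hA.close h0 hn he
      have n1 : hd Q ≠ lt Q := by rw [← hi.closed he]; exact (PM.ne _ _).symm
      have n2 : Y.1 (hd Q) ≠ Y.1 (lt Q) := fun e => n1 (Y.inj e)
      have e := wt_swap H.ha Y (fun e => hc (by rw [e, Y.inv])) n2
      rw [Y.inv] at e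
      have p := H.mQ_pos h0
      rw [H.hs] at g2
      have t := H.cmp0 w2.le (Y.ne _).symm (Y.ne _) n2.symm n1 p p
        (m3 := σ (Y.1 (lt Q)) (Y.1 (hd Q))) (m4 := mQ σ Q) e (by
          rw [min_eq_left g1, min_eq_left g2, min_self,
            min_eq_right (H.mQ_le (hd_mem h0) (lt_mem h0)), ← min_mul_max]
          refine mul_le_mul ?_ (max_le g1 g2) (lt_max_of_lt_left (H.h0 _ _)).le (H.h0 _ _).le
          have u1 := H.hu (Y.1 (lt Q)) (lt Q) (hd Q)
          have u2 := H.hu (Y.1 (lt Q)) (hd Q) (Y.1 (hd Q))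
          rw [min_eq_left (g2.trans (H.mQ_le (lt_mem h0) (hd_mem h0)))] at u1
          exact (le_min ((min_le_right _ _).trans u1) (min_le_left _ _)).trans u2)
      rw [H.dsc_eq_one g1, H.dsc_eq_one g2, H.dsc_eq_one le_rfl, mul_one, mul_one, mul_one] at t
      refine ⟨Y.1 (lt Q), ?_⟩
      rw [hi.om_even he, mul_left_comm]
      gcongr
  · rw [if_pos ho] at g2
    exact easy (hA.inst h0 hn fun he => absurd he (Nat.not_even_iff_odd.2 ho)) fun _ => g2

theorem US.sum_GG (H : US a σ κ) : ∑ p : PM V × PM V, wt a p.1 * wt a p.2 * GG a σ h p ≤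
    2 * (Fintype.card V * (κ ^ 4 * Err a σ h)) := by
  classical
  have s : ∑ p : PM V × PM V, ∑ Q ∈ arcs V, wt a p.1 * wt a p.2 *
      (if GoodArc σ Q p.1 p.2 then err a σ h Q ^ 2 else 0) ≤
      Fintype.card V * (κ ^ 4 * Err a σ h) := by
    rw [sum_comm, Err, mul_sum, mul_sum]
    refine sum_le_sum fun Q _ => ?_
    have o : ∀ X Y, 0 ≤ κ ^ 4 * (om a σ Q X Y * err a σ h Q ^ 2) := fun X Y =>
      mul_nonneg (zero_le_one.trans H.k4) (mul_nonneg (H.om_nonneg _ _ _) (sq_nonneg _))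
    calc _ ≤ ∑ p : PM V × PM V, ∑ u : V,
          κ ^ 4 * (om a σ Q p.1 (swap (hd Q) u • p.2) * err a σ h Q ^ 2) := by
          refine sum_le_sum fun p _ => ?_
          split_ifs with hg
          · obtain ⟨u, hu⟩ := hg.wt_le H
            refine le_trans ?_ (single_le_sum (f := fun u : V => κ ^ 4 *
              (om a σ Q p.1 (swap (hd Q) u • p.2) * err a σ h Q ^ 2)) (fun u _ => o _ _)
              (mem_univ u))
            rw [← mul_assoc]
            exact mul_le_mul_of_nonneg_right hu (sq_nonneg _)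
          · rw [mul_zero]
            exact sum_nonneg fun u _ => o _ _
      _ = ∑ _u : V, κ ^ 4 * ∑ p : PM V × PM V, om a σ Q p.1 p.2 * err a σ h Q ^ 2 := by
          rw [sum_comm]
          refine sum_congr rfl fun u _ => ?_
          rw [← mul_sum]
          exact congrArg _ (((Equiv.refl _).prodCongr (MulAction.toPerm (swap (hd Q) u))).sum_comp
            fun p : PM V × PM V => om a σ Q p.1 p.2 * err a σ h Q ^ 2)
      _ = _ := by rw [sum_const, card_univ, nsmul_eq_mul]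
  have s' := (Equiv.prodComm _ _).sum_comp fun p : PM V × PM V => ∑ Q ∈ arcs V,
    wt a p.1 * wt a p.2 * (if GoodArc σ Q p.1 p.2 then err a σ h Q ^ 2 else 0)
  simp only [GG, mul_sum, mul_add, sum_add_distrib]
  simp only [Equiv.prodComm_apply, Prod.fst_swap, Prod.snd_swap, mul_comm (wt a (Prod.snd _))] at s'
  rw [two_mul]
  exact add_le_add s (s'.trans_le s)

theorem US.top1 (H : US a σ κ) (t : V) (p : PM V × PM V) :
    wt a p.1 * wt a p.2 * (h (sw {t} p).1 - h p.1) ^ 2 ≤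
      2 * (∑ Q ∈ arcs V, od a σ h Q p.1 p.2 + ∑ Q ∈ arcs V, od a σ h Q p.2 p.1) +
        2 * (Fintype.card V : ℝ) ^ 2 * (wt a p.1 * wt a p.2 * GG a σ h p) := by
  classical
  obtain ⟨X, Y⟩ := p
  have w := mul_pos (H.wpos X) (H.wpos Y)
  have g0 : ∀ Q, 0 ≤ (if GoodArc σ Q X Y then err a σ h Q ^ 2 else 0) +
      if GoodArc σ Q Y X then err a σ h Q ^ 2 else 0 := fun Q => by split_ifs <;> positivity
  have G0 : 0 ≤ GG a σ h (X, Y) := sum_nonneg fun Q _ => by convert g0 Q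
  have hF : ∀ Q, GoodArc σ Q X Y ∨ GoodArc σ Q Y X →
      FQ a σ h Q ^ 2 ≤ (Fintype.card V : ℝ) ^ 2 * GG a σ h (X, Y) := fun Q hg => by
    have h1 := H.FQ_le (h := h) (c := √(GG a σ h (X, Y))) (fun Q hg => Real.abs_le_sqrt (by
      refine le_trans ?_ ((single_le_sum (fun Q _ => g0 Q)
        (mem_arcs.2 ⟨hg.elim (·.1) (·.1), hg.elim (·.2.1) (·.2.1)⟩)).trans_eq (by
          unfold GG; congr!))
      rcases hg with hg | hg <;> rw [if_pos hg] <;> split_ifs <;>
        nlinarith [sq_nonneg (err a σ h Q)])) Q hg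
    have h2 : (Q.length : ℝ) ≤ Fintype.card V :=
      Nat.cast_le.2 (hg.elim (·.2.1) (·.2.1)).length_le_card
    have h3 : |FQ a σ h Q| ≤ Fintype.card V * √(GG a σ h (X, Y)) :=
      h1.trans (mul_le_mul_of_nonneg_right (by linarith) (Real.sqrt_nonneg _))
    rw [← sq_abs, ← Real.sq_sqrt G0, ← mul_pow]
    gcongr
  have core : ∀ X Y : PM V, ∀ b, Reach {t} (X, Y) b →
      (∀ v, Reach {t} (X, Y) v → σ b (Y.1 b) ≤ σ v (X.1 v) ∧ σ b (Y.1 b) ≤ σ v (Y.1 v)) →
      ∃ Q ∈ arcs V, GoodArc σ Q X Y ∧ om a σ Q X Y = wt a X * wt a Y ∧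
        (sw {t} (X, Y)).1 = tau Q • X ∧ (sw {t} (Y, X)).1 = (tau Q)⁻¹ • Y := by
    rintro X Y b ⟨t', rfl, hb⟩ hmin
    obtain ⟨Q, rfl, hi, he⟩ := exists_closed X Y b
    have ht : t' ∈ Q := (hi.reach he (hd_mem hi.1) t').1 ⟨_, rfl, rtg_symm hb⟩
    have hm := H.le_mQ hi.1 hi.alt (fun v hv => (hmin v ((hi.reach he ht v).2 hv)).1)
      fun v hv => (hmin v ((hi.reach he ht v).2 hv)).2
    have hc := hi.closed he
    refine ⟨Q, mem_arcs.2 ⟨hi.1, hi.2.1⟩, ⟨hi.1, hi.2.1, hi.alt, hm, ?_⟩, ?_, hi.sw_fst he ht,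
      hi.sw_snd he ht⟩
    · rwa [if_neg (Nat.not_odd_iff_even.2 he), Y.eq_iff.1 hc, H.hs, ← hc]
    · rw [hi.om_even he, H.dsc_eq_one (hc ▸ hm), mul_one]
  obtain ⟨b, hb, hmin⟩ := exists_min_image (univ.filter (Reach {t} (X, Y)))
    (fun v => min (σ v (X.1 v)) (σ v (Y.1 v))) ⟨t, by simpa using ⟨t, rfl, .refl⟩⟩
  simp only [mem_filter, mem_univ, true_and, le_min_iff] at hb hmin
  have o1 := fun Q => H.od_nonneg (h := h) Q X Y
  have o2 := fun Q => H.od_nonneg (h := h) Q Y X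
  have S1 : 0 ≤ ∑ Q ∈ arcs V, od a σ h Q X Y := sum_nonneg fun Q _ => o1 Q
  have S2 : 0 ≤ ∑ Q ∈ arcs V, od a σ h Q Y X := sum_nonneg fun Q _ => o2 Q
  dsimp only
  rcases min_choice (σ b (X.1 b)) (σ b (Y.1 b)) with e | e <;> rw [e] at hmin
  · obtain ⟨Q, hQ, hg, e1, -, e2⟩ := core Y X b (Reach_swap _ X Y ▸ hb) fun v hv =>
      (hmin v (Reach_swap _ X Y ▸ hv)).symm
    have h1 := mul_le_mul_of_nonneg_left (hF Q (.inr hg)) w.le
    have h2 := (H.od_gl (h := h) zero_le_one (one_mul (om a σ Q Y X)).ge).trans_eq (one_mul _)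
    have h3 := single_le_sum (fun Q _ => o2 Q) hQ
    rw [e1, mul_comm (wt a Y), gl] at h2
    rw [e2]
    nlinarith [mul_nonneg w.le (sq_nonneg (2 * FQ a σ h Q - (h X - h ((tau Q)⁻¹ • X))))]
  · obtain ⟨Q, hQ, hg, e1, e2, -⟩ := core X Y b hb hmin
    have h1 := mul_le_mul_of_nonneg_left (hF Q (.inl hg)) w.le
    have h2 := H.od_one (h := h) Q X Y
    have h3 := single_le_sum (fun Q _ => o1 Q) hQ
    rw [e1, fl] at h2
    rw [e2]
    nlinarith [mul_nonneg w.le (sq_nonneg (2 * FQ a σ h Q - (h (tau Q • X) - h X)))]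

omit [DecidableEq V] [Fintype V] [Inhabited V] in
/-- The exchange as a bijection. -/
noncomputable def swE (T : Set V) : PM V × PM V ≃ PM V × PM V :=
  Function.Involutive.toPerm (sw T) (sw_sw T)

omit [Inhabited V] in
theorem US.tele (H : US a σ κ) {B : ℝ}
    (hB : ∀ t, ∑ p : PM V × PM V, wt a p.1 * wt a p.2 * (h (sw {t} p).1 - h p.1) ^ 2 ≤ B)
    (T : Finset V) :
    ∑ p : PM V × PM V, wt a p.1 * wt a p.2 * (h (sw T p).1 - h p.1) ^ 2 ≤ (T.card : ℝ) ^ 2 * B := by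
  induction T using Finset.induction_on with
  | empty => simp [sw_empty]
  | insert t T ht ih =>
    have s := (swE (T : Set V)).sum_comp fun p : PM V × PM V =>
      wt a p.1 * wt a p.2 * (h (sw {t} p).1 - h p.1) ^ 2
    have s1 := s.trans_le (hB t)
    rcases Nat.eq_zero_or_pos T.card with h0 | h0
    · obtain rfl := card_eq_zero.1 h0
      simpa using hB t
    have k : (0 : ℝ) < T.card := Nat.cast_pos.2 h0
    rw [card_insert_of_notMem ht, coe_insert, Nat.cast_succ]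
    calc _ ≤ ∑ p : PM V × PM V, ((1 + 1 / T.card) *
          (wt a p.1 * wt a p.2 * (h (sw T p).1 - h p.1) ^ 2) + (1 + T.card) *
            (wt a (swE T p).1 * wt a (swE T p).2 *
              (h (sw {t} (swE T p)).1 - h (swE T p).1) ^ 2)) := by
          refine sum_le_sum fun p _ => ?_
          have w := mul_pos (H.wpos p.1) (H.wpos p.2)
          change _ ≤ _ + _ * (wt a (sw T p).1 * wt a (sw T p).2 *
            (h (sw {t} (sw T p)).1 - h (sw T p).1) ^ 2)
          rw [wt_sw]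
          have q : ∀ x y : ℝ, (x + y) ^ 2 ≤ (1 + 1 / T.card) * x ^ 2 + (1 + T.card) * y ^ 2 :=
            fun x y => by
              have : (1 + 1 / T.card) * x ^ 2 + (1 + T.card) * y ^ 2 - (x + y) ^ 2 =
                  (x - T.card * y) ^ 2 / T.card := by field_simp; ring
              have : 0 ≤ (x - T.card * y) ^ 2 / T.card := by positivity
              linarith
          rcases sw_insert t T p with e | e <;> rw [e]
          · have := mul_le_mul_of_nonneg_left (q (h (sw T p).1 - h p.1) 0) w.le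
            have : 0 ≤ (1 + T.card) * (wt a p.1 * wt a p.2 *
              (h (sw {t} (sw T p)).1 - h (sw T p).1) ^ 2) := by positivity
            nlinarith
          · have := mul_le_mul_of_nonneg_left (q (h (sw T p).1 - h p.1)
              (h (sw {t} (sw T p)).1 - h (sw T p).1)) w.le
            nlinarith
      _ ≤ (1 + 1 / T.card) * ((T.card : ℝ) ^ 2 * B) + (1 + T.card) * B := by
          rw [sum_add_distrib, ← mul_sum, ← mul_sum]
          gcongr
      _ = _ := by field_simp; ring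

theorem poincare (a σ : V → V → ℝ) (κ : ℝ) (hκ : 1 ≤ κ) (ha : ∀ u v, a u v = a v u)
    (hs : ∀ u v, σ u v = σ v u) (h0 : ∀ u v, 0 < σ u v)
    (hu : ∀ x y z, min (σ x y) (σ y z) ≤ σ x z)
    (hlo : ∀ u v, u ≠ v → σ u v ≤ a u v) (hhi : ∀ u v, u ≠ v → a u v ≤ κ * σ u v)
    (h : PM V → ℝ) :
    ∑ X, ∑ Y, wt a X * wt a Y * (h X - h Y) ^ 2
      ≤ 300 * (Fintype.card V : ℝ) ^ 7 * κ ^ 16 * (Darc a h + Zf a * Dsw a h) := by
  have H : US a σ κ := ⟨hκ, ha, hs, h0, hu, hlo, hhi⟩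
  have d := H.dev_le (h := h)
  have g := H.sum_GG (h := h)
  have e := H.err_le (h := h)
  have n1 : (1 : ℝ) ≤ Fintype.card V := by exact_mod_cast Fintype.card_pos
  have d0 : 0 ≤ Dev a σ h := sum_nonneg fun Q _ => sum_nonneg fun p _ => H.od_nonneg _ _ _
  have d1 : 0 ≤ Darc a h := (mul_nonneg_iff_of_pos_left (by positivity)).1 (d0.trans d)
  have z0 : 0 ≤ Zf a * Dsw a h := mul_nonneg (sum_nonneg fun X _ => (H.wpos X).le)
    (sum_nonneg fun _ _ => sum_nonneg fun _ _ => sum_nonneg fun _ _ =>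
      mul_nonneg (lt_min (H.wpos _) (H.wpos _)).le (sq_nonneg _))
  have t := H.tele (h := h) (B := 300 * (Fintype.card V : ℝ) ^ 5 * κ ^ 16 *
    (Darc a h + Zf a * Dsw a h)) (fun t => by
      refine (sum_le_sum fun p _ => H.top1 t p).trans ?_
      have s : ∑ p : PM V × PM V, ∑ Q ∈ arcs V, od a σ h Q p.1 p.2 = Dev a σ h := sum_comm
      have s' := ((Equiv.prodComm _ _).sum_comp fun p : PM V × PM V =>
        ∑ Q ∈ arcs V, od a σ h Q p.1 p.2).trans s
      rw [sum_add_distrib, ← mul_sum, ← mul_sum, sum_add_distrib, s]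
      erw [s']
      have k : κ ^ 4 ≤ (Fintype.card V : ℝ) ^ 5 * κ ^ 16 :=
        (pow_le_pow_right₀ hκ (by norm_num)).trans
          (le_mul_of_one_le_left (by positivity) (one_le_pow₀ n1))
      calc _ ≤ 2 * (2 * ((Fintype.card V : ℝ) ^ 5 * κ ^ 16 * (Darc a h + Zf a * Dsw a h))) +
            2 * (Fintype.card V : ℝ) ^ 2 * (2 * (Fintype.card V * (κ ^ 4 *
              (20 * (Fintype.card V : ℝ) ^ 2 * κ ^ 12 * (Darc a h + Zf a * Dsw a h))))) := by
            rw [← two_mul]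
            gcongr
            · exact d.trans (mul_le_mul k (le_add_of_nonneg_right z0) d1 (by positivity))
            · refine g.trans ?_
              gcongr
        _ = 84 * (Fintype.card V : ℝ) ^ 5 * κ ^ 16 * (Darc a h + Zf a * Dsw a h) := by ring
        _ ≤ _ := by gcongr; norm_num) univ
  rw [coe_univ, Fintype.sum_prod_type] at t
  simp only [sw_univ, card_univ] at t
  calc _ = _ := sum_congr rfl fun X _ => sum_congr rfl fun Y _ => by ring
    _ ≤ _ := t
    _ = _ := by ring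

end Vale.Agent.P308
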