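import Vale.Agent.P308.PML

/-! Splitting an alternating list: structure of the pieces. -/

namespace Vale.Agent.P308

open Finset Equiv

variable {V : Type} [DecidableEq V] [Inhabited V]

omit [Inhabited V] in
theorem swap_smul_apply {X : PM V} {u w v : V} (h1 : v ≠ u) (h2 : v ≠ w) (h3 : X.1 v ≠ u)
    (h4 : X.1 v ≠ w) : (swap u w • X).1 v = X.1 v := by
  rw [PM.smul_apply, swap_inv, swap_apply_of_ne_of_ne h1 h2, swap_apply_of_ne_of_ne h3 h4]

omit [Inhabited V] in
theorem swap_smul_left {X : PM V} {u w : V} (h : X.1 w ≠ u) : (swap u w • X).1 u = X.1 w := by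
  rw [PM.smul_apply, swap_inv, swap_apply_left, swap_apply_of_ne_of_ne h (X.ne w)]

omit [Inhabited V] in
theorem swap_smul_right {X : PM V} {u w : V} (h : X.1 u ≠ w) : (swap u w • X).1 w = X.1 u := by
  rw [PM.smul_apply, swap_inv, swap_apply_right, swap_apply_of_ne_of_ne (X.ne u) h]

omit [DecidableEq V] in
theorem lt_tail {Q : List V} (h : Q.tail ≠ []) : lt Q.tail = lt Q := by
  cases Q with
  | nil => rfl
  | cons a l => exact (lt_cons a h).symm

omit [DecidableEq V] in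
theorem hd_not_mem_tail {Q : List V} (h0 : Q ≠ []) (hn : Q.Nodup) : hd Q ∉ Q.tail := by
  obtain ⟨a, l, rfl⟩ := List.exists_cons_of_ne_nil h0
  exact (List.nodup_cons.1 hn).1

omit [DecidableEq V] [Inhabited V] in
theorem odd_tail {Q : List V} (h0 : Q ≠ []) : Odd Q.tail.length ↔ Even Q.length := by
  obtain ⟨a, l, rfl⟩ := List.exists_cons_of_ne_nil h0
  simp [Nat.even_add_one]

omit [DecidableEq V] [Inhabited V] in
theorem even_tail {Q : List V} (h0 : Q ≠ []) : Even Q.tail.length ↔ Odd Q.length := by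
  obtain ⟨a, l, rfl⟩ := List.exists_cons_of_ne_nil h0
  simp [Nat.odd_add_one]

omit [DecidableEq V] [Inhabited V] in
theorem ne_nil_of_odd {Q : List V} (h : Odd Q.length) : Q ≠ [] := by
  rintro rfl
  simp at h

omit [DecidableEq V] [Inhabited V] in
theorem ne_of_nodup {L R : List V} (hn : (L ++ R).Nodup) {x y : V} (hx : x ∈ L) (hy : y ∈ R) :
    x ≠ y := (List.nodup_append.1 hn).2.2 x hx y hy

omit [DecidableEq V] in
theorem Alt.splitA {X Y : PM V} {L R : List V} (h : Alt X Y (L ++ R)) (hL : L ≠ []) (hR : R ≠ [])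
    (he : Even L.length) : Alt X Y L ∧ Alt X Y R ∧ Y.1 (lt L) = hd R := by
  obtain ⟨h1, h2⟩ := h
  have ho := (odd_tail hL).2 he
  rw [List.tail_append_of_ne_nil hL, Ef_append_odd ho hR, lt_tail (ne_nil_of_odd ho)] at h2
  rw [Ef_append_even he] at h1
  exact ⟨⟨h1.1, h2.1⟩, ⟨h1.2, h2.2.2⟩, h2.2.1⟩

omit [DecidableEq V] in
theorem Alt.splitB {X Y : PM V} {L R : List V} (h : Alt X Y (L ++ R)) (hR : R ≠ [])
    (ho : Odd L.length) : Alt X Y L ∧ Alt Y X R ∧ X.1 (lt L) = hd R := by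
  obtain ⟨h1, h2⟩ := h
  have hL := ne_nil_of_odd ho
  rw [List.tail_append_of_ne_nil hL, Ef_append_even ((even_tail hL).2 ho)] at h2
  rw [Ef_append_odd ho hR] at h1
  exact ⟨⟨h1.1, h2.1⟩, ⟨h2.2, h1.2.2⟩, h1.2.1⟩

omit [DecidableEq V] in
theorem Inst.closed {X Y : PM V} {Q : List V} (h : Inst Q X Y) (he : Even Q.length) :
    Y.1 (hd Q) = lt Q := ((Ef_rotate h.1).1 h.2.2.2).2 he

omit [DecidableEq V] in
theorem Alt.inst {X Y : PM V} {Q : List V} (h : Alt X Y Q) (h0 : Q ≠ []) (hn : Q.Nodup)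
    (hc : Even Q.length → Y.1 (hd Q) = lt Q) : Inst Q X Y :=
  ⟨h0, hn, h.1, (Ef_rotate h0).2 ⟨h.2, hc⟩⟩

/-- Closing an even list by a switch. -/
theorem Alt.close {X Y : PM V} {Q : List V} (h : Alt X Y Q) (h0 : Q ≠ []) (hn : Q.Nodup)
    (he : Even Q.length) : Inst Q X (swap (hd Q) (Y.1 (lt Q)) • Y) := by
  have ho := (odd_tail h0).2 he
  have h1 := lt_tail (ne_nil_of_odd ho)
  have h2 := h.2.not_mem hn.tail ho
  have h3 := hd_not_mem_tail h0 hn
  have h4 := lt_mem (ne_nil_of_odd ho)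
  rw [h1] at h2 h4
  refine Alt.inst ⟨h.1, h.2.of_eq hn.tail fun v hv hv' => ?_⟩ h0 hn fun _ => ?_
  · have h5 := h.2.mem hv hv'
    exact swap_smul_apply (fun e => h3 (e ▸ hv)) (fun e => h2 (e ▸ hv)) (fun e => h3 (e ▸ h5))
      fun e => h2 (e ▸ h5)
  · rw [swap_smul_left, Y.inv]
    rw [Y.inv]
    exact fun e => h3 (e ▸ h4)

/-- The pieces when the first part has even length. -/
theorem Inst.splitA {X Y : PM V} {L R : List V} (h : Inst (L ++ R) X Y) (hL : L ≠ [])
    (hR : R ≠ []) (he : Even L.length) :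
    Inst L X (swap (hd L) (hd R) • Y) ∧ Inst R X (swap (hd L) (hd R) • Y) ∧
      Inst R (tau L • X) ((tau L)⁻¹ • swap (hd L) (hd R) • Y) ∧
      Y.1 (hd R) = lt L ∧ Y.1 (hd L) ≠ hd R ∧
      (swap (hd L) (hd R) • Y).1 (hd R) = Y.1 (hd L) ∧
      (∀ v ∈ R, (tau L • X).1 v = X.1 v) ∧
      ∀ v ∈ R, ((tau L)⁻¹ • swap (hd L) (hd R) • Y).1 v = (swap (hd L) (hd R) • Y).1 v := by
  have hn := h.2.1
  have hnL := hn.of_append_left
  have hnR := hn.of_append_right
  obtain ⟨a1, a2, a3⟩ := h.alt.splitA hL hR he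
  have hne : ¬ Odd L.length := Nat.not_odd_iff_even.2 he
  have i1 : Inst L X (swap (hd L) (hd R) • Y) := a3 ▸ a1.close hL hnL he
  have ho := (odd_tail hL).2 he
  have n1 : Y.1 (hd L) ≠ hd R := fun e => by
    have := lt_mem (ne_nil_of_odd ho)
    rw [lt_tail (ne_nil_of_odd ho), ← Y.inj (e.trans a3.symm)] at this
    exact hd_not_mem_tail hL hnL this
  have e1 := swap_smul_right n1
  have i2 : Inst R X (swap (hd L) (hd R) • Y) := by
    refine Alt.inst ⟨a2.1, a2.2.of_eq hnR.tail fun v hv hv' => ?_⟩ hR hnR fun hRe => ?_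
    · have h5 := a2.2.mem hv hv'
      have h3 := hd_not_mem_tail hR hnR
      exact swap_smul_apply (ne_of_nodup hn (hd_mem hL) (List.mem_of_mem_tail hv)).symm
        (fun e => h3 (e ▸ hv)) (ne_of_nodup hn (hd_mem hL) (List.mem_of_mem_tail h5)).symm
        fun e => h3 (e ▸ h5)
    · have := h.closed (by rw [List.length_append]; exact he.add hRe)
      rwa [hd_append hL, lt_append _ hR, ← e1] at this
  have e2 : ∀ v ∈ R, (tau L • X).1 v = X.1 v := fun v hv => by
    rw [i1.tau_apply, if_neg fun h1 => ne_of_nodup hn h1 hv rfl, if_neg fun h1 => hne h1.1]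
  have e3 : ∀ v ∈ R, ((tau L)⁻¹ • swap (hd L) (hd R) • Y).1 v
      = (swap (hd L) (hd R) • Y).1 v := fun v hv => by
    rw [i1.tau_inv_apply, if_neg fun h1 => ne_of_nodup hn h1 hv rfl, if_neg fun h1 => hne h1.1]
  exact ⟨i1, i2, ⟨hR, hnR, i2.2.2.1.of_eq hnR fun v hv _ => e2 v hv,
    i2.2.2.2.of_eq (List.nodup_rotate.2 hnR) fun v hv _ => e3 v (List.mem_rotate.1 hv)⟩,
    Y.eq_iff.1 a3, n1, e1, e2, e3⟩

/-- Common part of the two cases with a first part of odd length. -/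
theorem splitB_core {X Y : PM V} {L R : List V} (hn : (L ++ R).Nodup)
    (i1 : Inst L X Y) (i2 : Inst R Y X) :
    Inst R ((tau L)⁻¹ • Y) (tau L • X) ∧
      (∀ v ∈ R, (Odd R.length → v ≠ lt R) → ((tau L)⁻¹ • Y).1 v = Y.1 v) ∧
      ∀ v ∈ R, (Odd R.length → v ≠ hd R) → (tau L • X).1 v = X.1 v := by
  have e1 : ∀ v ∈ R, (Odd R.length → v ≠ lt R) → ((tau L)⁻¹ • Y).1 v = Y.1 v := fun v hv hv' => by
    rw [i1.tau_inv_apply, if_neg fun h1 => ne_of_nodup hn h1 hv rfl, if_neg]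
    rintro ⟨-, e⟩
    have := i2.2.2.1.mem hv hv'
    rw [e, Y.inv] at this
    exact ne_of_nodup hn (hd_mem i1.1) this rfl
  have e2 : ∀ v ∈ R, (Odd R.length → v ≠ hd R) → (tau L • X).1 v = X.1 v := fun v hv hv' => by
    rw [i1.tau_apply, if_neg fun h1 => ne_of_nodup hn h1 hv rfl, if_neg]
    rintro ⟨-, e⟩
    have := i2.2.2.2.mem (List.mem_rotate.2 hv) (by simpa [lt_rotate i2.1] using hv')
    rw [e, X.inv, List.mem_rotate] at this
    exact ne_of_nodup hn (lt_mem i1.1) this rfl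
  exact ⟨⟨i2.1, i2.2.1, i2.2.2.1.of_eq i2.2.1 e1,
    i2.2.2.2.of_eq (List.nodup_rotate.2 i2.2.1) fun v hv hv' =>
      e2 v (List.mem_rotate.1 hv) (by simpa [lt_rotate i2.1] using hv')⟩, e1, e2⟩

/-- The pieces when both parts have odd length. -/
theorem Inst.splitB1 {X Y : PM V} {L R : List V} (h : Inst (L ++ R) X Y) (hL : Odd L.length)
    (hR : Odd R.length) :
    Inst L X Y ∧ Inst R Y X ∧ Inst R ((tau L)⁻¹ • Y) (tau L • X) ∧ X.1 (lt L) = hd R ∧
      Y.1 (hd L) = lt R ∧ ((tau L)⁻¹ • Y).1 (lt R) = lt L ∧ (tau L • X).1 (hd R) = hd L ∧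
      (tau R)⁻¹ • tau L • X = tau (L ++ R) • X := by
  have hn := h.2.1
  have hL0 := ne_nil_of_odd hL
  have hR0 := ne_nil_of_odd hR
  have hQ : Even (L ++ R).length := by rw [List.length_append]; exact hL.add_odd hR
  have hQ' : ¬ Odd (L ++ R).length := Nat.not_odd_iff_even.2 hQ
  obtain ⟨a1, a2, a3⟩ := h.alt.splitB hR0 hL
  have i1 : Inst L X Y := a1.inst hL0 hn.of_append_left fun e =>
    absurd e (Nat.not_even_iff_odd.2 hL)
  have i2 : Inst R Y X := a2.inst hR0 hn.of_append_right fun e =>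
    absurd e (Nat.not_even_iff_odd.2 hR)
  obtain ⟨i3, e1, e2⟩ := splitB_core hn i1 i2
  have c1 : Y.1 (hd L) = lt R := by
    have := h.closed hQ
    rwa [hd_append hL0, lt_append _ hR0] at this
  have c2 : ((tau L)⁻¹ • Y).1 (lt R) = lt L := by
    rw [i1.tau_inv_apply, if_neg fun h1 => ne_of_nodup hn h1 (lt_mem hR0) rfl,
      if_pos ⟨hL, c1.symm⟩]
  have c3 : (tau L • X).1 (hd R) = hd L := by
    rw [i1.tau_apply, if_neg fun h1 => ne_of_nodup hn h1 (hd_mem hR0) rfl, if_pos ⟨hL, a3.symm⟩]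
  refine ⟨i1, i2, i3, a3, c1, c2, c3, PM.ext fun v => ?_⟩
  rw [i3.tau_inv_apply, h.tau_apply, c3]
  simp only [hQ', false_and, if_false, hR, true_and]
  by_cases hv : v ∈ R
  · rw [if_pos hv, if_pos (List.mem_append_right _ hv)]
    split_ifs with h1
    · rw [h1, ← c1, Y.inv]
    · exact e1 v hv fun _ => h1
  · rw [if_neg hv]
    by_cases hv' : v ∈ L
    · rw [if_pos (List.mem_append_left _ hv')]
      split_ifs with h1
      · rw [h1, c1]
      · rw [i1.tau_apply, if_pos hv', if_neg fun e => h1 e.2]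
    · rw [if_neg (show v ∉ L ++ R by simp [hv, hv']),
        if_neg (show v ≠ hd L from fun e => hv' (e ▸ hd_mem hL0)), i1.tau_apply, if_neg hv',
        if_neg fun e => hv (by rw [e.2, a3]; exact hd_mem hR0)]

/-- The pieces when the first part is odd and the second even. -/
theorem Inst.splitB2 {X Y : PM V} {L R : List V} (h : Inst (L ++ R) X Y) (hL : Odd L.length)
    (hR0 : R ≠ []) (hR : Even R.length) :
    Inst L (swap (lt L) (lt R) • X) Y ∧ Inst R Y (swap (lt L) (lt R) • X) ∧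
      Inst R ((tau L)⁻¹ • Y) (tau L • swap (lt L) (lt R) • X) ∧ X.1 (lt L) = hd R ∧
      hd R ≠ lt R ∧ (swap (lt L) (lt R) • X).1 (lt L) = X.1 (lt R) ∧
      (tau R)⁻¹ • tau L • swap (lt L) (lt R) • X = tau (L ++ R) • X := by
  have hn := h.2.1
  have hnL := hn.of_append_left
  have hnR := hn.of_append_right
  have hL0 := ne_nil_of_odd hL
  have hQ : Odd (L ++ R).length := by rw [List.length_append]; exact hL.add_even hR
  have hR' : ¬ Odd R.length := Nat.not_odd_iff_even.2 hR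
  obtain ⟨a1, a2, a3⟩ := h.alt.splitB hR0 hL
  have ho := (odd_tail hR0).2 hR
  have m1 : lt R ∈ R.tail := lt_tail (ne_nil_of_odd ho) ▸ lt_mem (ne_nil_of_odd ho)
  have n1 : hd R ≠ lt R := fun e => hd_not_mem_tail hR0 hnR (e ▸ m1)
  have n2 : lt L ≠ lt R := ne_of_nodup hn (lt_mem hL0) (lt_mem hR0)
  have n3 : X.1 (lt L) ≠ lt R := a3 ▸ n1
  have n4 : X.1 (lt R) ≠ lt L := fun e => n3 (X.eq_iff.1 e)
  have c1 := swap_smul_left n4
  have m2 : X.1 (lt R) ∉ L ++ R := by
    have := h.2.2.1.not_mem hn hQ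
    rwa [lt_append _ hR0] at this
  have i1 : Inst L (swap (lt L) (lt R) • X) Y := by
    refine Alt.inst ⟨a1.1.of_eq hnL fun v hv hv' => ?_, a1.2⟩ hL0 hnL fun e =>
      absurd e (Nat.not_even_iff_odd.2 hL)
    have h5 := a1.1.mem hv hv'
    refine swap_smul_apply (hv' hL) (ne_of_nodup hn hv (lt_mem hR0)) (fun e => ?_)
      (ne_of_nodup hn h5 (lt_mem hR0))
    exact ne_of_nodup hn hv (hd_mem hR0) (by rw [← a3, ← e, X.inv])
  have i2 : Inst R Y (swap (lt L) (lt R) • X) := by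
    refine Alt.inst ⟨a2.1, a2.2.of_eq hnR.tail fun v hv hv' => ?_⟩ hR0 hnR fun _ => ?_
    · have h5 := a2.2.mem hv hv'
      have h6 := hv' ho
      rw [lt_tail (ne_nil_of_odd ho)] at h6
      refine swap_smul_apply (ne_of_nodup hn (lt_mem hL0) (List.mem_of_mem_tail hv)).symm h6
        (ne_of_nodup hn (lt_mem hL0) (List.mem_of_mem_tail h5)).symm fun e => m2 ?_
      rw [← e, X.inv]
      exact List.mem_append_right _ (List.mem_of_mem_tail hv)
    · rw [PM.eq_iff, swap_smul_right n3, a3]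
  obtain ⟨i3, e1, e2⟩ := splitB_core hn i1 i2
  refine ⟨i1, i2, i3, a3, n1, c1, PM.ext fun v => ?_⟩
  rw [i3.tau_inv_apply, h.tau_apply, hd_append hL0, lt_append _ hR0]
  by_cases hv : v ∈ R
  · rw [if_pos hv, if_pos (List.mem_append_right _ hv), if_neg fun e => hR' e.1,
      if_neg fun e => ne_of_nodup hn (hd_mem hL0) hv e.2.symm]
    exact e1 v hv fun e => absurd e hR'
  · rw [if_neg hv, if_neg fun e => hR' e.1, i1.tau_apply, c1]
    by_cases hv' : v ∈ L
    · simp only [if_pos hv', if_pos (List.mem_append_left _ hv'), hL, hQ]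
    · simp only [if_neg hv', if_neg (show v ∉ L ++ R by simp [hv, hv']), hL, hQ, true_and]
      split_ifs with h1
      · rfl
      · refine swap_smul_apply (fun e => hv' (e ▸ lt_mem hL0)) (fun e => hv (e ▸ lt_mem hR0))
          (fun e => hv ?_) fun e => h1 (X.eq_iff.1 e).symm
        rw [← X.inv v, e, a3]
        exact hd_mem hR0

end Vale.Agent.P308
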