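import Vale.Agent.P308.ArcA

/-! Discounted weights of instances and their comparison along a split. -/

namespace Vale.Agent.P308

open Finset Equiv

/-- Weights close to an ultrametric similarity. -/
structure US {V : Type} (a σ : V → V → ℝ) (κ : ℝ) : Prop where
  hκ : 1 ≤ κ
  ha : ∀ u v, a u v = a v u
  hs : ∀ u v, σ u v = σ v u
  h0 : ∀ u v, 0 < σ u v
  hu : ∀ x y z, min (σ x y) (σ y z) ≤ σ x z
  hlo : ∀ u v, u ≠ v → σ u v ≤ a u v
  hhi : ∀ u v, u ≠ v → a u v ≤ κ * σ u v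

variable {V : Type}

/-- Least similarity along a list. -/
def mQ (σ : V → V → ℝ) : List V → ℝ
  | [] => 0
  | [a] => σ a a
  | a :: b :: l => min (σ a b) (mQ σ (b :: l))

/-- Discount of an edge whose similarity exceeds `m`. -/
noncomputable def dsc (σ : V → V → ℝ) (m : ℝ) (u v : V) : ℝ := (min (σ u v) m / σ u v) ^ 2

variable {a σ : V → V → ℝ} {κ : ℝ}

theorem US.self (H : US a σ κ) (x y : V) : σ x y ≤ σ x x := by
  have := H.hu x y x
  rwa [H.hs y x, min_self] at this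

theorem US.apos (H : US a σ κ) (u v : V) (h : u ≠ v) : 0 < a u v :=
  (H.h0 u v).trans_le (H.hlo u v h)

theorem US.mQ_head (H : US a σ κ) (b : V) (l : List V) {y : V} (hy : y ∈ b :: l) :
    mQ σ (b :: l) ≤ σ b y := by
  induction l generalizing b with
  | nil => rw [List.mem_singleton.1 hy]; exact le_rfl
  | cons c l ih =>
    rcases List.mem_cons.1 hy with rfl | hy
    · exact (min_le_left _ _).trans (H.self _ _)
    · exact (min_le_min le_rfl (ih c hy)).trans (H.hu _ _ _)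

theorem US.mQ_le (H : US a σ κ) {Q : List V} {x y : V} (hx : x ∈ Q) (hy : y ∈ Q) :
    mQ σ Q ≤ σ x y := by
  obtain ⟨b, l, rfl⟩ := List.exists_cons_of_ne_nil (List.ne_nil_of_mem hx)
  exact (le_min (H.hs b x ▸ H.mQ_head b l hx) (H.mQ_head b l hy)).trans (H.hu x b y)

theorem mQ_att {Q : List V} (h : Q ≠ []) : ∃ x ∈ Q, ∃ y ∈ Q, mQ σ Q = σ x y := by
  obtain ⟨b, l, rfl⟩ := List.exists_cons_of_ne_nil h
  clear h
  induction l generalizing b with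
  | nil => exact ⟨b, by simp, b, by simp, rfl⟩
  | cons c l ih =>
    obtain ⟨x, hx, y, hy, e⟩ := ih c
    rcases min_choice (σ b c) (mQ σ (c :: l)) with h | h
    · exact ⟨b, by simp, c, by simp, h⟩
    · exact ⟨x, List.mem_cons_of_mem _ hx, y, List.mem_cons_of_mem _ hy, h.trans e⟩

theorem US.mQ_pos (H : US a σ κ) {Q : List V} (h : Q ≠ []) : 0 < mQ σ Q := by
  obtain ⟨x, -, y, -, e⟩ := mQ_att (σ := σ) h
  exact e ▸ H.h0 x y

theorem US.mQ_mono (H : US a σ κ) {L Q : List V} (h : L ≠ []) (hs : L ⊆ Q) :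
    mQ σ Q ≤ mQ σ L := by
  obtain ⟨x, hx, y, hy, e⟩ := mQ_att (σ := σ) h
  exact e ▸ H.mQ_le (hs hx) (hs hy)

theorem US.le_mQ (H : US a σ κ) {c : ℝ} {Q : List V} (h : Q ≠ []) {X Y : PM V} (hA : Alt X Y Q)
    (hX : ∀ v ∈ Q, c ≤ σ v (X.1 v)) (hY : ∀ v ∈ Q, c ≤ σ v (Y.1 v)) : c ≤ mQ σ Q := by
  obtain ⟨b, l, rfl⟩ := List.exists_cons_of_ne_nil h
  clear h
  induction l generalizing b X Y with
  | nil => exact (hX b (by simp)).trans (H.self _ _)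
  | cons d l ih =>
    rw [Alt_cons_cons] at hA
    exact le_min (hA.1 ▸ hX b (by simp)) (ih d hA.2 (fun v hv => hY v (List.mem_cons_of_mem _ hv))
      fun v hv => hX v (List.mem_cons_of_mem _ hv))

theorem US.exists_split [Inhabited V] (H : US a σ κ) {Q : List V} (h : 2 ≤ Q.length) :
    ∃ p : List V × List V, p.1 ≠ [] ∧ p.2 ≠ [] ∧ p.1 ++ p.2 = Q ∧ σ (lt p.1) (hd p.2) = mQ σ Q := by
  match Q, h with
  | b :: c :: l, _ =>
    induction l generalizing b c with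
    | nil => exact ⟨([b], [c]), by simp, by simp, rfl,
        (min_eq_left (H.hs c b ▸ H.self c b)).symm⟩
    | cons d l ih =>
      rcases min_choice (σ b c) (mQ σ (c :: d :: l)) with h | h
      · exact ⟨([b], c :: d :: l), by simp, by simp, rfl, h.symm⟩
      · obtain ⟨p, h1, h2, h3, h4⟩ := ih c d (by simp)
        exact ⟨(b :: p.1, p.2), by simp, h2, by simp [h3], by
          rw [lt_cons b h1, h4]; exact h.symm⟩

theorem dsc_nonneg (m : ℝ) (u v : V) : 0 ≤ dsc σ m u v := sq_nonneg _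

theorem US.dsc_comm (H : US a σ κ) (m : ℝ) (u v : V) : dsc σ m u v = dsc σ m v u := by
  rw [dsc, dsc, H.hs]

theorem US.dsc_eq_one (H : US a σ κ) {m : ℝ} {u v : V} (h : σ u v ≤ m) : dsc σ m u v = 1 := by
  rw [dsc, min_eq_left h, div_self (H.h0 u v).ne', one_pow]

theorem US.dsc_mono (H : US a σ κ) {m m' : ℝ} (hm : 0 < m) (h : m ≤ m') (u v : V) :
    dsc σ m u v ≤ dsc σ m' u v := by
  have := H.h0 u v
  unfold dsc
  gcongr

theorem US.dsc_le_one (H : US a σ κ) {m : ℝ} (hm : 0 < m) (u v : V) : dsc σ m u v ≤ 1 := by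
  rw [← H.dsc_eq_one (le_max_right m (σ u v))]
  exact H.dsc_mono hm (le_max_left _ _) u v

theorem US.dsc_hi (H : US a σ κ) (m : ℝ) {u v : V} (h : u ≠ v) :
    dsc σ m u v * a u v ^ 2 ≤ κ ^ 2 * min (σ u v) m ^ 2 := by
  have h1 := H.h0 u v
  have h2 := H.apos u v h
  calc dsc σ m u v * a u v ^ 2 ≤ dsc σ m u v * (κ * σ u v) ^ 2 := by
        have := H.hhi u v h
        have := dsc_nonneg (σ := σ) m u v
        gcongr
    _ = _ := by unfold dsc; field_simp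

theorem US.dsc_lo (H : US a σ κ) (m : ℝ) {u v : V} (h : u ≠ v) :
    min (σ u v) m ^ 2 ≤ dsc σ m u v * a u v ^ 2 := by
  have h1 := H.h0 u v
  calc min (σ u v) m ^ 2 = dsc σ m u v * σ u v ^ 2 := by unfold dsc; field_simp
    _ ≤ _ := by
        have := H.hlo u v h
        have := dsc_nonneg (σ := σ) m u v
        gcongr

theorem US.cmp0 (H : US a σ κ) {w w' m1 m2 m3 m4 : ℝ} (hw : 0 ≤ w) {u1 v1 u2 v2 u3 v3 u4 v4 : V}
    (n1 : u1 ≠ v1) (n2 : u2 ≠ v2) (n3 : u3 ≠ v3) (n4 : u4 ≠ v4) (p1 : 0 < m1) (p2 : 0 < m2)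
    (e : w' * (a u1 v1 * a u2 v2) ^ 2 = w * (a u3 v3 * a u4 v4) ^ 2)
    (h : min (σ u1 v1) m1 * min (σ u2 v2) m2 ≤ min (σ u3 v3) m3 * min (σ u4 v4) m4) :
    w * dsc σ m1 u1 v1 * dsc σ m2 u2 v2 ≤ κ ^ 4 * (w' * dsc σ m3 u3 v3 * dsc σ m4 u4 v4) := by
  have a1 := H.apos _ _ n1
  have a2 := H.apos _ _ n2
  have q1 : 0 < min (σ u1 v1) m1 := lt_min (H.h0 _ _) p1
  have q2 : 0 < min (σ u2 v2) m2 := lt_min (H.h0 _ _) p2
  have d1 := dsc_nonneg (σ := σ) m1 u1 v1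
  have d2 := dsc_nonneg (σ := σ) m2 u2 v2
  have d3 := dsc_nonneg (σ := σ) m3 u3 v3
  refine le_of_mul_le_mul_right ?_ (show 0 < (a u1 v1 * a u2 v2) ^ 2 by positivity)
  calc _ = w * ((dsc σ m1 u1 v1 * a u1 v1 ^ 2) * (dsc σ m2 u2 v2 * a u2 v2 ^ 2)) := by ring
    _ ≤ w * ((κ ^ 2 * min (σ u1 v1) m1 ^ 2) * (κ ^ 2 * min (σ u2 v2) m2 ^ 2)) := by
        have := H.dsc_hi m1 n1
        have := H.dsc_hi m2 n2
        gcongr
    _ = w * κ ^ 4 * (min (σ u1 v1) m1 * min (σ u2 v2) m2) ^ 2 := by ring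
    _ ≤ w * κ ^ 4 * (min (σ u3 v3) m3 * min (σ u4 v4) m4) ^ 2 := by gcongr
    _ = w * κ ^ 4 * (min (σ u3 v3) m3 ^ 2 * min (σ u4 v4) m4 ^ 2) := by ring
    _ ≤ w * κ ^ 4 * ((dsc σ m3 u3 v3 * a u3 v3 ^ 2) * (dsc σ m4 u4 v4 * a u4 v4 ^ 2)) := by
        have := H.dsc_lo m3 n3
        have := H.dsc_lo m4 n4
        gcongr
    _ = κ ^ 4 * (w * (a u3 v3 * a u4 v4) ^ 2) * dsc σ m3 u3 v3 * dsc σ m4 u4 v4 := by ring
    _ = _ := by rw [← e]; ring

theorem US.um (H : US a σ κ) {m m' : ℝ} {u v : V} (h : m ≤ σ u v) (hm : m ≤ m') (x : V) :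
    min (σ u x) m ≤ min (σ v x) m' :=
  le_min ((le_min ((min_le_right _ _).trans (H.hs u v ▸ h)) (min_le_left _ _)).trans (H.hu v u x))
    ((min_le_right _ _).trans hm)

theorem US.cmp (H : US a σ κ) {w w' m m3 m4 : ℝ} (hw : 0 ≤ w) {u v x y : V}
    (n1 : u ≠ x) (n2 : v ≠ y) (n3 : v ≠ x) (n4 : u ≠ y) (p : 0 < m)
    (e : w' * (a u x * a v y) ^ 2 = w * (a v x * a u y) ^ 2)
    (h : m ≤ σ u v) (h3 : m ≤ m3) (h4 : m ≤ m4) :
    w * dsc σ m u x * dsc σ m v y ≤ κ ^ 4 * (w' * dsc σ m3 v x * dsc σ m4 u y) :=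
  H.cmp0 hw n1 n2 n3 n4 p p e (mul_le_mul (H.um h h3 x) (H.um (H.hs u v ▸ h) h4 y)
    (lt_min (H.h0 _ _) p).le (lt_min (H.h0 _ _) (p.trans_le h3)).le)

end Vale.Agent.P308
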