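import Vale.Agent.P308.ArcB

/-! The error of a split is charged to a bounded number of instances. -/

namespace Vale.Agent.P308

open Finset Equiv

variable {V : Type} [DecidableEq V] [Fintype V] [Inhabited V]

open Classical in
/-- Discounted weight of the first matching. -/
noncomputable def al (a σ : V → V → ℝ) (Q : List V) (X : PM V) : ℝ :=
  if Ef X Q then wt a X * (if Odd Q.length then dsc σ (mQ σ Q) (lt Q) (X.1 (lt Q)) else 1) else 0

open Classical in
/-- Discounted weight of the second matching. -/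
noncomputable def be (a σ : V → V → ℝ) (Q : List V) (Y : PM V) : ℝ :=
  if Ef Y (Q.rotate 1) then wt a Y * dsc σ (mQ σ Q) (hd Q) (Y.1 (hd Q)) else 0

/-- Discounted weight of an instance. -/
noncomputable def om (a σ : V → V → ℝ) (Q : List V) (X Y : PM V) : ℝ := al a σ Q X * be a σ Q Y

/-- Flip value, first side. -/
def fl (h : PM V → ℝ) (Q : List V) (X : PM V) : ℝ := h (tau Q • X) - h X

/-- Flip value, second side. -/
def gl (h : PM V → ℝ) (Q : List V) (Y : PM V) : ℝ := h Y - h ((tau Q)⁻¹ • Y)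

/-- Average flip value. -/
noncomputable def FQ (a σ : V → V → ℝ) (h : PM V → ℝ) (Q : List V) : ℝ :=
  (∑ Y, be a σ Q Y * gl h Q Y) / ∑ Y, be a σ Q Y

/-- Deviation of an instance. -/
noncomputable def od (a σ : V → V → ℝ) (h : PM V → ℝ) (Q : List V) (X Y : PM V) : ℝ :=
  om a σ Q X Y * ((fl h Q X - FQ a σ h Q) ^ 2 + (gl h Q Y - FQ a σ h Q) ^ 2)

/-- Energy of the switches at one matching. -/
noncomputable def swt (a : V → V → ℝ) (h : PM V → ℝ) (Z : PM V) : ℝ :=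
  ∑ u : V, ∑ v : V, min (wt a Z) (wt a (swap u v • Z)) * (h (swap u v • Z) - h Z) ^ 2

variable {a σ : V → V → ℝ} {κ : ℝ} {h : PM V → ℝ}

omit [DecidableEq V] [Inhabited V] in
theorem US.wpos (H : US a σ κ) (X : PM V) : 0 < wt a X := wt_pos H.apos X

omit [DecidableEq V] in
theorem US.al_nonneg (H : US a σ κ) (Q : List V) (X : PM V) : 0 ≤ al a σ Q X := by
  have := H.wpos X
  have := dsc_nonneg (σ := σ) (mQ σ Q) (lt Q) (X.1 (lt Q))
  unfold al
  split_ifs <;> positivity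

omit [DecidableEq V] in
theorem US.be_nonneg (H : US a σ κ) (Q : List V) (X : PM V) : 0 ≤ be a σ Q X := by
  have := H.wpos X
  have := dsc_nonneg (σ := σ) (mQ σ Q) (hd Q) (X.1 (hd Q))
  unfold be
  split_ifs <;> positivity

omit [DecidableEq V] in
theorem US.om_nonneg (H : US a σ κ) (Q : List V) (X Y : PM V) : 0 ≤ om a σ Q X Y :=
  mul_nonneg (H.al_nonneg Q X) (H.be_nonneg Q Y)

theorem US.od_nonneg (H : US a σ κ) (Q : List V) (X Y : PM V) : 0 ≤ od a σ h Q X Y :=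
  mul_nonneg (H.om_nonneg Q X Y) (by positivity)

omit [Inhabited V] in
theorem US.swt_ge (H : US a σ κ) (Z : PM V) (u v : V) :
    min (wt a Z) (wt a (swap u v • Z)) * (h (swap u v • Z) - h Z) ^ 2 ≤ swt a h Z := by
  have p : ∀ u v : V, 0 ≤ min (wt a Z) (wt a (swap u v • Z)) * (h (swap u v • Z) - h Z) ^ 2 :=
    fun u v => mul_nonneg (lt_min (H.wpos _) (H.wpos _)).le (sq_nonneg _)
  exact (single_le_sum (fun v _ => p u v) (mem_univ v)).trans
    (single_le_sum (f := fun u : V => ∑ v : V, min (wt a Z) (wt a (swap u v • Z)) *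
      (h (swap u v • Z) - h Z) ^ 2) (fun u _ => sum_nonneg fun v _ => p u v) (mem_univ u))

omit [Inhabited V] in
theorem US.swt_nonneg (H : US a σ κ) (Z : PM V) : 0 ≤ swt a h Z :=
  sum_nonneg fun _ _ => sum_nonneg fun _ _ =>
    mul_nonneg (lt_min (H.wpos _) (H.wpos _)).le (sq_nonneg _)

omit [DecidableEq V] in
theorem om_of_not {Q : List V} (h0 : Q ≠ []) (hn : Q.Nodup) {X Y : PM V} (hi : ¬ Inst Q X Y) :
    om a σ Q X Y = 0 := by
  by_cases h1 : Ef X Q
  · rw [om, be, if_neg fun h3 => hi ⟨h0, hn, h1, h3⟩, mul_zero]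
  · rw [om, al, if_neg h1, zero_mul]

omit [DecidableEq V] in
theorem Inst.om_odd {Q : List V} {X Y : PM V} (hi : Inst Q X Y) (ho : Odd Q.length) :
    om a σ Q X Y = wt a X * dsc σ (mQ σ Q) (lt Q) (X.1 (lt Q)) *
      (wt a Y * dsc σ (mQ σ Q) (hd Q) (Y.1 (hd Q))) := by
  rw [om, al, be, if_pos hi.2.2.1, if_pos hi.2.2.2, if_pos ho]

omit [DecidableEq V] in
theorem Inst.om_even {Q : List V} {X Y : PM V} (hi : Inst Q X Y) (he : Even Q.length) :
    om a σ Q X Y = wt a X * (wt a Y * dsc σ (mQ σ Q) (hd Q) (lt Q)) := by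
  rw [om, al, be, if_pos hi.2.2.1, if_pos hi.2.2.2, if_neg (Nat.not_odd_iff_even.2 he), mul_one,
    hi.closed he]

omit [DecidableEq V] in
theorem US.om_le (H : US a σ κ) {Q : List V} {X Y : PM V} (hi : Inst Q X Y) :
    om a σ Q X Y ≤ wt a X * wt a Y := by
  have p := H.mQ_pos hi.1
  have := H.wpos X
  have := H.wpos Y
  rcases Nat.even_or_odd Q.length with he | ho
  · rw [hi.om_even he]
    have := H.dsc_le_one p (hd Q) (lt Q)
    calc _ ≤ wt a X * (wt a Y * 1) := by gcongr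
      _ = _ := by ring
  · rw [hi.om_odd ho]
    have := H.dsc_le_one p (hd Q) (Y.1 (hd Q))
    have := H.dsc_le_one p (lt Q) (X.1 (lt Q))
    have := dsc_nonneg (σ := σ) (mQ σ Q) (hd Q) (Y.1 (hd Q))
    calc _ ≤ wt a X * 1 * (wt a Y * 1) := by gcongr
      _ = _ := by ring

omit [DecidableEq V] [Fintype V] [Inhabited V] in
theorem US.k4 (H : US a σ κ) : 1 ≤ κ ^ 4 := one_le_pow₀ H.hκ

theorem US.om_flip (H : US a σ κ) {Q : List V} {X Y : PM V} (hi : Inst Q X Y) :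
    om a σ Q X Y ≤ κ ^ 4 * (wt a ((tau Q)⁻¹ • Y) * wt a (tau Q • X)) := by
  have p := H.mQ_pos hi.1
  have w1 := H.wpos X
  have w2 := H.wpos Y
  have w3 := mul_pos (H.wpos ((tau Q)⁻¹ • Y)) (H.wpos (tau Q • X))
  rcases Nat.even_or_odd Q.length with he | ho
  · refine (H.om_le hi).trans ?_
    rw [hi.wt_even he]
    exact le_mul_of_one_le_left (mul_pos w1 w2).le H.k4
  · have n1 := hi.2.2.1.not_mem hi.2.1 ho
    have n2 := hi.2.2.2.not_mem (List.nodup_rotate.2 hi.2.1) (by simpa using ho)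
    rw [lt_rotate hi.1, List.mem_rotate] at n2
    have := H.cmp (mul_pos w1 w2).le (X.ne _).symm (Y.ne _).symm
      (fun e => n1 (e ▸ hd_mem hi.1)) (fun e => n2 (e ▸ lt_mem hi.1)) p (hi.wt_odd H.ha ho)
      (H.mQ_le (lt_mem hi.1) (hd_mem hi.1)) le_rfl le_rfl
    rw [hi.om_odd ho]
    have d1 := H.dsc_le_one p (hd Q) (X.1 (lt Q))
    have d2 := H.dsc_le_one p (lt Q) (Y.1 (hd Q))
    have d3 := dsc_nonneg (σ := σ) (mQ σ Q) (lt Q) (Y.1 (hd Q))
    have k := H.k4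
    calc _ = _ := by ring
      _ ≤ _ := this
      _ ≤ κ ^ 4 * (wt a ((tau Q)⁻¹ • Y) * wt a (tau Q • X) * 1 * 1) := by gcongr
      _ = _ := by ring

theorem four {w K E x1 x2 x3 x4 d1 d2 d3 d4 : ℝ} (hw : 0 ≤ w) (e : E = x1 + x2 + x3 + x4)
    (h1 : w * x1 ^ 2 ≤ d1) (h2 : w * x2 ^ 2 ≤ K * d2) (h3 : w * x3 ^ 2 ≤ K * d3)
    (h4 : w * x4 ^ 2 ≤ K * d4) : w * E ^ 2 ≤ 4 * (d1 + K * (d2 + d3 + d4)) := by
  have : E ^ 2 ≤ 4 * (x1 ^ 2 + x2 ^ 2 + x3 ^ 2 + x4 ^ 2) := by
    rw [e]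
    nlinarith [sq_nonneg (x1 - x2), sq_nonneg (x1 - x3), sq_nonneg (x1 - x4), sq_nonneg (x2 - x3),
      sq_nonneg (x2 - x4), sq_nonneg (x3 - x4)]
  nlinarith [mul_le_mul_of_nonneg_left this hw]

theorem US.od_fl (H : US a σ κ) {w K : ℝ} (hK : 0 ≤ K) {Q : List V} {X Y : PM V}
    (hw : w ≤ K * om a σ Q X Y) : w * (fl h Q X - FQ a σ h Q) ^ 2 ≤ K * od a σ h Q X Y := by
  have := H.om_nonneg Q X Y
  calc _ ≤ K * om a σ Q X Y * (fl h Q X - FQ a σ h Q) ^ 2 := by gcongr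
    _ ≤ K * om a σ Q X Y * ((fl h Q X - FQ a σ h Q) ^ 2 + (gl h Q Y - FQ a σ h Q) ^ 2) := by
      gcongr; exact le_add_of_nonneg_right (sq_nonneg _)
    _ = _ := by rw [od, mul_assoc]

theorem US.od_gl (H : US a σ κ) {w K : ℝ} (hK : 0 ≤ K) {Q : List V} {X Y : PM V}
    (hw : w ≤ K * om a σ Q X Y) : w * (FQ a σ h Q - gl h Q Y) ^ 2 ≤ K * od a σ h Q X Y := by
  have := H.om_nonneg Q X Y
  calc _ ≤ K * om a σ Q X Y * (FQ a σ h Q - gl h Q Y) ^ 2 := by gcongr
    _ ≤ K * om a σ Q X Y * ((fl h Q X - FQ a σ h Q) ^ 2 + (gl h Q Y - FQ a σ h Q) ^ 2) := by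
      gcongr; nlinarith [sq_nonneg (fl h Q X - FQ a σ h Q)]
    _ = _ := by rw [od, mul_assoc]

theorem US.od_one (H : US a σ κ) (Q : List V) (X Y : PM V) :
    om a σ Q X Y * (FQ a σ h Q - fl h Q X) ^ 2 ≤ od a σ h Q X Y := by
  have := H.od_fl (h := h) zero_le_one (one_mul (om a σ Q X Y)).ge
  rwa [one_mul, ← neg_sub, neg_sq] at this

omit [Inhabited V] in
theorem US.sw_term (H : US a σ κ) {w K c : ℝ} (hK : 0 ≤ K) (hc : 0 ≤ c) {Z : PM V} {u v : V}
    (h1 : w ≤ K * (c * wt a Z)) (h2 : w ≤ K * (c * wt a (swap u v • Z))) :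
    w * (h (swap u v • Z) - h Z) ^ 2 ≤ K * (c * swt a h Z) := by
  have h3 : w ≤ K * (c * min (wt a Z) (wt a (swap u v • Z))) := by
    rcases min_choice (wt a Z) (wt a (swap u v • Z)) with e | e <;> rw [e] <;> assumption
  have := H.swt_ge (h := h) Z u v
  calc _ ≤ K * (c * min (wt a Z) (wt a (swap u v • Z))) * (h (swap u v • Z) - h Z) ^ 2 := by gcongr
    _ = K * (c * (min (wt a Z) (wt a (swap u v • Z)) * (h (swap u v • Z) - h Z) ^ 2)) := by ring
    _ ≤ _ := by gcongr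

theorem US.keyA (H : US a σ κ) {L R : List V} {X Y : PM V} (hi : Inst (L ++ R) X Y) (hL : L ≠ [])
    (hR : R ≠ []) (he : Even L.length) (hm : σ (lt L) (hd R) = mQ σ (L ++ R)) :
    om a σ (L ++ R) X Y * (FQ a σ h (L ++ R) - FQ a σ h L - FQ a σ h R) ^ 2 ≤
      4 * (od a σ h (L ++ R) X Y + κ ^ 8 * (od a σ h L X (swap (hd L) (hd R) • Y) +
        od a σ h R (tau L • X) ((tau L)⁻¹ • swap (hd L) (hd R) • Y) +
        wt a ((tau (L ++ R))⁻¹ • Y) * swt a h (tau (L ++ R) • X))) := by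
  obtain ⟨i1, i2, i3, c1, n1, c2, e2, e3⟩ := hi.splitA hL hR he
  have hn := hi.2.1
  have p := H.mQ_pos hi.1
  have mL := H.mQ_mono hL (List.subset_append_left L R)
  have mR := H.mQ_mono hR (List.subset_append_right L R)
  have k4 := H.k4
  have k8 : κ ^ 4 ≤ κ ^ 8 := pow_le_pow_right₀ H.hκ (by norm_num)
  have n0 := ne_of_nodup hn (hd_mem hL) (hd_mem hR)
  have c3 := i1.closed he
  have w1 := H.wpos X
  have w2 := H.wpos Y
  have w3 := H.wpos (swap (hd L) (hd R) • Y)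
  have t := H.cmp w2.le (Y.ne _).symm (Y.ne _).symm n1.symm
    (by rw [c1, ← c3]; exact (PM.ne _ _).symm) p (wt_swap H.ha Y n0 n1)
    (H.mQ_le (List.mem_append_left _ (hd_mem hL)) (List.mem_append_right _ (hd_mem hR))) mR mL
  rw [c1, H.dsc_eq_one (u := hd R) (by rw [H.hs, hm]), mul_one] at t
  have d1 := dsc_nonneg (σ := σ) (mQ σ L) (hd L) (lt L)
  have d2 := dsc_nonneg (σ := σ) (mQ σ R) (hd R) (Y.1 (hd L))
  have d3 := H.dsc_le_one (p.trans_le mL) (hd L) (lt L)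
  have d4 := H.dsc_le_one (p.trans_le mR) (hd R) (Y.1 (hd L))
  have d5 := dsc_nonneg (σ := σ) (mQ σ (L ++ R)) (hd L) (Y.1 (hd L))
  have b1 : be a σ (L ++ R) Y = wt a Y * dsc σ (mQ σ (L ++ R)) (hd L) (Y.1 (hd L)) := by
    rw [be, if_pos hi.2.2.2, hd_append hL]
  have A1 : om a σ (L ++ R) X Y ≤ κ ^ 4 * om a σ L X (swap (hd L) (hd R) • Y) := by
    have a1 : al a σ (L ++ R) X ≤ wt a X := by
      rw [al, if_pos hi.2.2.1]
      split_ifs
      · exact mul_le_of_le_one_right w1.le (H.dsc_le_one p _ _)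
      · rw [mul_one]
    rw [i1.om_even he, om, b1]
    calc _ ≤ wt a X * (κ ^ 4 * (wt a (swap (hd L) (hd R) • Y) * 1 *
          dsc σ (mQ σ L) (hd L) (lt L))) := by
          refine mul_le_mul a1 (t.trans ?_) (by positivity) w1.le
          gcongr
      _ = _ := by ring
  have A2 : om a σ (L ++ R) X Y ≤
      κ ^ 4 * om a σ R (tau L • X) ((tau L)⁻¹ • swap (hd L) (hd R) • Y) := by
    obtain ⟨d, d', hd0, hdd, a1, a2⟩ : ∃ d d', 0 ≤ d ∧ d ≤ d' ∧ al a σ (L ++ R) X = wt a X * d ∧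
        al a σ R (tau L • X) = wt a (tau L • X) * d' := by
      refine ⟨_, _, ?_, ?_, if_pos hi.2.2.1, if_pos i3.2.2.1⟩
      · split_ifs
        · exact dsc_nonneg _ _ _
        · exact zero_le_one
      · have : Odd (L ++ R).length ↔ Odd R.length := by
          rw [List.length_append, Nat.odd_add']; simp [he]
        simp only [this, lt_append L hR, e2 _ (lt_mem hR)]
        split_ifs
        · exact H.dsc_mono p mR _ _
        · exact le_rfl
    rw [om, om, a1, a2, b1, be, if_pos i3.2.2.2, e3 _ (hd_mem hR), c2]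
    have := i1.wt_even (a := a) he
    calc _ ≤ wt a X * d' * (κ ^ 4 * (wt a (swap (hd L) (hd R) • Y) *
          dsc σ (mQ σ R) (hd R) (Y.1 (hd L)) * 1)) := by
          have := hd0.trans hdd
          refine mul_le_mul (by gcongr) (t.trans ?_) (by positivity) (by positivity)
          gcongr
      _ = κ ^ 4 * d' * dsc σ (mQ σ R) (hd R) (Y.1 (hd L)) *
          (wt a X * wt a (swap (hd L) (hd R) • Y)) := by ring
      _ = _ := by rw [← this]; ring
  have g1 : tau R • tau L • X = swap (hd L) (hd R) • tau (L ++ R) • X := by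
    rw [tau_append hL hR hn, ← mul_smul, ← mul_smul, ← tau_commute hn, ← mul_assoc, ← mul_assoc,
      swap_mul_self, one_mul]
  have g2 : (tau R)⁻¹ • (tau L)⁻¹ • swap (hd L) (hd R) • Y = (tau (L ++ R))⁻¹ • Y := by
    rw [tau_append hL hR hn, mul_inv_rev, mul_inv_rev, swap_inv, mul_smul, mul_smul]
  have A3 := H.om_flip i3
  rw [g1, g2] at A3
  have o1 := H.om_nonneg L X (swap (hd L) (hd R) • Y)
  have o2 := H.om_nonneg R (tau L • X) ((tau L)⁻¹ • swap (hd L) (hd R) • Y)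
  have w4 := H.wpos ((tau (L ++ R))⁻¹ • Y)
  have w5 := H.wpos (tau (L ++ R) • X)
  refine four (H.om_nonneg _ _ _) (x4 := -(h (swap (hd L) (hd R) • tau (L ++ R) • X) -
    h (tau (L ++ R) • X))) ?_ (H.od_one _ _ _) (H.od_fl (by positivity) (A1.trans (by gcongr)))
    (H.od_fl (by positivity) (A2.trans (by gcongr))) ?_
  · simp only [fl, g1]; ring
  · rw [neg_sq]
    refine H.sw_term (by positivity) w4.le ((H.om_flip hi).trans (by gcongr)) (A2.trans ?_)
    calc _ ≤ κ ^ 4 * (κ ^ 4 * _) := mul_le_mul_of_nonneg_left A3 (by positivity)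
      _ = _ := by ring

theorem US.keyB0 (H : US a σ κ) {L R : List V} {X Y : PM V} (hi : Inst (L ++ R) X Y) {u v : V}
    (i1 : Inst L (swap u v • X) Y)
    (A1 : om a σ (L ++ R) X Y ≤ κ ^ 4 * om a σ L (swap u v • X) Y)
    (A2 : om a σ (L ++ R) X Y ≤ κ ^ 8 * om a σ R ((tau L)⁻¹ • Y) (tau L • swap u v • X))
    (g : (tau R)⁻¹ • tau L • swap u v • X = tau (L ++ R) • X) :
    om a σ (L ++ R) X Y * (FQ a σ h (L ++ R) - FQ a σ h L + FQ a σ h R) ^ 2 ≤
      4 * (od a σ h (L ++ R) X Y + κ ^ 8 * (od a σ h L (swap u v • X) Y +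
        od a σ h R ((tau L)⁻¹ • Y) (tau L • swap u v • X) + wt a Y * swt a h X)) := by
  have k4 := H.k4
  have k8 : κ ^ 4 ≤ κ ^ 8 := pow_le_pow_right₀ H.hκ (by norm_num)
  have w1 := H.wpos X
  have w2 := H.wpos Y
  have w3 := H.wpos (swap u v • X)
  have o1 := H.om_nonneg L (swap u v • X) Y
  refine four (H.om_nonneg _ _ _) (x4 := h (swap u v • X) - h X) ?_ (H.od_one _ _ _)
    (H.od_fl (by positivity) (A1.trans (by gcongr))) (H.od_gl (by positivity) A2) ?_
  · simp only [fl, gl, g]; ring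
  · refine H.sw_term (by positivity) w2.le ((H.om_le hi).trans ?_) (A1.trans ?_)
    · rw [mul_comm]
      exact le_mul_of_one_le_left (by positivity) (k4.trans k8)
    · have := H.om_le i1
      rw [mul_comm (wt a Y)]
      gcongr

theorem US.keyB (H : US a σ κ) {L R : List V} {X Y : PM V} (hi : Inst (L ++ R) X Y)
    (hL : Odd L.length) (hR0 : R ≠ []) (hm : σ (lt L) (hd R) = mQ σ (L ++ R)) {v : V}
    (hv : v = if Even R.length then lt R else hd R) :
    Inst L (swap (lt L) v • X) Y ∧ Inst R Y (swap (lt L) v • X) ∧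
    om a σ (L ++ R) X Y * (FQ a σ h (L ++ R) - FQ a σ h L + FQ a σ h R) ^ 2 ≤
      4 * (od a σ h (L ++ R) X Y + κ ^ 8 * (od a σ h L (swap (lt L) v • X) Y +
        od a σ h R ((tau L)⁻¹ • Y) (tau L • swap (lt L) v • X) + wt a Y * swt a h X)) := by
  have hL0 := ne_nil_of_odd hL
  have hn := hi.2.1
  have p := H.mQ_pos hi.1
  have mL := H.mQ_mono hL0 (List.subset_append_left L R)
  have mR := H.mQ_mono hR0 (List.subset_append_right L R)
  have k4 := H.k4
  have k8 : κ ^ 4 ≤ κ ^ 8 := pow_le_pow_right₀ H.hκ (by norm_num)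
  have w1 := H.wpos X
  have w2 := H.wpos Y
  have n0 := ne_of_nodup hn (lt_mem hL0) (lt_mem hR0)
  have n1 := ne_of_nodup hn (hd_mem hL0) (hd_mem hR0)
  rcases Nat.even_or_odd R.length with hR | hR
  · rw [if_pos hR] at hv
    subst hv
    obtain ⟨i1, i2, i3, c1, n2, c2, g⟩ := hi.splitB2 hL hR0 hR
    have hQ : Odd (L ++ R).length := by rw [List.length_append]; exact hL.add_even hR
    have w3 := H.wpos (swap (lt L) (lt R) • X)
    have t := H.cmp w1.le (X.ne _).symm (X.ne _).symm (c1 ▸ n2.symm)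
      (by rw [← c2]; exact (PM.ne _ _).symm) p (wt_swap H.ha X n0 (c1 ▸ n2))
      (H.mQ_le (List.mem_append_left _ (lt_mem hL0)) (List.mem_append_right _ (lt_mem hR0))) mR mL
    rw [c1, H.dsc_eq_one hm.le, mul_one, H.dsc_comm _ (lt R) (hd R)] at t
    have d1 := dsc_nonneg (σ := σ) (mQ σ R) (hd R) (lt R)
    have d2 := H.dsc_le_one (p.trans_le mR) (hd R) (lt R)
    have d3 := dsc_nonneg (σ := σ) (mQ σ L) (lt L) (X.1 (lt R))
    have d4 := dsc_nonneg (σ := σ) (mQ σ (L ++ R)) (hd L) (Y.1 (hd L))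
    have d5 := H.dsc_mono p mL (hd L) (Y.1 (hd L))
    have o1 := H.om_nonneg L (swap (lt L) (lt R) • X) Y
    have A0 : om a σ (L ++ R) X Y ≤
        κ ^ 4 * om a σ L (swap (lt L) (lt R) • X) Y * dsc σ (mQ σ R) (hd R) (lt R) := by
      rw [hi.om_odd hQ, i1.om_odd hL, c2, hd_append hL0, lt_append _ hR0]
      refine (mul_le_mul t (mul_le_mul_of_nonneg_left d5 w2.le) (by positivity)
        (by positivity)).trans_eq ?_
      ring
    refine ⟨i1, i2, H.keyB0 hi i1 (A0.trans (mul_le_of_le_one_right (by positivity) d2))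
      (A0.trans ?_) g⟩
    have := H.om_flip i1
    rw [i3.om_even hR]
    calc _ ≤ κ ^ 4 * (κ ^ 4 * (wt a ((tau L)⁻¹ • Y) * wt a (tau L • swap (lt L) (lt R) • X))) *
          dsc σ (mQ σ R) (hd R) (lt R) := by gcongr
      _ = _ := by ring
  · rw [if_neg (Nat.not_even_iff_odd.2 hR)] at hv
    subst hv
    obtain ⟨i1, i2, i3, c1, c2, c3, c4, g⟩ := hi.splitB1 hL hR
    have hQ : Even (L ++ R).length := by rw [List.length_append]; exact hL.add_odd hR
    have e := swap_smul_of_eq c1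
    refine ⟨by rwa [e], by rwa [e], H.keyB0 hi (by rwa [e]) ?_ ?_ (by rwa [e])⟩ <;> rw [e]
    · rw [hi.om_even hQ, i1.om_odd hL, c1, c2, H.dsc_eq_one (hm.le.trans mL), hd_append hL0,
        lt_append _ hR0, mul_one]
      have d1 := H.dsc_mono p mL (hd L) (lt R)
      have d2 := dsc_nonneg (σ := σ) (mQ σ L) (hd L) (lt R)
      exact (by gcongr : _ ≤ wt a X * (wt a Y * dsc σ (mQ σ L) (hd L) (lt R))).trans
        (le_mul_of_one_le_left (by positivity) k4)
    · have t := H.cmp (mul_pos w1 w2).le (X.ne _).symm (Y.ne _).symm (c1 ▸ n1) (c2 ▸ n0) p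
        (i1.wt_odd H.ha hL)
        (H.mQ_le (List.mem_append_left _ (lt_mem hL0)) (List.mem_append_left _ (hd_mem hL0))) mR mR
      rw [c1, c2, H.dsc_eq_one hm.le, mul_one, H.dsc_comm _ (hd L) (hd R),
        H.dsc_comm _ (lt L) (lt R)] at t
      have o := H.om_nonneg R ((tau L)⁻¹ • Y) (tau L • X)
      refine le_trans ?_ (mul_le_mul_of_nonneg_right k8 o)
      rw [hi.om_even hQ, i3.om_odd hR, c3, c4, hd_append hL0, lt_append _ hR0, ← mul_assoc]
      exact t.trans_eq (by ring)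

end Vale.Agent.P308
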