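import Mathlib

/-!
Inputs of the counting problem and their explicit binary encoding.
-/

namespace Vale.Agent.P308

/-- An input: a graph on `Fin n` and two rationals. -/
structure Query where
  /-- number of vertices -/
  n : ℕ
  /-- the graph -/
  G : SimpleGraph (Fin n)
  /-- relative accuracy -/
  ε : ℚ
  /-- failure probability -/
  δ : ℚ

/-- Number of perfect matchings. -/
noncomputable def numPM {n : ℕ} (G : SimpleGraph (Fin n)) : ℕ :=
  Nat.card {M : G.Subgraph // M.IsPerfectMatching}

/-- Code of a truth value. -/
def codeBool (b : Bool) : List Bool :=
  if b then [true, true, false, false, false] else [true, false, true, false, false]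

/-- Code of a pair from the codes of its parts. -/
def codePair (a b : List Bool) : List Bool := true :: (a ++ b)

/-- Code of a list: each item is preceded by `true`, and `false` ends the list. -/
def codeList {α : Type} (f : α → List Bool) (l : List α) : List Bool :=
  l.flatMap (fun x => true :: f x) ++ [false]

/-- Code of a natural number: the list of its binary digits. -/
def codeNat (k : ℕ) : List Bool := codeList codeBool k.bits

/-- Code of a positive rational: numerator and denominator. -/
def codeRat (x : ℚ) : List Bool := codePair (codeNat x.num.toNat) (codeNat x.den)

open Classical in
/-- Rows of the adjacency matrix. -/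
noncomputable def Query.rows (q : Query) : List (List Bool) :=
  List.ofFn fun u : Fin q.n => List.ofFn fun v : Fin q.n => decide (q.G.Adj u v)

/-- Code of an input together with a string of random bits. -/
noncomputable def codeInput (p : Query × List Bool) : List Bool :=
  codePair (codePair (codeList (codeList codeBool) p.1.rows)
    (codePair (codeRat p.1.ε) (codeRat p.1.δ))) (codeList codeBool p.2)

end Vale.Agent.P308
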