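import Vale.Agent.P308.Spec
import Vale.Agent.P308.Defs

/-! The uniform distribution on perfect matchings of the complete graph. -/

namespace Vale.Agent.P308

open Finset Equiv Vale.Agent.P317

variable {n : ℕ}

/-- Matchings that agree with the standard one from `2 * i` on. -/
def InOm (hn : Even n) (i : ℕ) (X : PM (Fin n)) : Prop :=
  ∀ v : Fin n, 2 * i ≤ v.val → X.1 v = (x0 hn).1 v

theorem x0_val (hn : Even n) (v : Fin n) :
    ((x0 hn).1 v).val = if v.val % 2 = 0 then v.val + 1 else v.val - 1 := rfl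

theorem inOm_swap (hn : Even n) {i : ℕ} {p q r : Fin n} (hp : p.val = 2 * i)
    (hq : q.val = 2 * i + 1) (hr : r.val ≤ 2 * i) (X : PM (Fin n)) :
    InOm hn i X ↔ InOm hn (i + 1) (swap p r • X) ∧ (swap p r • X).1 q = r := by
  have hfix : ∀ v : Fin n, 2 * i + 1 ≤ v.val → swap p r v = v := fun v hv =>
    swap_apply_of_ne_of_ne (fun h => by rw [h] at hv; omega) (fun h => by rw [h] at hv; omega)
  have happ : ∀ v : Fin n, 2 * i + 1 ≤ v.val → (swap p r • X).1 v = swap p r (X.1 v) := by
    intro v hv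
    rw [PM.smul_apply, swap_inv, hfix v hv]
  have hx : ∀ v : Fin n, 2 * (i + 1) ≤ v.val → 2 * i + 1 ≤ ((x0 hn).1 v).val := by
    intro v hv
    rw [x0_val]
    split_ifs <;> omega
  have hxq : (x0 hn).1 q = p := Fin.ext (by rw [x0_val]; split_ifs <;> omega)
  constructor
  · intro h
    refine ⟨fun v hv => ?_, ?_⟩
    · rw [happ v (by omega), h v (by omega), hfix _ (hx v hv)]
    · rw [happ q (by omega), h q (by omega), hxq, swap_apply_left]
  · rintro ⟨h1, h2⟩ v hv
    rw [happ q (by omega)] at h2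
    have h3 : X.1 q = p := (swap p r).injective (h2.trans (swap_apply_left p r).symm)
    by_cases hv1 : v = p
    · rw [hv1, X.eq_iff.1 h3, (x0 hn).eq_iff.1 hxq]
    by_cases hv2 : v = q
    · rw [hv2, h3, hxq]
    have h4 : 2 * (i + 1) ≤ v.val := by
      have a1 : v.val ≠ p.val := fun h => hv1 (Fin.ext h)
      have a2 : v.val ≠ q.val := fun h => hv2 (Fin.ext h)
      omega
    have h5 := h1 v h4
    rw [happ v (by omega)] at h5
    exact (swap p r).injective (h5.trans (hfix _ (hx v h4)).symm)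

open Classical in
theorem sum_inOm_succ (hn : Even n) {i : ℕ} (hi : 2 * i + 1 < n) (f : PM (Fin n) → ℝ) :
    (∑ X, if InOm hn (i + 1) X then f X else 0) =
      ∑ X, if InOm hn i X then ∑ r ∈ range (2 * i + 1), f (swapN (2 * i) r X) else 0 := by
  have e1 : (∑ X, if InOm hn i X then ∑ r ∈ range (2 * i + 1), f (swapN (2 * i) r X) else 0) =
      ∑ r ∈ range (2 * i + 1), ∑ X, if InOm hn i X then f (swapN (2 * i) r X) else 0 := by
    rw [Finset.sum_comm]
    refine Finset.sum_congr rfl fun X _ => ?_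
    split_ifs <;> simp
  have e2 : ∀ r ∈ range (2 * i + 1),
      (∑ X, if InOm hn i X then f (swapN (2 * i) r X) else 0) =
      ∑ X, if InOm hn (i + 1) X ∧ (X.1 ⟨2 * i + 1, hi⟩).val = r then f X else 0 := by
    intro r hr
    have hr' := mem_range.1 hr
    rw [← Equiv.sum_comp (MulAction.toPerm
      (swap (⟨2 * i, by omega⟩ : Fin n) (⟨r, by omega⟩ : Fin n)))
      fun X : PM (Fin n) => if InOm hn (i + 1) X ∧ (X.1 ⟨2 * i + 1, hi⟩).val = r then f X else 0]
    refine Finset.sum_congr rfl fun X _ => if_congr ?_ ?_ rfl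
    · rw [inOm_swap hn (p := ⟨2 * i, by omega⟩) (q := ⟨2 * i + 1, hi⟩) (r := ⟨r, by omega⟩)
        rfl rfl (by dsimp only; omega) X, Fin.ext_iff]
      rfl
    · rw [swapN, dif_pos ⟨by omega, by omega⟩]
      rfl
  rw [e1, Finset.sum_congr rfl e2, Finset.sum_comm]
  refine Finset.sum_congr rfl fun X _ => ?_
  by_cases h : InOm hn (i + 1) X
  · have h1 : (X.1 ⟨2 * i + 1, hi⟩).val ∈ range (2 * i + 1) := by
      rw [mem_range]
      by_contra hlt
      have h2 : (X.1 ⟨2 * i + 1, hi⟩).val ≠ 2 * i + 1 := fun h' => X.ne _ (Fin.ext h')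
      have h3 := congrArg Fin.val (h (X.1 ⟨2 * i + 1, hi⟩) (by omega))
      rw [X.inv, x0_val] at h3
      dsimp only at h3
      split_ifs at h3 <;> omega
    simp only [h, true_and, if_true]
    rw [Finset.sum_ite_eq, if_pos h1]
  · simp [h]

open Classical in
theorem sum_inOm_zero (hn : Even n) (f : PM (Fin n) → ℝ) :
    (∑ X, if InOm hn 0 X then f X else 0) = f (x0 hn) := by
  rw [Finset.sum_eq_single (x0 hn)]
  · exact if_pos fun _ _ => rfl
  · exact fun X _ hX => if_neg fun h => hX (PM.ext fun v => h v (by omega))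
  · simp

open Classical in
theorem sum_inOm_top (hn : Even n) (f : PM (Fin n) → ℝ) :
    (∑ X, if InOm hn (n / 2) X then f X else 0) = ∑ X, f X := by
  refine Finset.sum_congr rfl fun X _ => if_pos fun v hv => ?_
  obtain ⟨h, rfl⟩ := hn
  have := v.isLt
  omega

theorem dfact_succ (i : ℕ) : dfact (i + 1) = dfact i * (2 * i + 1) := by
  simp [dfact, List.range_succ]

theorem dfact_pos (i : ℕ) : 0 < dfact i := by
  induction i with
  | zero => exact Nat.one_pos
  | succ i ih => rw [dfact_succ]; positivity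

open Classical in
theorem card_inOm (hn : Even n) (i : ℕ) (hi : i ≤ n / 2) :
    (∑ X, if InOm hn i X then (1 : ℝ) else 0) = dfact i := by
  induction i with
  | zero => rw [sum_inOm_zero hn fun _ => 1]; simp [dfact]
  | succ i ih =>
    rw [sum_inOm_succ hn (by omega) fun _ => 1, dfact_succ, Nat.cast_mul, ← ih (by omega),
      Finset.sum_mul]
    refine Finset.sum_congr rfl fun X _ => ?_
    split_ifs <;> simp

theorem card_PM (hn : Even n) : Fintype.card (PM (Fin n)) = dfact (n / 2) := by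
  have h := card_inOm hn (n / 2) le_rfl
  rw [sum_inOm_top hn fun _ => 1, Finset.sum_const, Finset.card_univ, nsmul_eq_mul, mul_one] at h
  exact_mod_cast h

theorem card_PM_le : Fintype.card (PM (Fin n)) ≤ n ^ n := by
  have h := Fintype.card_le_of_injective (fun X : PM (Fin n) => X.1) Subtype.val_injective
  simpa using h

theorem card_pair {u v : Fin n} (h : u ≠ v) :
    (n - 1) * (univ.filter fun X : PM (Fin n) => X.1 u = v).card = Fintype.card (PM (Fin n)) := by
  have h1 : ∀ w ∈ univ.erase u, (univ.filter fun X : PM (Fin n) => X.1 u = w).card =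
      (univ.filter fun X : PM (Fin n) => X.1 u = v).card := by
    intro w hw
    have hw' : u ≠ w := (ne_of_mem_erase hw).symm
    refine Finset.card_equiv (MulAction.toPerm (swap w v)) fun X => ?_
    simp only [mem_filter, mem_univ, true_and, MulAction.toPerm_apply, PM.smul_apply, swap_inv,
      swap_apply_of_ne_of_ne hw' h]
    rw [swap_apply_eq_iff, swap_apply_right]
  rw [← Finset.card_univ, Finset.card_eq_sum_card_fiberwise (s := univ) (t := univ.erase u)
    (f := fun X : PM (Fin n) => X.1 u) fun X _ => by simpa using X.ne u,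
    Finset.sum_congr rfl h1, Finset.sum_const, card_erase_of_mem (mem_univ u)]
  simp

theorem sum_range_mod (k m : ℕ) (g : ℕ → ℝ) :
    ∑ u ∈ range (k * m), g (u % k) = m * ∑ r ∈ range k, g r := by
  induction m with
  | zero => simp
  | succ m ih =>
    rw [mul_add, mul_one, Finset.sum_range_add, ih]
    have : ∑ x ∈ range k, g ((k * m + x) % k) = ∑ r ∈ range k, g r :=
      Finset.sum_congr rfl fun x hx => by
        rw [Nat.mul_add_mod, Nat.mod_eq_of_lt (mem_range.1 hx)]
    rw [this]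
    push_cast
    ring

theorem bits_mod_ge (B : ℕ) {k : ℕ} (hk : 0 < k) {η : ℝ} (hη : k / (2 : ℝ) ^ B ≤ η) (g : ℕ → ℝ)
    (hg : ∀ r, 0 ≤ g r) :
    (1 - η) * ((∑ r ∈ range k, g r) / k) ≤ (bits B).E fun u => g (u % k) := by
  rw [E_bits]
  have hS : 0 ≤ ∑ r ∈ range k, g r := Finset.sum_nonneg fun r _ => hg r
  have h1 : ((2 ^ B / k : ℕ) : ℝ) * ∑ r ∈ range k, g r ≤ ∑ u ∈ range (2 ^ B), g (u % k) := by
    rw [← sum_range_mod]
    exact Finset.sum_le_sum_of_subset_of_nonneg
      (Finset.range_subset_range.2 (Nat.mul_div_le _ _)) fun _ _ _ => hg _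
  have h2 : (2 : ℝ) ^ B ≤ k * ((2 ^ B / k : ℕ) : ℝ) + k := by
    have := (Nat.lt_mul_div_succ (2 ^ B) hk).le
    rw [mul_add, mul_one] at this
    exact_mod_cast this
  have hk' : (0 : ℝ) < k := by exact_mod_cast hk
  have hB : (0 : ℝ) < 2 ^ B := by positivity
  rw [div_le_iff₀ hB] at hη
  refine le_trans ?_ (div_le_div_of_nonneg_right h1 hB.le)
  rw [← mul_div_assoc, div_le_div_iff₀ hk' hB]
  have h3 : (1 - η) * 2 ^ B ≤ ((2 ^ B / k : ℕ) : ℝ) * k := by nlinarith
  nlinarith [mul_le_mul_of_nonneg_right h3 hS]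

open Classical in
theorem init_ge (B : ℕ) (hn : Even n) {η : ℝ} (hη : n / (2 : ℝ) ^ B ≤ η) (hη1 : η ≤ 1) (i : ℕ)
    (hi : i ≤ n / 2) (f : PM (Fin n) → ℝ) (hf : ∀ X, 0 ≤ f X) :
    (1 - η) ^ i * ((∑ X, if InOm hn i X then f X else 0) / dfact i) ≤
      (iterIdx (fun i X => (bits B).bind fun u => .ret (swapN (2 * i) (u % (2 * i + 1)) X))
        i (x0 hn)).E f := by
  induction i generalizing f with
  | zero => rw [sum_inOm_zero]; simp [dfact, iterIdx]
  | succ i ih =>
    rw [iterIdx, Rand.E_bind]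
    have hk : ((2 * i + 1 : ℕ) : ℝ) / (2 : ℝ) ^ B ≤ η := by
      refine le_trans (div_le_div_of_nonneg_right ?_ (by positivity)) hη
      exact_mod_cast (by omega : 2 * i + 1 ≤ n)
    refine le_trans ?_ (Rand.E_mono _ (f := fun X => (1 - η) *
      ((∑ r ∈ range (2 * i + 1), f (swapN (2 * i) r X)) / (2 * i + 1 : ℕ))) fun X => ?_)
    · rw [Rand.E_const_mul, pow_succ', mul_assoc]
      refine mul_le_mul_of_nonneg_left (le_trans (le_of_eq ?_) (ih (by omega) _ fun X =>
        div_nonneg (Finset.sum_nonneg fun _ _ => hf _) (Nat.cast_nonneg _))) (by linarith)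
      rw [sum_inOm_succ hn (by omega), dfact_succ, Nat.cast_mul, mul_comm (dfact i : ℝ), ← div_div,
        Finset.sum_div]
      refine congrArg (fun t => (1 - η) ^ i * (t / dfact i)) (Finset.sum_congr rfl fun X _ => ?_)
      split_ifs <;> simp
    · rw [Rand.E_bind]
      exact bits_mod_ge B (by omega) hk (fun r => f (swapN (2 * i) r X)) fun r => hf _

theorem sum_update {ι α : Type} [Fintype ι] [DecidableEq ι] [Fintype α] (t : ι)
    (H : (ι → α) → ℝ) :
    ∑ y : ι → α, ∑ X : α, H (Function.update y t X) = Fintype.card α * ∑ y, H y := by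
  let e : (ι → α) × α ≃ (ι → α) × α := Function.Involutive.toPerm
    (fun p => (Function.update p.1 t p.2, p.1 t)) fun p => by simp
  have h := Equiv.sum_comp e fun p => H p.1
  rw [Fintype.sum_prod_type, Fintype.sum_prod_type] at h
  refine h.trans ?_
  simp [Finset.mul_sum]

theorem pop_ge {α : Type} [Fintype α] (N : ℕ) (R : Rand α) (a : α) {δ : ℝ} (hδ : 0 ≤ δ)
    (hR : ∀ g : α → ℝ, (∀ X, 0 ≤ g X) → δ * ((∑ X, g X) / Fintype.card α) ≤ R.E g) (t : ℕ)
    (ht : t ≤ N) (F : (Fin N → α) → ℝ) (hF : ∀ x, 0 ≤ F x) :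
    δ ^ t * ((∑ y : Fin N → α, F fun s => if s.val < t then y s else a) /
        (Fintype.card α : ℝ) ^ N) ≤
      (iterIdx (fun t x => R.bind fun X =>
        .ret (if h : t < N then Function.update x ⟨t, h⟩ X else x)) t (fun _ => a)).E F := by
  have hc : (0 : ℝ) < Fintype.card α := by exact_mod_cast Fintype.card_pos_iff.2 ⟨a⟩
  induction t generalizing F with
  | zero =>
    simp only [pow_zero, one_mul, Nat.not_lt_zero, if_false, Finset.sum_const, Finset.card_univ,
      Fintype.card_pi, Finset.prod_const, Fintype.card_fin, nsmul_eq_mul, iterIdx, Rand.E_ret]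
    push_cast
    rw [mul_div_cancel_left₀ _ (pow_pos hc N).ne']
  | succ t ih =>
    have htN : t < N := ht
    rw [iterIdx, Rand.E_bind]
    refine le_trans ?_ (Rand.E_mono _ (f := fun x => δ *
      ((∑ X, F (Function.update x ⟨t, htN⟩ X)) / Fintype.card α)) fun x => ?_)
    · rw [Rand.E_const_mul, pow_succ', mul_assoc]
      refine mul_le_mul_of_nonneg_left (le_trans (le_of_eq ?_) (ih (by omega) _ fun x =>
        div_nonneg (Finset.sum_nonneg fun _ _ => hF _) hc.le)) hδ
      have h1 := sum_update (⟨t, htN⟩ : Fin N)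
        fun y : Fin N → α => F fun s => if s.val < t + 1 then y s else a
      have h2 : ∀ (y : Fin N → α) (X : α),
          (fun s : Fin N => if s.val < t + 1 then Function.update y ⟨t, htN⟩ X s else a) =
          Function.update (fun s : Fin N => if s.val < t then y s else a) ⟨t, htN⟩ X := by
        intro y X
        funext s
        by_cases hs : s = ⟨t, htN⟩
        · subst hs
          simp
        · have : s.val ≠ t := fun h => hs (Fin.ext h)
          rw [Function.update_of_ne hs, Function.update_of_ne hs]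
          exact if_congr (by omega) rfl rfl
      simp only [h2] at h1
      rw [← Finset.sum_div, h1, mul_div_cancel_left₀ _ hc.ne']
    · rw [Rand.E_bind]
      simp only [Rand.E_ret, dif_pos htN]
      exact hR _ fun X => hF _

theorem popR_tv (l : ℕ) (hl : 4 ≤ l) (hnl : n ≤ 2 ^ l) (hn : Even n) (f : Pop n l → ℝ)
    (hf0 : ∀ x, 0 ≤ f x) (hf1 : ∀ x, f x ≤ 1) :
    |(popR l hn).E f - ∑ x : Pop n l, (∏ _i : Fin (pN l),
        (1 / (Fintype.card (PM (Fin n)) : ℝ))) * f x| ≤ 1 / ((2 : ℝ) ^ l) ^ 12 := by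
  have _ := hl
  set W : ℝ := 2 ^ l with hW
  have hW1 : 1 ≤ W := one_le_pow₀ (by norm_num)
  have hW0 : 0 < W := by linarith
  have hnW : (n : ℝ) ≤ W := by rw [hW]; exact_mod_cast hnl
  set η : ℝ := 1 / W ^ 569 with hη
  have hη0 : 0 ≤ η := by positivity
  have hη1 : η ≤ 1 := by
    rw [hη, div_le_one (by positivity)]
    exact one_le_pow₀ hW1
  have hB : (n : ℝ) / (2 : ℝ) ^ pB l ≤ η := by
    rw [pB, mul_comm, pow_mul, ← hW, hη, div_le_div_iff₀ (by positivity) (by positivity), one_mul,
      pow_succ' W 569]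
    exact mul_le_mul_of_nonneg_right hnW (by positivity)
  set c : ℝ := (Fintype.card (PM (Fin n)) : ℝ) with hc
  have hc0 : 0 < c := by rw [hc]; exact_mod_cast Fintype.card_pos_iff.2 ⟨x0 hn⟩
  have hR : ∀ g : PM (Fin n) → ℝ, (∀ X, 0 ≤ g X) →
      (1 - η) ^ (n / 2) * ((∑ X, g X) / c) ≤ (initR l hn).E g := by
    intro g hg
    have := init_ge (pB l) hn hB hη1 (n / 2) le_rfl g hg
    rwa [sum_inOm_top, ← card_PM hn] at this
  have hP : ∀ F : Pop n l → ℝ, (∀ x, 0 ≤ F x) →
      ((1 - η) ^ (n / 2)) ^ pN l * ((∑ y, F y) / c ^ pN l) ≤ (popR l hn).E F := by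
    intro F hF
    have := pop_ge (pN l) (initR l hn) (x0 hn) (pow_nonneg (by linarith) _) hR (pN l) le_rfl F hF
    simp only [Fin.is_lt, if_true] at this
    exact this
  have ha : 1 - 1 / W ^ 12 ≤ ((1 - η) ^ (n / 2)) ^ pN l := by
    rw [← pow_mul (1 - η)]
    have h0 := one_add_mul_le_pow (a := -η) (by linarith) (n / 2 * pN l)
    rw [← sub_eq_add_neg] at h0
    refine le_trans ?_ h0
    have h1 : ((n / 2 * pN l : ℕ) : ℝ) ≤ W ^ 557 := by
      have h2 : ((n / 2 : ℕ) : ℝ) ≤ W := le_trans (by exact_mod_cast Nat.div_le_self n 2) hnW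
      have h3 : (pN l : ℝ) = W ^ 556 := by
        rw [pN, pK, mul_comm, pow_mul, hW]
        push_cast
        rfl
      rw [Nat.cast_mul, h3, pow_succ' W 556]
      exact mul_le_mul_of_nonneg_right h2 (by positivity)
    have h4 : W ^ 557 * η = 1 / W ^ 12 := by
      rw [hη, show 569 = 557 + 12 from rfl, pow_add]
      field_simp
    have := mul_le_mul_of_nonneg_right h1 hη0
    linarith
  have e : ∑ x : Pop n l, (∏ _i : Fin (pN l), (1 / c)) * f x = (∑ y, f y) / c ^ pN l := by
    rw [← Finset.mul_sum, Finset.prod_const, Finset.card_univ, Fintype.card_fin, one_div, inv_pow,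
      inv_mul_eq_div]
  have hcN : 0 < c ^ pN l := pow_pos hc0 _
  have e1 : (∑ y : Pop n l, (1 - f y)) / c ^ pN l = 1 - (∑ y, f y) / c ^ pN l := by
    rw [Finset.sum_sub_distrib, sub_div, Finset.sum_const, Finset.card_univ, Fintype.card_pi,
      Finset.prod_const, Finset.card_univ, Fintype.card_fin, nsmul_eq_mul, mul_one]
    push_cast
    rw [div_self hcN.ne']
  have h1 := hP f hf0
  have h2 := hP (fun x => 1 - f x) fun x => by linarith [hf1 x]
  have m0 : 0 ≤ (∑ y, f y) / c ^ pN l := div_nonneg (Finset.sum_nonneg fun y _ => hf0 y) hcN.le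
  have m1 : 0 ≤ 1 - (∑ y, f y) / c ^ pN l := by
    rw [← e1]
    exact div_nonneg (Finset.sum_nonneg fun y _ => by linarith [hf1 y]) hcN.le
  rw [e1, Rand.E_sub, Rand.E_const] at h2
  rw [e, abs_le]
  have hθ : 0 ≤ 1 / W ^ 12 := by positivity
  have b1 := mul_le_mul_of_nonneg_right ha m0
  have b2 := mul_le_mul_of_nonneg_right ha m1
  constructor <;> nlinarith [mul_nonneg hθ m0, mul_nonneg hθ m1]

open Classical in
theorem numPM_eq (G : SimpleGraph (Fin n)) :
    numPM G = nAdj fun u v => decide (G.Adj u v) := by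
  let Φ : {X : PM (Fin n) // ∀ v, decide (G.Adj v (X.1 v)) = true} →
      {M : G.Subgraph // M.IsPerfectMatching} := fun X =>
    ⟨{ verts := Set.univ
       Adj := fun u v => X.1.1 u = v
       adj_sub := fun {u v} h => h ▸ of_decide_eq_true (X.2 u)
       edge_vert := fun _ => Set.mem_univ _
       symm := ⟨fun _ _ h => X.1.eq_iff.1 h⟩ },
      SimpleGraph.Subgraph.isPerfectMatching_iff.2 fun v => ⟨X.1.1 v, rfl, fun _ h => Eq.symm h⟩⟩
  have hΦ : Function.Bijective Φ := by
    constructor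
    · intro X Y h
      refine Subtype.ext (PM.ext fun v => ?_)
      have h1 : (Φ X).1.Adj v (Y.1.1 v) := h ▸ rfl
      exact h1
    · rintro ⟨M, hM⟩
      choose g hg hu using SimpleGraph.Subgraph.isPerfectMatching_iff.1 hM
      refine ⟨⟨⟨g, fun v => (hu _ v (hg v).symm).symm, fun v => (M.adj_sub (hg v)).ne'⟩,
        fun v => decide_eq_true (M.adj_sub (hg v))⟩, Subtype.ext (SimpleGraph.Subgraph.ext ?_ ?_)⟩
      · exact (Set.eq_univ_of_forall hM.2).symm
      · funext u v
        exact propext ⟨fun h => (show g u = v from h) ▸ hg u, fun h => (hu u v h).symm⟩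
  rw [numPM, ← Nat.card_congr (Equiv.ofBijective Φ hΦ), Nat.card_eq_fintype_card,
    Fintype.card_subtype, nAdj]

theorem numPM_odd (G : SimpleGraph (Fin n)) (hn : ¬ Even n) : numPM G = 0 := by
  have : IsEmpty {M : G.Subgraph // M.IsPerfectMatching} :=
    ⟨fun M => hn (by simpa using M.2.even_card)⟩
  exact Nat.card_of_isEmpty

theorem numPM_zero (G : SimpleGraph (Fin 0)) : numPM G = 1 := by
  rw [numPM_eq, nAdj, Finset.filter_true_of_mem fun X _ v => v.elim0, Finset.card_univ,
    card_PM ⟨0, rfl⟩]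
  rfl

end Vale.Agent.P308
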