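import Vale.Agent.P308.Spec

/-! Elementary facts on parameters and exponents. -/

namespace Vale.Agent.P308

open Finset Equiv Vale.Agent.P317

variable {n : ℕ}

theorem qq_pos {l : ℕ} (hl : 4 ≤ l) : 0 < qq l := by
  have h1 : (2 : ℝ) ≤ 2 ^ pM l := by
    calc (2 : ℝ) = 2 ^ 1 := by norm_num
      _ ≤ 2 ^ pM l := pow_le_pow_right₀ (by norm_num) (by unfold pM; omega)
  have h2 : (1 : ℝ) / 2 ^ pM l ≤ 1 / 2 := one_div_le_one_div_of_le (by norm_num) h1
  unfold qq
  linarith

theorem qq_le_one (l : ℕ) : qq l ≤ 1 := by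
  have : (0 : ℝ) ≤ 1 / 2 ^ pM l := by positivity
  unfold qq
  linarith

theorem aw_pos {l : ℕ} (hl : 4 ≤ l) (k : Mat n) (u v : Fin n) : 0 < aw l k u v :=
  pow_pos (qq_pos hl) _

theorem wt_aw (l : ℕ) (k : Mat n) (X : PM (Fin n)) : wt (aw l k) X = qq l ^ en k X := by
  simp [wt, aw, en, Finset.prod_pow_eq_pow_sum]

theorem Zf_pos {l : ℕ} (hl : 4 ≤ l) (hn : Even n) (k : Mat n) : 0 < Zf (aw l k) :=
  Finset.sum_pos (fun X _ => by rw [wt_aw]; exact pow_pos (qq_pos hl) _) ⟨x0 hn, mem_univ _⟩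

theorem sc_pos (l : ℕ) : 0 < sc l := Nat.two_pow_pos _

theorem pw_eq {l e : ℕ} (h : e ≤ pD l) : (pw l e : ℝ) = qq l ^ e * sc l := by
  obtain ⟨d, hd⟩ := Nat.exists_eq_add_of_le h
  have h1 : 1 ≤ 2 ^ pM l := Nat.one_le_two_pow
  have h2 : qq l * 2 ^ pM l = 2 ^ pM l - 1 := by unfold qq; field_simp
  unfold pw sc
  rw [min_eq_left h, hd, Nat.add_sub_cancel_left, mul_add, pow_add, pow_mul]
  push_cast [Nat.cast_sub h1]
  rw [← h2, mul_pow, pow_mul]
  ring

theorem pw_le (l e : ℕ) : pw l e ≤ sc l := by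
  unfold pw sc
  calc (2 ^ pM l - 1) ^ min e (pD l) * 2 ^ (pM l * (pD l - e))
      ≤ (2 ^ pM l) ^ min e (pD l) * 2 ^ (pM l * (pD l - e)) :=
        Nat.mul_le_mul_right _ (Nat.pow_le_pow_left (Nat.sub_le _ _) _)
    _ = 2 ^ (pM l * (min e (pD l) + (pD l - e))) := by rw [← pow_mul, ← pow_add, mul_add]
    _ = 2 ^ (pM l * pD l) := by congr 2; omega

theorem pU_pos (l : ℕ) : 0 < pU l := Nat.two_pow_pos _

theorem kk_succ (l : ℕ) (H : List (Mat n)) (s : ℕ) (u v : Fin n) :
    kk l H (s + 1) u v = kk l H s u v + H.getD (s / pU l) 0 u v := by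
  simp only [kk, sum_range_succ]

theorem KK_succ (H : List (Mat n)) (j : ℕ) (u v : Fin n) :
    KK H (j + 1) u v = KK H j u v + H.getD j 0 u v := by
  simp only [KK, sum_range_succ]

theorem kk_add (l : ℕ) (H : List (Mat n)) (j t : ℕ) (ht : t ≤ pU l) (u v : Fin n) :
    kk l H (j * pU l + t) u v = pU l * KK H j u v + t * H.getD j 0 u v := by
  induction j generalizing t with
  | zero =>
    simp only [zero_mul, zero_add, KK, range_zero, sum_empty, mul_zero, kk]
    rw [Finset.sum_congr rfl (g := fun _ => H.getD 0 0 u v) fun r hr => by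
      rw [Nat.div_eq_of_lt (lt_of_lt_of_le (mem_range.1 hr) ht)]]
    simp
  | succ j ih =>
    induction t with
    | zero =>
      have := ih (pU l) le_rfl
      rw [show (j + 1) * pU l + 0 = j * pU l + pU l by ring, this, KK_succ]
      ring
    | succ t iht =>
      rw [← add_assoc, kk_succ, iht (by omega), Nat.div_eq_of_lt_le (k := j + 1) (by omega)
        (by rw [add_mul (j + 1) 1]; omega)]
      ring

theorem kk_mul (l : ℕ) (H : List (Mat n)) (j : ℕ) (u v : Fin n) :
    kk l H (j * pU l) u v = pU l * KK H j u v := by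
  simpa using kk_add l H j 0 (Nat.zero_le _) u v

theorem kk_closed (l : ℕ) (H : List (Mat n)) (s : ℕ) (u v : Fin n) :
    kk l H s u v = pU l * KK H (s / pU l) u v + s % pU l * H.getD (s / pU l) 0 u v := by
  rw [← kk_add l H _ _ (Nat.mod_lt _ (pU_pos l)).le, Nat.div_add_mod']

theorem getD_append_lt (H : List (Mat n)) (M : Mat n) {i : ℕ} (h : i < H.length) :
    (H ++ [M]).getD i 0 = H.getD i 0 := by
  simp [List.getD_eq_getElem?_getD, List.getElem?_append_left h]

theorem getD_append_eq (H : List (Mat n)) (M : Mat n) : (H ++ [M]).getD H.length 0 = M := by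
  simp [List.getD_eq_getElem?_getD]

theorem KK_append (H : List (Mat n)) (M : Mat n) {j : ℕ} (h : j ≤ H.length) :
    KK (H ++ [M]) j = KK H j := by
  funext u v
  exact Finset.sum_congr rfl fun i hi => by
    rw [getD_append_lt H M (lt_of_lt_of_le (mem_range.1 hi) h)]

theorem kk_append (l : ℕ) (H : List (Mat n)) (M : Mat n) {s : ℕ} (h : s ≤ H.length * pU l) :
    kk l (H ++ [M]) s = kk l H s := by
  funext u v
  exact Finset.sum_congr rfl fun r hr => by
    rw [getD_append_lt H M ((Nat.div_lt_iff_lt_mul (pU_pos l)).2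
      (lt_of_lt_of_le (mem_range.1 hr) h))]

/-- The increments are symmetric and small, and all marginals stay large for `j` rounds. -/
def HOK (l : ℕ) (H : List (Mat n)) (j : ℕ) : Prop :=
  (∀ i u v, H.getD i 0 u v = H.getD i 0 v u) ∧ (∀ i u v, H.getD i 0 u v ≤ n + 1) ∧
    ∀ s, s ≤ j * pU l → Marg l (kk l H s) (1 / (8 * ((2 : ℝ) ^ l) ^ 3))

end Vale.Agent.P308
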