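import Vale.Agent.P308.PopB

/-! Many particles with random pair moves, started close to the product measure. -/

namespace Vale.Agent.P308

open Finset

variable {Ω ι : Type} [Fintype Ω] [DecidableEq Ω] [Fintype ι]

/-- Metropolis acceptance probability. -/
noncomputable def accP (π : Ω → ℝ) (p p' : Ω × Ω) : ℝ :=
  min 1 (π p'.1 * π p'.2 / (π p.1 * π p.2))

/-- Transition operator of the particle system. -/
noncomputable def popOp (N : ℕ) (π : Ω → ℝ) (mv : ι → Ω × Ω → Ω × Ω) (c : ℝ)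
    (f : (Fin N → Ω) → ℝ) (x : Fin N → Ω) : ℝ :=
  f x + c / (N : ℝ) ^ 2 * ∑ i, ∑ j, if i = j then 0 else
    ∑ l, accP π (x i, x j) (mv l (x i, x j)) *
      (f (Function.update (Function.update x i (mv l (x i, x j)).1) j (mv l (x i, x j)).2) - f x)

/-- Energy of a function of two particles. -/
noncomputable def pairD (π : Ω → ℝ) (mv : ι → Ω × Ω → Ω × Ω) (F : Ω × Ω → ℝ) : ℝ :=
  ∑ l, ∑ p : Ω × Ω, min (π p.1 * π p.2) (π (mv l p).1 * π (mv l p).2) * (F (mv l p) - F p) ^ 2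

theorem exists_basis (π : Ω → ℝ) (hπ : ∀ x, 0 < π x) (hπ1 : ∑ x, π x = 1) (o : Ω) :
    ∃ e : Ω → Ω → ℝ, (∀ a b, ∑ x, π x * (e a x * e b x) = if a = b then 1 else 0) ∧
      (∀ x y, ∑ a, π y * (e a x * e a y) = if x = y then 1 else 0) ∧ ∀ x, e o x = 1 := by
  let v : EuclideanSpace ℝ Ω := WithLp.toLp 2 fun x => Real.sqrt (π x)
  have hv : ‖v‖ = 1 := by
    rw [EuclideanSpace.norm_eq]
    simp only [v, Real.norm_eq_abs, sq_abs, Real.sq_sqrt (hπ _).le, hπ1, Real.sqrt_one]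
  obtain ⟨b, hb⟩ := Orthonormal.exists_orthonormalBasis_extension_of_card_eq (𝕜 := ℝ)
    (E := EuclideanSpace ℝ Ω) (ι := Ω) finrank_euclideanSpace (v := fun _ => v) (s := {o})
    (orthonormal_subsingleton_iff.2 fun _ => hv)
  have hs : ∀ x, 0 < Real.sqrt (π x) := fun x => Real.sqrt_pos.2 (hπ x)
  refine ⟨fun a x => b a x / Real.sqrt (π x), fun a a' => ?_, fun x y => ?_, fun x => ?_⟩
  · rw [← orthonormal_iff_ite.1 b.orthonormal a a', PiLp.inner_apply]
    refine Finset.sum_congr rfl fun x _ => ?_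
    rw [div_mul_div_comm, Real.mul_self_sqrt (hπ x).le, mul_div_cancel₀ _ (hπ x).ne']
    simp [mul_comm]
  · have h1 := b.sum_inner_mul_inner (EuclideanSpace.single x (1 : ℝ)) (EuclideanSpace.single y 1)
    simp only [EuclideanSpace.inner_single_left, EuclideanSpace.inner_single_right, map_one,
      one_mul, conj_trivial, PiLp.single_apply] at h1
    have e : ∀ a, π y * (b a x / Real.sqrt (π x) * (b a y / Real.sqrt (π y))) =
        π y / (Real.sqrt (π x) * Real.sqrt (π y)) * (b a x * b a y) := fun a => by ring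
    simp only [e, ← Finset.mul_sum, h1]
    by_cases h : x = y
    · rw [h, if_pos rfl, Real.mul_self_sqrt (hπ y).le, div_self (hπ y).ne', one_mul]
    · rw [if_neg h, if_neg (Ne.symm h), mul_zero]
  · simp only [hb o rfl, v]
    exact div_self (hs x).ne'

/-- The generator of the pair moves, as a matrix. -/
noncomputable def lap (π : Ω → ℝ) (mv : ι → Ω × Ω → Ω × Ω) (c : ℝ) (z p : Ω × Ω) : ℝ :=
  c * ∑ l, accP π z (mv l z) * ((if z = p then 1 else 0) - if mv l z = p then 1 else 0)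

theorem lap_apply (π : Ω → ℝ) (mv : ι → Ω × Ω → Ω × Ω) (c : ℝ) (z : Ω × Ω) (F : Ω × Ω → ℝ) :
    ∑ p, lap π mv c z p * F p = c * ∑ l, accP π z (mv l z) * (F z - F (mv l z)) := by
  simp only [lap, mul_assoc, ← Finset.mul_sum, Finset.sum_mul]
  rw [Finset.sum_comm]
  simp only [← Finset.mul_sum, sub_mul, Finset.sum_sub_distrib, ite_mul, one_mul, zero_mul,
    Finset.sum_ite_eq, Finset.mem_univ, if_true]

theorem lap_form {π : Ω → ℝ} (hπ : ∀ x, 0 < π x) {mv : ι → Ω × Ω → Ω × Ω}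
    (hinv : ∀ l p, mv l (mv l p) = p) (c : ℝ) (G F : Ω × Ω → ℝ) :
    ∑ z : Ω × Ω, π z.1 * π z.2 * G z * ∑ p, lap π mv c z p * F p =
      c / 2 * ∑ l, ∑ z : Ω × Ω, min (π z.1 * π z.2) (π (mv l z).1 * π (mv l z).2) *
        ((G (mv l z) - G z) * (F (mv l z) - F z)) := by
  have h1 : ∀ z : Ω × Ω, π z.1 * π z.2 * G z * ∑ p, lap π mv c z p * F p =
      c * ∑ l, min (π z.1 * π z.2) (π (mv l z).1 * π (mv l z).2) * (G z * (F z - F (mv l z))) := by
    intro z
    have h0 := mul_pos (hπ z.1) (hπ z.2)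
    rw [lap_apply, mul_left_comm, Finset.mul_sum]
    refine congrArg _ (Finset.sum_congr rfl fun l _ => ?_)
    have h2 : π z.1 * π z.2 * accP π z (mv l z) =
        min (π z.1 * π z.2) (π (mv l z).1 * π (mv l z).2) := by
      rw [accP, mul_min_of_nonneg _ _ h0.le, mul_one, mul_div_cancel₀ _ h0.ne']
    rw [← h2]
    ring
  simp only [h1, ← Finset.mul_sum]
  rw [Finset.sum_comm, div_mul_eq_mul_div, mul_div_assoc, Finset.sum_div]
  refine congrArg _ (Finset.sum_congr rfl fun l _ => ?_)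
  have h2 := (Function.Involutive.bijective (hinv l)).sum_comp fun z : Ω × Ω =>
    min (π z.1 * π z.2) (π (mv l z).1 * π (mv l z).2) * (G z * (F z - F (mv l z)))
  simp only [hinv] at h2
  rw [eq_div_iff two_ne_zero, mul_two]
  nth_rewrite 1 [← h2]
  rw [← Finset.sum_add_distrib]
  refine Finset.sum_congr rfl fun z _ => ?_
  rw [min_comm]
  ring

omit [DecidableEq Ω] in
theorem pairD_nonneg {π : Ω → ℝ} (hπ : ∀ x, 0 < π x) (mv : ι → Ω × Ω → Ω × Ω) (F : Ω × Ω → ℝ) :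
    0 ≤ pairD π mv F :=
  Finset.sum_nonneg fun _ _ => Finset.sum_nonneg fun _ _ => mul_nonneg
    (le_min (mul_pos (hπ _) (hπ _)).le (mul_pos (hπ _) (hπ _)).le) (sq_nonneg _)

omit [DecidableEq Ω] in
theorem pairD_le {π : Ω → ℝ} (hπ : ∀ x, 0 < π x) {mv : ι → Ω × Ω → Ω × Ω}
    (hinv : ∀ l p, mv l (mv l p) = p) {I : ℝ} (hI : (Fintype.card ι : ℝ) ≤ I) (F : Ω × Ω → ℝ) :
    pairD π mv F ≤ 4 * I * ∑ z : Ω × Ω, π z.1 * π z.2 * F z ^ 2 := by
  have h0 : 0 ≤ ∑ z : Ω × Ω, π z.1 * π z.2 * F z ^ 2 :=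
    Finset.sum_nonneg fun z _ => mul_nonneg (mul_pos (hπ _) (hπ _)).le (sq_nonneg _)
  refine (Finset.sum_le_card_nsmul _ _ (4 * ∑ z : Ω × Ω, π z.1 * π z.2 * F z ^ 2)
    fun l _ => ?_).trans ?_
  · have h2 := (Function.Involutive.bijective (hinv l)).sum_comp fun z : Ω × Ω =>
      π z.1 * π z.2 * F z ^ 2
    have h3 : ∑ z : Ω × Ω, min (π z.1 * π z.2) (π (mv l z).1 * π (mv l z).2) *
        (F (mv l z) - F z) ^ 2 ≤ ∑ z : Ω × Ω, (2 * (π (mv l z).1 * π (mv l z).2 * F (mv l z) ^ 2) +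
          2 * (π z.1 * π z.2 * F z ^ 2)) := by
      refine Finset.sum_le_sum fun z _ => ?_
      have a0 : 0 ≤ min (π z.1 * π z.2) (π (mv l z).1 * π (mv l z).2) :=
        le_min (mul_pos (hπ _) (hπ _)).le (mul_pos (hπ _) (hπ _)).le
      have a1 := mul_le_mul_of_nonneg_right
        (min_le_left (π z.1 * π z.2) (π (mv l z).1 * π (mv l z).2)) (sq_nonneg (F z))
      have a2 := mul_le_mul_of_nonneg_right
        (min_le_right (π z.1 * π z.2) (π (mv l z).1 * π (mv l z).2)) (sq_nonneg (F (mv l z)))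
      have a3 := mul_nonneg a0 (sq_nonneg (F (mv l z) + F z))
      linarith
    rw [Finset.sum_add_distrib, ← Finset.mul_sum, ← Finset.mul_sum, h2] at h3
    linarith
  · rw [Finset.card_univ, nsmul_eq_mul]
    nlinarith

omit [DecidableEq Ω] in
theorem sum_pair_sq {π : Ω → ℝ} (hπ1 : ∑ x, π x = 1) {g h : Ω → ℝ} (hg : ∑ x, π x * g x = 0) :
    ∑ z : Ω × Ω, π z.1 * π z.2 * (g z.1 + h z.2) ^ 2 = ∑ x, π x * g x ^ 2 + ∑ x, π x * h x ^ 2 := by
  have e : ∀ x y, π x * π y * (g x + h y) ^ 2 =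
      π x * g x ^ 2 * π y + π x * (π y * h y ^ 2) + π x * g x * (2 * (π y * h y)) := fun x y => by
    ring
  rw [Fintype.sum_prod_type]
  simp only [e, Finset.sum_add_distrib, ← Finset.mul_sum, ← Finset.sum_mul, hπ1, hg]
  ring

omit [DecidableEq Ω] in
theorem pairD_gap {π : Ω → ℝ} (hπ : ∀ x, 0 < π x) (hπ1 : ∑ x, π x = 1) {mv : ι → Ω × Ω → Ω × Ω}
    (hinv : ∀ l p, mv l (mv l p) = p) {l0 : ι} (hl0 : ∀ p, mv l0 p = p.swap) {K I : ℝ}
    (hI : (Fintype.card ι : ℝ) ≤ I) (hK : 1 ≤ K)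
    (hgap : ∀ h : Ω → ℝ, ∑ x, ∑ y, π x * π y * (h x - h y) ^ 2
      ≤ K * pairD π mv fun p => h p.1 + h p.2) {g h : Ω → ℝ} (hg : ∑ x, π x * g x = 0)
    (hh : ∑ x, π x * h x = 0) :
    ∑ x, π x * g x ^ 2 + ∑ x, π x * h x ^ 2 ≤ 10 * K * I * pairD π mv fun p => g p.1 + h p.2 := by
  have hI1 : 1 ≤ I := le_trans (by exact_mod_cast Fintype.card_pos_iff.2 ⟨l0⟩) hI
  have hd : ∑ x, π x * (g x - h x) = 0 := by simp only [mul_sub, Finset.sum_sub_distrib, hg, hh,
    sub_zero]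
  have hm : ∀ l (z : Ω × Ω), 0 ≤ min (π z.1 * π z.2) (π (mv l z).1 * π (mv l z).2) := fun l z =>
    le_min (mul_pos (hπ _) (hπ _)).le (mul_pos (hπ _) (hπ _)).le
  have hD0 := pairD_nonneg hπ mv fun p => g p.1 + h p.2
  have a1 : 2 * ∑ x, π x * (g x - h x) ^ 2 ≤ pairD π mv fun p => g p.1 + h p.2 := by
    refine le_trans (le_of_eq ?_) (Finset.single_le_sum (f := fun l => ∑ z : Ω × Ω,
      min (π z.1 * π z.2) (π (mv l z).1 * π (mv l z).2) *
        (g (mv l z).1 + h (mv l z).2 - (g z.1 + h z.2)) ^ 2)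
      (fun l _ => Finset.sum_nonneg fun z _ => mul_nonneg (hm l z) (sq_nonneg _))
      (Finset.mem_univ l0))
    have b1 := sum_pair_sq hπ1 (h := fun x => -(g x - h x)) hd
    simp only [neg_sq] at b1
    rw [two_mul, ← b1]
    refine Finset.sum_congr rfl fun z _ => ?_
    rw [hl0, Prod.fst_swap, Prod.snd_swap, mul_comm (π z.2), min_self]
    ring
  have a2 : (pairD π mv fun p => g p.1 + g p.2) ≤ 2 * (pairD π mv fun p => g p.1 + h p.2) +
      2 * pairD π mv fun p => 0 + (g p.2 - h p.2) := by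
    simp only [pairD, Finset.mul_sum, ← Finset.sum_add_distrib]
    refine Finset.sum_le_sum fun l _ => Finset.sum_le_sum fun z _ => ?_
    have := mul_nonneg (hm l z) (sq_nonneg (g (mv l z).1 + h (mv l z).2 - (g z.1 + h z.2) -
      (0 + (g (mv l z).2 - h (mv l z).2) - (0 + (g z.2 - h z.2)))))
    linarith
  have a3 := pairD_le hπ hinv hI fun p => 0 + (g p.2 - h p.2)
  rw [sum_pair_sq hπ1 (g := fun _ => 0) (h := fun x => g x - h x) (by simp)] at a3
  simp only [ne_eq, OfNat.ofNat_ne_zero, not_false_eq_true, zero_pow, mul_zero,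
    Finset.sum_const_zero, zero_add (∑ x, π x * (g x - h x) ^ 2)] at a3
  have a4 := hgap g
  have a5 := sum_pair_sq hπ1 (h := fun x => -g x) hg
  simp only [neg_sq, ← sub_eq_add_neg, Fintype.sum_prod_type] at a5
  have a6 : ∑ x, π x * h x ^ 2 ≤ 2 * ∑ x, π x * g x ^ 2 + 2 * ∑ x, π x * (g x - h x) ^ 2 := by
    simp only [Finset.mul_sum, ← Finset.sum_add_distrib]
    refine Finset.sum_le_sum fun x _ => ?_
    have := mul_nonneg (hπ x).le (sq_nonneg (2 * g x - h x))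
    linarith
  generalize (pairD π mv fun p => g p.1 + h p.2) = D at a1 a2 hD0
  have a7 := mul_le_mul_of_nonneg_left a1 (by linarith : 0 ≤ I)
  have a8 := mul_le_mul_of_nonneg_right hI1 hD0
  have a9 : (pairD π mv fun p => g p.1 + g p.2) ≤ 6 * (I * D) := by linarith
  have a10 := mul_le_mul_of_nonneg_left a9 (by linarith : 0 ≤ K)
  have a11 := mul_le_mul_of_nonneg_right hK (by linarith : 0 ≤ I * D)
  linarith

/-- The generator in the orthonormal basis. -/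
noncomputable def Qm (π : Ω → ℝ) (mv : ι → Ω × Ω → Ω × Ω) (c : ℝ) (e : Ω → Ω → ℝ)
    (p q : Ω × Ω) : ℝ :=
  ∑ z : Ω × Ω, π z.1 * π z.2 * (e p.1 z.1 * e p.2 z.2) *
    ∑ y, lap π mv c z y * (e q.1 y.1 * e q.2 y.2)

/-- A function from its coefficients. -/
def syn (e : Ω → Ω → ℝ) (F : Ω × Ω → ℝ) (z : Ω × Ω) : ℝ := ∑ p, F p * (e p.1 z.1 * e p.2 z.2)

theorem qf_Qm (π : Ω → ℝ) (mv : ι → Ω × Ω → Ω × Ω) (c : ℝ) (e : Ω → Ω → ℝ) (G F : Ω × Ω → ℝ) :
    qf (Qm π mv c e) G F =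
      ∑ z : Ω × Ω, π z.1 * π z.2 * syn e G z * ∑ y, lap π mv c z y * syn e F y := by
  simp only [qf, Qm, syn, Finset.mul_sum, Finset.sum_mul]
  rw [Finset.sum_congr rfl fun p _ => Finset.sum_comm, Finset.sum_comm]
  refine Finset.sum_congr rfl fun z _ => ?_
  rw [Finset.sum_congr rfl fun p _ => Finset.sum_comm, Finset.sum_comm]
  refine Finset.sum_congr rfl fun y _ => ?_
  rw [Finset.sum_comm]
  exact Finset.sum_congr rfl fun _ _ => Finset.sum_congr rfl fun _ _ => by ring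

theorem syn_norm {π : Ω → ℝ} {e : Ω → Ω → ℝ}
    (e1 : ∀ a b, ∑ x, π x * (e a x * e b x) = if a = b then 1 else 0) (F : Ω × Ω → ℝ) :
    ∑ z : Ω × Ω, π z.1 * π z.2 * syn e F z ^ 2 = ∑ p, F p ^ 2 := by
  have h1 : ∀ p q : Ω × Ω, ∑ z : Ω × Ω, π z.1 * (e p.1 z.1 * e q.1 z.1) *
      (π z.2 * (e p.2 z.2 * e q.2 z.2)) = if p = q then 1 else 0 := by
    intro p q
    rw [Fintype.sum_prod_type]
    dsimp only
    rw [← Finset.sum_mul_sum, e1, e1, ite_zero_mul_ite_zero, mul_one]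
    exact if_congr Prod.ext_iff.symm rfl rfl
  have h2 : ∀ z : Ω × Ω, π z.1 * π z.2 * syn e F z ^ 2 = ∑ p, ∑ q, F p * F q *
      (π z.1 * (e p.1 z.1 * e q.1 z.1) * (π z.2 * (e p.2 z.2 * e q.2 z.2))) := by
    intro z
    rw [syn, sq, Finset.sum_mul_sum, Finset.mul_sum]
    refine Finset.sum_congr rfl fun p _ => ?_
    rw [Finset.mul_sum]
    exact Finset.sum_congr rfl fun q _ => by ring
  simp only [h2]
  rw [Finset.sum_comm]
  refine Finset.sum_congr rfl fun p _ => ?_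
  rw [Finset.sum_comm]
  simp only [← Finset.mul_sum, h1, mul_ite, mul_one, mul_zero, Finset.sum_ite_eq, Finset.mem_univ,
    if_true, sq]

theorem Qm_ok {π : Ω → ℝ} (hπ : ∀ x, 0 < π x) (hπ1 : ∑ x, π x = 1) {mv : ι → Ω × Ω → Ω × Ω}
    (hinv : ∀ l p, mv l (mv l p) = p) {l0 : ι} (hl0 : ∀ p, mv l0 p = p.swap) {c K I γ : ℝ}
    (hc : 0 ≤ c) (hI : (Fintype.card ι : ℝ) ≤ I) (hcI : 2 * c * I ≤ 1) (hK : 1 ≤ K)
    (hgap : ∀ h : Ω → ℝ, ∑ x, ∑ y, π x * π y * (h x - h y) ^ 2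
      ≤ K * pairD π mv fun p => h p.1 + h p.2) (hγ0 : 0 < γ) (hγ : γ * (20 * K * I) ≤ c)
    {e : Ω → Ω → ℝ} {o : Ω} (e1 : ∀ a b, ∑ x, π x * (e a x * e b x) = if a = b then 1 else 0)
    (e3 : ∀ x, e o x = 1) : QOK (Qm π mv c e) o γ := by
  have hq : ∀ F, qf (Qm π mv c e) F F = c / 2 * pairD π mv (syn e F) := fun F => by
    simp only [qf_Qm, lap_form hπ hinv, pairD, sq]
  have hQ : ∀ p q, Qm π mv c e p q = _ := fun p q => lap_form hπ hinv c
    (fun z => e p.1 z.1 * e p.2 z.2) fun z => e q.1 z.1 * e q.2 z.2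
  refine ⟨fun p q => ?_, fun F => ?_, fun F => ?_, fun q => ?_, fun F hF => ?_⟩
  · simp only [hQ, mul_comm (e p.1 _ * e p.2 _ - _)]
  · rw [hq]
    exact mul_nonneg (by linarith) (pairD_nonneg hπ mv _)
  · have h1 := mul_le_mul_of_nonneg_left (pairD_le hπ hinv hI (syn e F)) hc
    rw [syn_norm e1] at h1
    have h2 := mul_le_mul_of_nonneg_right hcI (Finset.sum_nonneg fun p (_ : p ∈ univ) =>
      sq_nonneg (F p))
    rw [hq]
    linarith
  · simp [hQ, e3]
  · have h0 : F (o, o) = 0 := by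
      by_contra h
      simpa [pl, ex] using hF _ h
    have h1 : ∀ a b, F (a, b) = (if b = o then F (a, o) else 0) + if a = o then F (o, b) else 0 := by
      intro a b
      by_cases ha : a = o <;> by_cases hb : b = o <;> simp only [ha, hb, h0, if_true, if_false,
        add_zero, zero_add]
      by_contra h
      simpa [pl, ex, ha, hb] using hF _ h
    have h2 : syn e F = fun z => ∑ a, F (a, o) * e a z.1 + ∑ b, F (o, b) * e b z.2 := by
      funext z
      rw [syn, Fintype.sum_prod_type, Finset.sum_congr rfl fun a _ => Finset.sum_congr rfl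
        fun b _ => congrArg (· * (e a z.1 * e b z.2)) (h1 a b)]
      simp only [add_mul, Finset.sum_add_distrib, ite_mul, zero_mul, Finset.sum_ite_eq',
        Finset.mem_univ, if_true, e3, mul_one]
      rw [Finset.sum_comm]
      simp only [Finset.sum_ite_eq', Finset.mem_univ, if_true, e3, one_mul]
    have h3 : ∀ G : Ω → ℝ, G o = 0 → ∑ x, π x * ∑ a, G a * e a x = 0 := by
      intro G hG
      have b1 : ∀ a, ∑ x, π x * (G a * e a x) = if a = o then G a else 0 := by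
        intro a
        have := e1 a o
        simp only [e3, mul_one] at this
        simp only [mul_left_comm (π _), ← Finset.mul_sum, this, mul_ite, mul_one, mul_zero]
      simp only [Finset.mul_sum]
      rw [Finset.sum_comm]
      simp only [b1, Finset.sum_ite_eq', Finset.mem_univ, if_true, hG]
    have h4 := pairD_gap hπ hπ1 hinv hl0 hI hK hgap (h3 (fun a => F (a, o)) h0)
      (h3 (fun b => F (o, b)) h0)
    rw [← sum_pair_sq hπ1 (h3 (fun a => F (a, o)) h0)] at h4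
    have h5 := syn_norm e1 F
    have h6 := pairD_nonneg hπ mv (syn e F)
    rw [hq, ← h5]
    rw [h2] at h6 ⊢
    have h7 := mul_le_mul_of_nonneg_left h4 hγ0.le
    have h8 := mul_le_mul_of_nonneg_right hγ h6
    linarith

/-- Coefficients in the product basis. -/
def co {N : ℕ} (π : Ω → ℝ) (e : Ω → Ω → ℝ) (u : (Fin N → Ω) → ℝ) (a : Fin N → Ω) : ℝ :=
  ∑ x, (∏ k, π (x k) * e (a k) (x k)) * u x

theorem co_pair {N : ℕ} {π : Ω → ℝ} {e : Ω → Ω → ℝ}
    (e2 : ∀ x y, ∑ a, π y * (e a x * e a y) = if x = y then 1 else 0) (mv : ι → Ω × Ω → Ω × Ω)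
    (c : ℝ) {i j : Fin N} (h : i ≠ j) (f : (Fin N → Ω) → ℝ) (a : Fin N → Ω) :
    co π e (fun x => ∑ p, lap π mv c (x i, x j) p * f (upd x i j p)) a =
      ∑ p, Qm π mv c e (a i, a j) p * co π e f (upd a i j p) := by
  have h1 : ∀ p y : Ω × Ω, ∑ q, Qm π mv c e p q * (π y.1 * e q.1 y.1 * (π y.2 * e q.2 y.2)) =
      ∑ z : Ω × Ω, π z.1 * e p.1 z.1 * (π z.2 * e p.2 z.2) * lap π mv c z y := by
    intro p y
    have b1 : ∀ z : Ω × Ω, ∑ q : Ω × Ω, π y.1 * (e q.1 z.1 * e q.1 y.1) *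
        (π y.2 * (e q.2 z.2 * e q.2 y.2)) = if z = y then 1 else 0 := by
      intro z
      rw [Fintype.sum_prod_type]
      dsimp only
      rw [← Finset.sum_mul_sum, e2, e2, ite_zero_mul_ite_zero, mul_one]
      exact if_congr Prod.ext_iff.symm rfl rfl
    have b2 : ∀ q : Ω × Ω, Qm π mv c e p q * (π y.1 * e q.1 y.1 * (π y.2 * e q.2 y.2)) =
        ∑ z : Ω × Ω, ∑ z' : Ω × Ω, π z.1 * e p.1 z.1 * (π z.2 * e p.2 z.2) * lap π mv c z z' *
          (π y.1 * (e q.1 z'.1 * e q.1 y.1) * (π y.2 * (e q.2 z'.2 * e q.2 y.2))) := by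
      intro q
      simp only [Qm, Finset.sum_mul, Finset.mul_sum]
      exact Finset.sum_congr rfl fun _ _ => Finset.sum_congr rfl fun _ _ => by ring
    simp only [b2]
    rw [Finset.sum_comm]
    refine Finset.sum_congr rfl fun z _ => ?_
    rw [Finset.sum_comm]
    simp only [← Finset.mul_sum, b1, mul_ite, mul_one, mul_zero, Finset.sum_ite_eq',
      Finset.mem_univ, if_true]
  simp only [co, Finset.mul_sum]
  rw [← sum_upd h fun x p => (∏ k, π (x k) * e (a k) (x k)) *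
    (lap π mv c (x i, x j) p * f (upd x i j p)), Finset.sum_comm (s := (univ : Finset (Ω × Ω)))]
  refine Finset.sum_congr rfl fun y _ => ?_
  simp only [upd_upd h, upd_self, upd_fst h, upd_snd, prod_upd h fun k z => π z * e (a k) z,
    prod_upd h fun k z => π (y k) * e z (y k)]
  have h2 := congrArg (fun t => (∏ k ∈ (univ.erase i).erase j, π (y k) * e (a k) (y k)) * f y * t)
    (h1 (a i, a j) (y i, y j))
  simp only [Finset.mul_sum] at h2
  refine Eq.trans (Finset.sum_congr rfl fun _ _ => ?_)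
    (h2.symm.trans (Finset.sum_congr rfl fun _ _ => ?_)) <;> ring

theorem co_popOp {N : ℕ} {π : Ω → ℝ} {e : Ω → Ω → ℝ}
    (e2 : ∀ x y, ∑ a, π y * (e a x * e a y) = if x = y then 1 else 0) (mv : ι → Ω × Ω → Ω × Ω)
    (c : ℝ) (f : (Fin N → Ω) → ℝ) : co π e (popOp N π mv c f) = Ph (Qm π mv c e) (co π e f) := by
  funext a
  have h1 : ∀ x, popOp N π mv c f x = f x - 1 / (N : ℝ) ^ 2 * ∑ i, ∑ j, if i = j then 0 else
      ∑ p, lap π mv c (x i, x j) p * f (upd x i j p) := by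
    intro x
    simp only [popOp, lap_apply, upd_self, sub_eq_add_neg (f x), ← mul_neg, ← Finset.sum_neg_distrib]
    rw [div_eq_mul_one_div c, mul_comm c, mul_assoc, Finset.mul_sum]
    refine congrArg _ (congrArg _ (Finset.sum_congr rfl fun i _ => ?_))
    rw [Finset.mul_sum]
    refine Finset.sum_congr rfl fun j _ => ?_
    split_ifs
    · simp
    · rw [← mul_neg, ← Finset.sum_neg_distrib]
      exact congrArg _ (Finset.sum_congr rfl fun l _ => by simp only [upd]; ring)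
  have h2 : ∀ i j : Fin N, (if i = j then 0 else
      ∑ p, Qm π mv c e (a i, a j) p * co π e f (upd a i j p)) =
      ∑ x, (∏ k, π (x k) * e (a k) (x k)) * if i = j then 0 else
        ∑ p, lap π mv c (x i, x j) p * f (upd x i j p) := by
    intro i j
    split_ifs with h
    · simp
    · exact (co_pair e2 mv c h f a).symm
  simp only [Ph, h2]
  simp only [co, h1, mul_sub, Finset.sum_sub_distrib, mul_left_comm _ (1 / (N : ℝ) ^ 2),
    ← Finset.mul_sum (a := 1 / (N : ℝ) ^ 2)]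
  rw [Finset.sum_congr rfl fun i _ => Finset.sum_comm, Finset.sum_comm]
  simp only [Finset.mul_sum]

theorem co_pars {N : ℕ} {π : Ω → ℝ} {e : Ω → Ω → ℝ}
    (e2 : ∀ x y, ∑ a, π y * (e a x * e a y) = if x = y then 1 else 0) (μ : Ω → ℝ)
    (u f : (Fin N → Ω) → ℝ) :
    ∑ a, co μ e u a * co π e f a = ∑ x, (∏ k, μ (x k)) * u x * f x := by
  have h1 : ∀ x y : Fin N → Ω, ∑ a : Fin N → Ω, ∏ k, π (y k) * (e (a k) (x k) * e (a k) (y k)) =
      if x = y then 1 else 0 := by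
    intro x y
    rw [← Fintype.prod_sum fun k a => π (y k) * (e a (x k) * e a (y k))]
    simp only [e2, Finset.prod_ite_zero, Finset.mem_univ, true_implies, Finset.prod_const_one,
      funext_iff]
  have h2 : ∀ a, co μ e u a * co π e f a = ∑ x, ∑ y, (∏ k, μ (x k)) * u x * f y *
      ∏ k, π (y k) * (e (a k) (x k) * e (a k) (y k)) := by
    intro a
    rw [co, co, Finset.sum_mul_sum]
    refine Finset.sum_congr rfl fun x _ => Finset.sum_congr rfl fun y _ => ?_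
    simp only [Finset.prod_mul_distrib]
    ring
  simp only [h2]
  rw [Finset.sum_comm]
  refine Finset.sum_congr rfl fun x _ => ?_
  rw [Finset.sum_comm]
  simp only [← Finset.mul_sum, h1, mul_ite, mul_one, mul_zero, Finset.sum_ite_eq, Finset.mem_univ,
    if_true]

theorem coef_sq {π ν : Ω → ℝ} {e : Ω → Ω → ℝ} {ε : ℝ} (hπ : ∀ x, 0 < π x) (hπ1 : ∑ x, π x = 1)
    (hν1 : ∑ x, ν x = 1) (hν : ∀ x, |ν x - π x| ≤ ε * π x)
    (e2 : ∀ x y, ∑ a, π y * (e a x * e a y) = if x = y then 1 else 0) :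
    ∑ a, (∑ x, ν x * e a x) ^ 2 ≤ 1 + ε ^ 2 := by
  have h1 : ∀ a, (∑ x, ν x * e a x) ^ 2 =
      ∑ x, ∑ y, ν x * (ν y / π y) * (π y * (e a x * e a y)) := by
    intro a
    rw [sq, Finset.sum_mul_sum]
    refine Finset.sum_congr rfl fun x _ => Finset.sum_congr rfl fun y _ => ?_
    have := (hπ y).ne'
    field_simp
  have h2 : ∑ a, (∑ x, ν x * e a x) ^ 2 = ∑ x, ν x * (ν x / π x) := by
    simp only [h1]
    rw [Finset.sum_comm]
    refine Finset.sum_congr rfl fun x _ => ?_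
    rw [Finset.sum_comm]
    simp only [← Finset.mul_sum, e2, mul_ite, mul_one, mul_zero, Finset.sum_ite_eq,
      Finset.mem_univ, if_true]
  have h3 : ∑ x, ν x * (ν x / π x) ≤ ∑ x, (2 * ν x + (ε ^ 2 - 1) * π x) := by
    refine Finset.sum_le_sum fun x _ => ?_
    have h4 := pow_le_pow_left₀ (abs_nonneg _) (hν x) 2
    rw [sq_abs] at h4
    rw [← mul_div_assoc, div_le_iff₀ (hπ x)]
    linarith
  rw [Finset.sum_add_distrib, ← Finset.mul_sum, ← Finset.mul_sum, hν1, hπ1] at h3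
  linarith

theorem pop_mix (N : ℕ) (π ν : Ω → ℝ) (mv : ι → Ω × Ω → Ω × Ω) (c K I γ ε r : ℝ) (T : ℕ)
    (hπ : ∀ x, 0 < π x) (hπ1 : ∑ x, π x = 1) (hν1 : ∑ x, ν x = 1)
    (hν : ∀ x, |ν x - π x| ≤ ε * π x)
    (hinv : ∀ l p, mv l (mv l p) = p) (l0 : ι) (hl0 : ∀ p, mv l0 p = p.swap)
    (hc : 0 ≤ c) (hI : (Fintype.card ι : ℝ) ≤ I) (hcI : 2 * c * I ≤ 1) (hK : 1 ≤ K)
    (hgap : ∀ h : Ω → ℝ, ∑ x, ∑ y, π x * π y * (h x - h y) ^ 2
      ≤ K * pairD π mv fun p => h p.1 + h p.2)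
    (hγ0 : 0 < γ) (hγ : γ * (20 * K * I) ≤ c) (hr : 0 < r) (hrN : r ^ 2 = N) (hN : 4 ≤ N)
    (hβ : 10 ≤ γ * r) (hT0 : 0 < T) (hT : 100 * (T : ℝ) ≤ γ * r ^ 4)
    (hε : ε * r * (γ * r) ^ 2 ≤ 25)
    (f : (Fin N → Ω) → ℝ) (hf0 : ∀ x, 0 ≤ f x) (hf1 : ∀ x, f x ≤ 1) :
    |∑ x : Fin N → Ω, (∏ i, ν (x i)) * (popOp N π mv c)^[T] f x
        - ∑ x : Fin N → Ω, (∏ i, π (x i)) * f x|
      ≤ ε * r * (4 * r ^ 2 / (γ * T) + 600 / (γ * r) ^ 2) := by
  obtain ⟨o, -⟩ : (univ : Finset Ω).Nonempty :=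
    Finset.nonempty_of_sum_ne_zero (f := π) (by rw [hπ1]; exact one_ne_zero)
  obtain ⟨e, e1, e2, e3⟩ := exists_basis π hπ hπ1 o
  have hQ := Qm_ok hπ hπ1 hinv hl0 hc hI hcI hK hgap hγ0 hγ e1 e3
  have hI1 : 1 ≤ I := le_trans (by exact_mod_cast Fintype.card_pos_iff.2 ⟨l0⟩) hI
  have hγ1 : γ ≤ 1 := by
    have h1 : 1 ≤ K * I := one_le_mul_of_one_le_of_one_le hK hI1
    nlinarith [mul_le_mul_of_nonneg_left h1 hγ0.le, mul_le_mul_of_nonneg_left hI1 hc]
  have hε0 : 0 ≤ ε := (mul_nonneg_iff_of_pos_right (hπ o)).1 ((abs_nonneg _).trans (hν o))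
  have hg : ∑ a, co π e f a ^ 2 ≤ 1 := by
    simp only [sq, co_pars e2]
    have h1 : ∑ x : Fin N → Ω, ∏ k, π (x k) = 1 := by
      rw [← Fintype.prod_sum fun _ a => π a]
      simp [hπ1]
    rw [← h1]
    refine Finset.sum_le_sum fun x _ => ?_
    rw [mul_assoc]
    exact mul_le_of_le_one_right (Finset.prod_nonneg fun k _ => (hπ _).le)
      (mul_le_one₀ (hf1 x) (hf0 x) (hf1 x))
  have h1 := pop_abs hQ hγ0 hγ1 hr hrN hN hβ hT0 hT hε0 hε (h := fun a => ∑ x, ν x * e a x)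
    (by simp only [e3, mul_one, hν1]) (coef_sq hπ hπ1 hν1 hν e2) hg
  have h2 : (Ph (Qm π mv c e))^[T] (co π e f) = co π e ((popOp N π mv c)^[T] f) :=
    (Function.Semiconj.iterate_right (co_popOp e2 mv c) T f).symm
  have h3 : ∀ a : Fin N → Ω, ∏ k, ∑ x, ν x * e (a k) x = co ν e (fun _ => 1) a := fun a => by
    simp only [co, mul_one, Fintype.prod_sum]
  simp only [h2, h3, co_pars e2, mul_one] at h1
  simpa only [co, e3, mul_one] using h1

end Vale.Agent.P308
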