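import Vale.Agent.P308.Ultra
import Vale.Agent.P308.Pop
import Vale.Agent.P308.Init
import Vale.Agent.P308.Levels

/-! The annealed sampler is accurate. -/

namespace Vale.Agent.P308

open Finset Equiv Vale.Agent.P317

variable {n : ℕ}

/-- Probability of a matching under the weights with exponents `k`. -/
noncomputable def prb (l : ℕ) (k : Mat n) (X : PM (Fin n)) : ℝ := wt (aw l k) X / Zf (aw l k)

/-- The labelled moves. -/
noncomputable def lab : (Fin n × Fin n) ⊕ (Fin n × Fin n) →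
    PM (Fin n) × PM (Fin n) → PM (Fin n) × PM (Fin n)
  | .inl x => arcMv x.1 (x.2.val + 1)
  | .inr x => swMv x.1 x.2

theorem lab_inv (x : (Fin n × Fin n) ⊕ (Fin n × Fin n)) (p : PM (Fin n) × PM (Fin n)) :
    lab x (lab x p) = p := by
  rcases x with ⟨a, b⟩ | ⟨u, v⟩
  · have : Inhabited (Fin n) := ⟨a⟩
    simp only [lab]
    by_cases h : Inst (walkL p.1 p.2 a (b.val + 1)) p.1 p.2
    · have e : arcMv a (b.val + 1) p = ((tau (walkL p.1 p.2 a (b.val + 1)))⁻¹ • p.2,
          tau (walkL p.1 p.2 a (b.val + 1)) • p.1) := by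
        unfold arcMv; rw [if_pos h]
      have h1 := h.flip
      have h2 := h1.alt.eq_walkL
      rw [length_walkL] at h2
      have h3 : hd (walkL p.1 p.2 a (b.val + 1)) = a := rfl
      rw [h3] at h2
      rw [e]
      unfold arcMv
      simp only
      rw [← h2, if_pos h1, inv_smul_smul, smul_inv_smul]
    · have e : arcMv a (b.val + 1) p = p := by unfold arcMv; rw [if_neg h]
      rw [e, e]
  · simp only [lab, swMv, smul_smul, swap_mul_self, one_smul]

theorem ch_sum_range {W : ℕ} (h : n ≤ W) (F : ℕ → ℝ) (hF : ∀ a, n ≤ a → F a = 0) :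
    ∑ a ∈ range W, F a = ∑ a : Fin n, F a := by
  rw [Fin.sum_univ_eq_sum_range]
  exact (Finset.sum_subset (range_subset_range.2 h) fun a _ ha =>
    hF a (not_lt.1 fun h' => ha (mem_range.2 h'))).symm

theorem ch_labels {W : ℕ} (h : n ≤ W) (p : PM (Fin n) × PM (Fin n))
    (D : PM (Fin n) × PM (Fin n) → ℝ) (hD : D p = 0) :
    ∑ t ∈ range (2 ^ 2), ∑ a ∈ range W, ∑ b ∈ range W, D (mvN t a b p) = ∑ x, D (lab x p) := by
  have h0 : ∀ t a b, ¬ (t < 2 ∧ a < n ∧ b < n) → D (mvN t a b p) = 0 := fun t a b hc => by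
    unfold mvN; rw [dif_neg hc, hD]
  have h1 : ∀ t, ∑ a ∈ range W, ∑ b ∈ range W, D (mvN t a b p) =
      ∑ a : Fin n, ∑ b : Fin n, D (mvN t a b p) := fun t => by
    rw [ch_sum_range h (fun a => ∑ b ∈ range W, D (mvN t a b p)) fun a ha =>
      Finset.sum_eq_zero fun b _ => h0 t a b (by omega)]
    exact Finset.sum_congr rfl fun a _ => ch_sum_range h _ fun b hb => h0 t a b (by omega)
  have h2 : ∀ t, 2 ≤ t → ∑ a ∈ range W, ∑ b ∈ range W, D (mvN t a b p) = 0 := fun t ht =>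
    Finset.sum_eq_zero fun a _ => Finset.sum_eq_zero fun b _ => h0 t a b (by omega)
  rw [show 2 ^ 2 = 4 from rfl, sum_range_succ, sum_range_succ, sum_range_succ, sum_range_succ,
    sum_range_zero, h2 2 le_rfl, h2 3 (by norm_num), h1, h1, Fintype.sum_sum_type,
    Fintype.sum_prod_type, Fintype.sum_prod_type, zero_add, add_zero, add_zero]
  congr 1
  · refine Finset.sum_congr rfl fun a _ => Finset.sum_congr rfl fun b _ => ?_
    unfold mvN
    rw [dif_pos ⟨by norm_num, a.2, b.2⟩, if_pos rfl]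
    rfl
  · refine Finset.sum_congr rfl fun a _ => Finset.sum_congr rfl fun b _ => ?_
    unfold mvN
    rw [dif_pos ⟨by norm_num, a.2, b.2⟩, if_neg (by norm_num)]
    rfl

theorem ch_accP (l : ℕ) (hl : 4 ≤ l) (hn : Even n) (k : Mat n) (p p' : PM (Fin n) × PM (Fin n)) :
    accP (prb l k) p p' = qq l ^ (en k p'.1 + en k p'.2 - (en k p.1 + en k p.2)) := by
  have hq := qq_pos hl
  have hZ := Zf_pos hl hn k
  have e : prb l k p'.1 * prb l k p'.2 / (prb l k p.1 * prb l k p.2) =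
      qq l ^ (en k p'.1 + en k p'.2) / qq l ^ (en k p.1 + en k p.2) := by
    simp only [prb, wt_aw, pow_add]
    field_simp
  unfold accP
  rw [e]
  generalize en k p'.1 + en k p'.2 = A
  generalize en k p.1 + en k p.2 = B
  rcases le_total A B with h | h
  · rw [Nat.sub_eq_zero_of_le h, pow_zero, min_eq_left]
    rw [one_le_div (pow_pos hq _)]
    exact pow_le_pow_of_le_one hq.le (qq_le_one l) h
  · rw [div_eq_mul_inv, ← pow_sub₀ _ hq.ne' h, min_eq_right]
    exact pow_le_one₀ hq.le (qq_le_one l)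

theorem ch_coin (l e : ℕ) (he : e ≤ pD l) (A B : ℝ) :
    (∑ u ∈ range (2 ^ (pM l * pD l)), if u < pw l e then A else B) / 2 ^ (pM l * pD l) =
      B + qq l ^ e * (A - B) := by
  have h1 : ∀ u, (if u < pw l e then A else B) = B + (if u < pw l e then (A - B) else 0) :=
    fun u => by split_ifs <;> ring
  simp only [h1]
  rw [sum_add_distrib, ← Finset.sum_filter]
  have h2 : (range (2 ^ (pM l * pD l))).filter (· < pw l e) = range (pw l e) := by
    have := pw_le l e
    unfold sc at this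
    ext u
    simp only [mem_filter, mem_range]
    omega
  rw [h2, sum_const, sum_const, card_range, card_range, nsmul_eq_mul, nsmul_eq_mul, pw_eq he]
  unfold sc
  push_cast
  field_simp

theorem E_stepR (l : ℕ) (hl : 4 ≤ l) (hnl : n ≤ 2 ^ l) (hn : Even n) (k : Mat n)
    (hk : ∀ X, 2 * en k X ≤ pD l) (f : Pop n l → ℝ) (x : Pop n l) :
    (stepR l k x).E f = popOp (pN l) (prb l k) lab (1 / (4 * ((2 : ℝ) ^ l) ^ 2)) f x := by
  let D : Fin (pN l) → Fin (pN l) → PM (Fin n) × PM (Fin n) → ℝ := fun i j p' =>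
    if i = j then 0 else accP (prb l k) (x i, x j) p' *
      (f (Function.update (Function.update x i p'.1) j p'.2) - f x)
  have hD : ∀ i j, D i j (x i, x j) = 0 := fun i j => by
    simp only [D, Function.update_eq_self, sub_self, mul_zero, ite_self]
  have h1 : ∀ (i j : Fin (pN l)) (t a b : ℕ),
      (∑ u ∈ range (2 ^ (pM l * pD l)), f (stepF l k x i j t a b u)) / 2 ^ (pM l * pD l) =
        f x + D i j (mvN t a b (x i, x j)) := by
    intro i j t a b
    by_cases hij : i = j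
    · have : ∀ u, stepF l k x i j t a b u = x := fun u => by
        unfold stepF; rw [dif_neg (by simp [hij])]
      simp only [this, D, if_pos hij, sum_const, card_range, nsmul_eq_mul, add_zero]
      push_cast
      field_simp
    · have hc : (i : ℕ) < pN l ∧ (j : ℕ) < pN l ∧ (i : ℕ) ≠ j :=
        ⟨i.2, j.2, fun h => hij (Fin.ext h)⟩
      have : ∀ u, f (stepF l k x i j t a b u) =
          if u < pw l (en k (mvN t a b (x i, x j)).1 + en k (mvN t a b (x i, x j)).2 -
            (en k (x i) + en k (x j))) then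
          f (Function.update (Function.update x i (mvN t a b (x i, x j)).1) j
            (mvN t a b (x i, x j)).2) else f x := fun u => by
        unfold stepF; rw [dif_pos hc, apply_ite f]
      simp only [this]
      rw [ch_coin l _ (by
        have := hk (mvN t a b (x i, x j)).1
        have := hk (mvN t a b (x i, x j)).2
        omega)]
      simp only [D, if_neg hij, ch_accP l hl hn]
  have h2 : ∀ i j : Fin (pN l),
      (∑ t ∈ range (2 ^ 2), (∑ a ∈ range (2 ^ l), (∑ b ∈ range (2 ^ l),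
        (∑ u ∈ range (2 ^ (pM l * pD l)), f (stepF l k x i j t a b u)) / 2 ^ (pM l * pD l)) /
          2 ^ l) / 2 ^ l) / 2 ^ 2 =
      f x + 1 / (4 * ((2 : ℝ) ^ l) ^ 2) * ∑ y, D i j (lab y (x i, x j)) := by
    intro i j
    rw [← ch_labels hnl _ _ (hD i j)]
    simp only [h1, sum_add_distrib, sum_const, card_range, nsmul_eq_mul, add_div,
      ← Finset.sum_div]
    push_cast
    field_simp
    norm_num
  have h3 : ∀ F : ℕ → ℝ, ∑ i ∈ range (2 ^ pK l), F i = ∑ i : Fin (pN l), F i := fun F =>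
    (Fin.sum_univ_eq_sum_range F (pN l)).symm
  simp only [stepR, Rand.E_bind, E_bits, Rand.E_ret, h3, h2]
  have h4 : ((pN l : ℕ) : ℝ) = 2 ^ pK l := by unfold pN; push_cast; rfl
  have h5 : ∀ i j : Fin (pN l), (if i = j then 0 else ∑ y, accP (prb l k) (x i, x j)
      (lab y (x i, x j)) * (f (Function.update (Function.update x i (lab y (x i, x j)).1) j
        (lab y (x i, x j)).2) - f x)) = ∑ y, D i j (lab y (x i, x j)) := fun i j => by
    simp only [D]
    split_ifs <;> simp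
  unfold popOp
  simp only [h5, sum_add_distrib, sum_const, card_univ, Fintype.card_fin, nsmul_eq_mul, add_div,
    ← Finset.sum_div, ← Finset.mul_sum, h4]
  field_simp

theorem ch_arc (a : Fin n → Fin n → ℝ) (ha : ∀ X : PM (Fin n), 0 ≤ wt a X) (h : PM (Fin n) → ℝ) :
    Darc a h ≤ ∑ x : Fin n × Fin n, ∑ p : PM (Fin n) × PM (Fin n),
      min (wt a p.1 * wt a p.2) (wt a (lab (.inl x) p).1 * wt a (lab (.inl x) p).2) *
        (h (lab (.inl x) p).1 + h (lab (.inl x) p).2 - (h p.1 + h p.2)) ^ 2 := by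
  classical
  unfold Darc
  rw [Finset.sum_comm (s := univ) (t := univ), Fintype.sum_prod_type, Finset.sum_comm]
  refine Finset.sum_le_sum fun X _ => ?_
  rw [Finset.sum_comm]
  refine Finset.sum_le_sum fun Y _ => ?_
  let G : List (Fin n) → ℝ := fun Q => if Inst Q X Y then
    min (wt a X * wt a Y) (wt a ((tau Q)⁻¹ • Y) * wt a (tau Q • X)) *
      (h ((tau Q)⁻¹ • Y) + h (tau Q • X) - (h X + h Y)) ^ 2 else 0
  have hG : ∀ Q, 0 ≤ G Q := fun Q => by
    simp only [G]
    split_ifs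
    · exact mul_nonneg (le_min (mul_nonneg (ha _) (ha _)) (mul_nonneg (ha _) (ha _))) (sq_nonneg _)
    · exact le_rfl
  have h1 : ∑ Q ∈ arcs (Fin n), G Q ≤
      ∑ Q ∈ univ.image fun x : Fin n × Fin n => walkL X Y x.1 (x.2.val + 1), G Q := by
    rw [← Finset.sum_filter_of_ne (p := fun Q => Inst Q X Y) (s := arcs (Fin n))
      fun Q _ hQ => by by_contra hc; exact hQ (if_neg hc)]
    refine Finset.sum_le_sum_of_subset_of_nonneg (fun Q hQ => ?_) fun Q _ _ => hG Q
    have hI := (mem_filter.1 hQ).2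
    have hlen : 0 < Q.length := List.length_pos_iff.2 hI.1
    have hle : Q.length ≤ n := by simpa using hI.2.1.length_le_card
    have : Inhabited (Fin n) := ⟨⟨0, by omega⟩⟩
    refine mem_image.2 ⟨(hd Q, ⟨Q.length - 1, by omega⟩), mem_univ _, ?_⟩
    simp only
    rw [Nat.sub_add_cancel hlen]
    exact hI.alt.eq_walkL.symm
  have h2 : ∑ Q ∈ univ.image fun x : Fin n × Fin n => walkL X Y x.1 (x.2.val + 1), G Q ≤
      ∑ x : Fin n × Fin n, G (walkL X Y x.1 (x.2.val + 1)) :=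
    Finset.sum_image_le_of_nonneg fun Q _ => hG Q
  refine (h1.trans h2).trans (le_of_eq (Finset.sum_congr rfl fun x _ => ?_))
  simp only [G, lab, arcMv]
  split_ifs <;> simp

theorem ch_sw (a : Fin n → Fin n → ℝ) (ha : ∀ X : PM (Fin n), 0 ≤ wt a X) (h : PM (Fin n) → ℝ) :
    Zf a * Dsw a h = ∑ x : Fin n × Fin n, ∑ p : PM (Fin n) × PM (Fin n),
      min (wt a p.1 * wt a p.2) (wt a (lab (.inr x) p).1 * wt a (lab (.inr x) p).2) *
        (h (lab (.inr x) p).1 + h (lab (.inr x) p).2 - (h p.1 + h p.2)) ^ 2 := by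
  unfold Dsw Zf
  rw [Fintype.sum_prod_type, Finset.mul_sum]
  refine Finset.sum_congr rfl fun u _ => ?_
  rw [Finset.mul_sum]
  refine Finset.sum_congr rfl fun v _ => ?_
  rw [Fintype.sum_prod_type, Finset.mul_sum]
  refine Finset.sum_congr rfl fun X _ => ?_
  rw [Finset.sum_mul]
  refine Finset.sum_congr rfl fun Y _ => ?_
  simp only [lab, swMv]
  rw [← min_mul_of_nonneg _ _ (ha Y)]
  ring

theorem ch_W {l : ℕ} (hl : 4 ≤ l) : (16 : ℝ) ≤ 2 ^ l :=
  calc (16 : ℝ) = 2 ^ 4 := by norm_num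
    _ ≤ 2 ^ l := pow_le_pow_right₀ (by norm_num) hl

theorem lab_gap (l : ℕ) (hl : 4 ≤ l) (hnl : n ≤ 2 ^ l) (hn : Even n) (hn0 : 0 < n) (k : Mat n)
    (hs : ∀ u v, k u v = k v u) (hm : Marg l k (1 / (8 * ((2 : ℝ) ^ l) ^ 3)))
    (h : PM (Fin n) → ℝ) :
    ∑ X, ∑ Y, prb l k X * prb l k Y * (h X - h Y) ^ 2
      ≤ ((2 : ℝ) ^ l) ^ 122 * pairD (prb l k) lab fun p => h p.1 + h p.2 := by
  have : Inhabited (Fin n) := ⟨⟨0, hn0⟩⟩
  have hW := ch_W hl
  have hnW : (n : ℝ) ≤ 2 ^ l := by exact_mod_cast hnl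
  have hZ := Zf_pos hl hn k
  have hwt : ∀ X : PM (Fin n), 0 ≤ wt (aw l k) X := fun X => by
    rw [wt_aw]; exact (pow_pos (qq_pos hl) _).le
  generalize (2 : ℝ) ^ l = W at hW hnW hm
  have hW0 : 0 < W := by linarith
  have hW3 : 4096 ≤ W ^ 3 := le_trans (by norm_num) (pow_le_pow_left₀ (by norm_num) hW 3)
  have hW4 : 1024 ≤ W ^ 4 := le_trans (by norm_num) (pow_le_pow_left₀ (by norm_num) hW 4)
  have hp := poincare_marg (aw l k) (fun u v => by simp only [aw, hs u v]) (aw_pos hl k) hZ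
    (1 / (8 * W ^ 3)) (W ^ 7) (by positivity)
    (by rw [div_le_one (by positivity)]; linarith) (one_le_pow₀ (by linarith))
    (by
      rw [Fintype.card_fin]
      have e : (W ^ 7) ^ 2 * (1 / (8 * W ^ 3)) ^ 3 = W * W ^ 4 / 512 := by field_simp; norm_num
      rw [e, le_div_iff₀ (by norm_num)]
      nlinarith) hm h
  rw [Fintype.card_fin] at hp
  have e1 : ∑ X, ∑ Y, prb l k X * prb l k Y * (h X - h Y) ^ 2 =
      (∑ X, ∑ Y, wt (aw l k) X * wt (aw l k) Y * (h X - h Y) ^ 2) / Zf (aw l k) ^ 2 := by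
    rw [Finset.sum_div]
    refine Finset.sum_congr rfl fun X _ => ?_
    rw [Finset.sum_div]
    refine Finset.sum_congr rfl fun Y _ => ?_
    simp only [prb]
    field_simp
  have e2 : (pairD (prb l k) lab fun p => h p.1 + h p.2) =
      (∑ x, ∑ p : PM (Fin n) × PM (Fin n), min (wt (aw l k) p.1 * wt (aw l k) p.2)
        (wt (aw l k) (lab x p).1 * wt (aw l k) (lab x p).2) *
        (h (lab x p).1 + h (lab x p).2 - (h p.1 + h p.2)) ^ 2) / Zf (aw l k) ^ 2 := by
    unfold pairD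
    rw [Finset.sum_div]
    refine Finset.sum_congr rfl fun x _ => ?_
    rw [Finset.sum_div]
    refine Finset.sum_congr rfl fun p _ => ?_
    simp only [prb]
    rw [div_mul_div_comm, div_mul_div_comm, min_div_div_right (mul_pos hZ hZ).le]
    ring
  rw [e1, e2, ← mul_div_assoc, Fintype.sum_sum_type]
  refine div_le_div_of_nonneg_right (hp.trans ?_) (sq_nonneg _)
  have h1 := add_le_add (ch_arc (aw l k) hwt h) (ch_sw (aw l k) hwt h).le
  have h2 : 0 ≤ Darc (aw l k) h + Zf (aw l k) * Dsw (aw l k) h := by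
    refine add_nonneg (Finset.sum_nonneg fun Q _ => Finset.sum_nonneg fun X _ =>
      Finset.sum_nonneg fun Y _ => ?_) (mul_nonneg hZ.le (Finset.sum_nonneg fun u _ =>
        Finset.sum_nonneg fun v _ => Finset.sum_nonneg fun X _ =>
          mul_nonneg (le_min (hwt _) (hwt _)) (sq_nonneg _)))
    split_ifs
    · exact mul_nonneg (le_min (mul_nonneg (hwt _) (hwt _)) (mul_nonneg (hwt _) (hwt _)))
        (sq_nonneg _)
    · exact le_rfl
  refine mul_le_mul ?_ h1 h2 (by positivity)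
  calc 300 * (n : ℝ) ^ 7 * (W ^ 7) ^ 16 ≤ W ^ 3 * W ^ 7 * (W ^ 7) ^ 16 := by
        gcongr; linarith
    _ = W ^ 122 := by ring

theorem ch_prb_pos (l : ℕ) (hl : 4 ≤ l) (hn : Even n) (k : Mat n) (X : PM (Fin n)) :
    0 < prb l k X := by
  unfold prb
  rw [wt_aw]
  exact div_pos (pow_pos (qq_pos hl) _) (Zf_pos hl hn k)

theorem ch_prb_sum (l : ℕ) (hl : 4 ≤ l) (hn : Even n) (k : Mat n) : ∑ X, prb l k X = 1 := by
  unfold prb
  rw [← Finset.sum_div]
  exact div_self (Zf_pos hl hn k).ne'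

theorem ch_pow (l m : ℕ) : (2 : ℝ) ^ (m * l) = ((2 : ℝ) ^ l) ^ m := pow_mul' _ _ _

theorem ch_close (l : ℕ) (hl : 4 ≤ l) (hnl : n ≤ 2 ^ l) (hn : Even n)
    (k k' : Mat n) (hkk : ∀ u v, k u v ≤ k' u v ∧ k' u v ≤ k u v + (n + 1)) (X : PM (Fin n)) :
    |prb l k X - prb l k' X| ≤ 4 / ((2 : ℝ) ^ l) ^ 578 * prb l k' X := by
  have hq := qq_pos hl
  have hq1 := qq_le_one l
  have hW := ch_W hl
  have hnW : (n : ℝ) ≤ 2 ^ l := by exact_mod_cast hnl
  have h1 : ∀ X, en k X ≤ en k' X := fun X => Finset.sum_le_sum fun v _ => (hkk _ _).1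
  have h2 : ∀ X, en k' X ≤ en k X + n * (n + 1) := fun X => by
    have := Finset.sum_le_sum (s := univ) fun v _ => (hkk v (X.1 v)).2
    rw [sum_add_distrib, sum_const, card_univ, Fintype.card_fin, smul_eq_mul] at this
    exact this
  set θ := qq l ^ (n * (n + 1)) with hθ
  set e : ℝ := 2 / ((2 : ℝ) ^ l) ^ 578 with he
  have hθ1 : 1 - e ≤ θ := by
    have h3 := one_add_mul_le_pow (a := -(1 / (2 : ℝ) ^ pM l))
      (by have := qq_pos hl; unfold qq at this; linarith) (n * (n + 1))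
    rw [← sub_eq_add_neg] at h3
    refine le_trans ?_ h3
    have h4 : ((n * (n + 1) : ℕ) : ℝ) * (1 / (2 : ℝ) ^ pM l) ≤ e := by
      rw [he, pM, ch_pow]
      generalize (2 : ℝ) ^ l = W at hW hnW
      have hW0 : 0 < W := by linarith
      have h5 : ((n * (n + 1) : ℕ) : ℝ) ≤ 2 * W ^ 2 := by
        push_cast; nlinarith [(Nat.cast_nonneg n : (0 : ℝ) ≤ n)]
      calc ((n * (n + 1) : ℕ) : ℝ) * (1 / W ^ 580) ≤ 2 * W ^ 2 * (1 / W ^ 580) := by gcongr
        _ = 2 / W ^ 578 := by field_simp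
    linarith
  have he0 : 0 < e := by positivity
  have he1 : e ≤ 1 / 2 := by
    rw [he, div_le_div_iff₀ (by positivity) (by norm_num)]
    have : (2 : ℝ) ^ l ≤ ((2 : ℝ) ^ l) ^ 578 := le_self_pow₀ (by linarith) (by norm_num)
    linarith
  have e4 : 4 / ((2 : ℝ) ^ l) ^ 578 = 2 * e := by rw [he]; ring
  rw [e4]
  have a1 : ∀ X, wt (aw l k') X ≤ wt (aw l k) X := fun X => by
    rw [wt_aw, wt_aw]; exact pow_le_pow_of_le_one hq.le hq1 (h1 X)
  have a2 : ∀ X, (1 - e) * wt (aw l k) X ≤ wt (aw l k') X := fun X => by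
    rw [wt_aw, wt_aw]
    calc (1 - e) * qq l ^ en k X ≤ θ * qq l ^ en k X :=
          mul_le_mul_of_nonneg_right hθ1 (pow_pos hq _).le
      _ = qq l ^ (en k X + n * (n + 1)) := by rw [pow_add, mul_comm]
      _ ≤ qq l ^ en k' X := pow_le_pow_of_le_one hq.le hq1 (h2 X)
  have b1 : Zf (aw l k') ≤ Zf (aw l k) := Finset.sum_le_sum fun X _ => a1 X
  have b2 : (1 - e) * Zf (aw l k) ≤ Zf (aw l k') := by
    unfold Zf; rw [Finset.mul_sum]; exact Finset.sum_le_sum fun X _ => a2 X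
  have hZ := Zf_pos hl hn k
  have hZ' := Zf_pos hl hn k'
  have hx : 0 < wt (aw l k') X := by rw [wt_aw]; exact pow_pos hq _
  have a1X := a1 X
  have a2X := a2 X
  unfold prb
  generalize wt (aw l k) X = s at a1X a2X
  generalize wt (aw l k') X = s' at a1X a2X hx
  generalize Zf (aw l k) = Z at b1 b2 hZ
  generalize Zf (aw l k') = Z' at b1 b2 hZ'
  have hs : 0 < s := by linarith
  rw [abs_le]
  constructor
  · have : (1 - 2 * e) * (s' / Z') ≤ s / Z := by
      rw [← mul_div_assoc, div_le_div_iff₀ hZ' hZ]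
      have c1 := mul_le_mul a1X b2 (by nlinarith) hs.le
      have c2 : 0 ≤ e * (s' * Z) := by positivity
      nlinarith
    linarith
  · have : s / Z ≤ (1 + 2 * e) * (s' / Z') := by
      rw [← mul_div_assoc, div_le_div_iff₀ hZ hZ']
      have c1 := mul_le_mul a2X b1 hZ'.le hx.le
      have c2 : 0 ≤ s * Z' := by positivity
      have c3 : 1 ≤ (1 + 2 * e) * (1 - e) := by nlinarith
      have c4 := mul_le_mul_of_nonneg_left c1 (by linarith : 0 ≤ 1 + 2 * e)
      nlinarith
    linarith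

theorem ch_iter {α : Type} (f : α → Rand α) (P : (α → ℝ) → α → ℝ)
    (h : ∀ g x, (f x).E g = P g x) (T : ℕ) (g : α → ℝ) (x : α) :
    (iter f T x).E g = P^[T] g x := by
  induction T generalizing x with
  | zero => rfl
  | succ T ih =>
    rw [iter, Rand.E_bind, h, Function.iterate_succ_apply']
    congr 1
    funext y
    exact ih y

theorem stage_tv (l : ℕ) (hl : 4 ≤ l) (hnl : n ≤ 2 ^ l) (hn : Even n) (hn0 : 0 < n)
    (k k' : Mat n) (hkk : ∀ u v, k u v ≤ k' u v ∧ k' u v ≤ k u v + (n + 1))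
    (hk : ∀ X, 2 * en k' X ≤ pD l) (hs : ∀ u v, k' u v = k' v u)
    (hm : Marg l k' (1 / (8 * ((2 : ℝ) ^ l) ^ 3)))
    (f : Pop n l → ℝ) (hf0 : ∀ x, 0 ≤ f x) (hf1 : ∀ x, f x ≤ 1) :
    |∑ x : Pop n l, (∏ i, prb l k (x i)) * (iter (stepR l k') (pT l) x).E f
      - ∑ x : Pop n l, (∏ i, prb l k' (x i)) * f x| ≤ 28 / ((2 : ℝ) ^ l) ^ 598 := by
  have hW := ch_W hl
  have hnW : (n : ℝ) ≤ 2 ^ l := by exact_mod_cast hnl
  have hN : ((pN l : ℕ) : ℝ) = ((2 : ℝ) ^ l) ^ 556 := by
    unfold pN pK; push_cast; exact ch_pow _ _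
  have hT : ((pT l : ℕ) : ℝ) = ((2 : ℝ) ^ l) ^ 982 := by
    unfold pT; push_cast; exact ch_pow _ _
  have hN4 : 4 ≤ pN l := by
    calc 4 = 2 ^ 2 := rfl
      _ ≤ 2 ^ pK l := Nat.pow_le_pow_right (by norm_num) (by unfold pK; omega)
  simp only [ch_iter _ _ (E_stepR l hl hnl hn k' hk)]
  have hgap := lab_gap l hl hnl hn hn0 k' hs hm
  have hcl := ch_close l hl hnl hn k k' hkk
  generalize (2 : ℝ) ^ l = W at hW hnW hN hT hgap hcl
  have hW0 : 0 < W := by linarith
  have hW2 : 256 ≤ W ^ 2 := by nlinarith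
  have hmix := pop_mix (pN l) (prb l k') (prb l k) lab (1 / (4 * W ^ 2)) (W ^ 122) (2 * W ^ 2)
    (1 / W ^ 128) (4 / W ^ 578) (W ^ 278) (pT l) (ch_prb_pos l hl hn k') (ch_prb_sum l hl hn k')
    (ch_prb_sum l hl hn k) hcl lab_inv (.inl (⟨0, hn0⟩, ⟨0, hn0⟩))
    (fun p => by
      have hI : Inst (walkL p.1 p.2 ⟨0, hn0⟩ 1) p.1 p.2 := by simp [Inst, walkL, Ef]
      simp only [lab, arcMv, zero_add]
      rw [if_pos hI]
      simp [walkL, tau, Prod.swap])
    (by positivity)
    (by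
      simp only [Fintype.card_sum, Fintype.card_prod, Fintype.card_fin]
      push_cast
      nlinarith [(Nat.cast_nonneg n : (0 : ℝ) ≤ n)])
    (le_of_eq (by field_simp; norm_num)) (one_le_pow₀ (by linarith)) hgap (by positivity)
    (by
      have e : 1 / W ^ 128 * (20 * W ^ 122 * (2 * W ^ 2)) = 40 / (W ^ 2 * W ^ 2) := by
        field_simp; norm_num
      rw [e, div_le_div_iff₀ (by positivity) (by positivity)]
      nlinarith)
    (by positivity) (by rw [hN, ← pow_mul]) hN4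
    (by
      have e : 1 / W ^ 128 * W ^ 278 = W ^ 150 := by field_simp
      rw [e]
      exact le_trans (by linarith) (le_self_pow₀ (by linarith) (by norm_num)))
    (Nat.two_pow_pos _)
    (by
      have e : 1 / W ^ 128 * (W ^ 278) ^ 4 = W ^ 2 * W ^ 982 := by field_simp
      rw [e, hT]
      exact mul_le_mul_of_nonneg_right (by linarith) (by positivity))
    (by
      have e : 4 / W ^ 578 * W ^ 278 * (1 / W ^ 128 * W ^ 278) ^ 2 = 4 := by field_simp
      rw [e]; norm_num) f hf0 hf1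
  refine hmix.trans ?_
  rw [hT]
  have e : 4 / W ^ 578 * W ^ 278 * (4 * (W ^ 278) ^ 2 / (1 / W ^ 128 * W ^ 982) +
      600 / (1 / W ^ 128 * W ^ 278) ^ 2) = (16 + 2400 / W ^ 2) / W ^ 598 := by
    field_simp; ring
  rw [e]
  refine div_le_div_of_nonneg_right ?_ (by positivity)
  have : 2400 / W ^ 2 ≤ 12 := by rw [div_le_iff₀ (by positivity)]; linarith
  linarith

theorem ch_kk_le (l : ℕ) (H : List (Mat n)) (hH : ∀ i u v, H.getD i 0 u v ≤ n + 1) (s : ℕ)
    (u v : Fin n) : kk l H s u v ≤ s * (n + 1) := by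
  have := Finset.sum_le_card_nsmul (range s) (fun r => H.getD (r / pU l) 0 u v) (n + 1)
    fun r _ => hH _ u v
  rwa [card_range, smul_eq_mul] at this

theorem ch_marginal {Ω : Type} [Fintype Ω] {N : ℕ} (i0 : Fin N) (π : Ω → ℝ) (hπ : ∑ x, π x = 1)
    (f : Ω → ℝ) : ∑ x : Fin N → Ω, (∏ i, π (x i)) * f (x i0) = ∑ y, π y * f y := by
  classical
  have h := Finset.prod_univ_sum (fun _ : Fin N => (univ : Finset Ω))
    fun i y => π y * (if i = i0 then f y else 1)
  rw [Fintype.piFinset_univ] at h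
  simp only [Finset.prod_mul_distrib, Finset.prod_ite_eq', mem_univ, if_true] at h
  rw [← h, Finset.prod_eq_single i0]
  · simp
  · intro i _ hi
    simp [hi, hπ]
  · simp

theorem sample_tv (l : ℕ) (hl : 4 ≤ l) (hnl : n ≤ 2 ^ l) (hn : Even n) (hn0 : 0 < n)
    (H : List (Mat n)) (j : ℕ) (hj : j ≤ pJ l) (hH : HOK l H j)
    (f : PM (Fin n) → ℝ) (hf0 : ∀ x, 0 ≤ f x) (hf1 : ∀ x, f x ≤ 1) :
    |(sampleR l hn H j).E f - mean l (kk l H (j * pU l)) f| ≤ 1 / (2 * ((2 : ℝ) ^ l) ^ 10) := by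
  obtain ⟨hs, hb, hm⟩ := hH
  have hjU : j * pU l ≤ 2 ^ (584 * l) := by
    calc j * pU l ≤ pJ l * pU l := Nat.mul_le_mul_right _ hj
      _ = 2 ^ (584 * l) := by unfold pJ pU; rw [← pow_add]; congr 1; ring
  have main : ∀ s, s ≤ j * pU l → ∀ g : Pop n l → ℝ, (∀ x, 0 ≤ g x) → (∀ x, g x ≤ 1) →
      |((popR l hn).E fun x =>
          (iterIdx (fun s y => iter (stepR l (kk l H (s + 1))) (pT l) y) s x).E g) -
        ∑ x : Pop n l, (∏ i, prb l (kk l H s) (x i)) * g x| ≤
        1 / ((2 : ℝ) ^ l) ^ 12 + s * (28 / ((2 : ℝ) ^ l) ^ 598) := by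
    intro s
    induction s with
    | zero =>
      intro _ g h0 h1
      have h2 := popR_tv l hl hnl hn g h0 h1
      have h3 : ∀ X, prb l (kk l H 0) X = 1 / (Fintype.card (PM (Fin n)) : ℝ) := fun X => by
        simp [prb, Zf, wt_aw, en, kk]
      simpa only [iterIdx, Rand.E_ret, h3, Nat.cast_zero, zero_mul, add_zero] using h2
    | succ s ih =>
      intro hsj g h0 h1
      have h2 := ih (by omega) (fun y => (iter (stepR l (kk l H (s + 1))) (pT l) y).E g)
        (fun y => Rand.E_nonneg _ h0) (fun y => Rand.E_le_const _ h1)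
      have h3 := stage_tv l hl hnl hn hn0 (kk l H s) (kk l H (s + 1))
        (fun u v => by
          rw [kk_succ]
          have := hb (s / pU l) u v
          omega)
        (fun X => by
          have h4 : en (kk l H (s + 1)) X ≤ n * ((s + 1) * (n + 1)) := by
            have := Finset.sum_le_card_nsmul univ (fun v => kk l H (s + 1) v (X.1 v)) _
              fun v _ => ch_kk_le l H hb (s + 1) v (X.1 v)
            rwa [card_univ, Fintype.card_fin, smul_eq_mul] at this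
          have h5 : 16 ≤ 2 ^ l := le_trans (by norm_num) (Nat.pow_le_pow_right (by norm_num) hl)
          have h6 : pD l = 2 ^ l * (2 ^ l * (2 ^ (584 * l) * 2 ^ l)) := by
            unfold pD; rw [← pow_add, ← pow_add, ← pow_add]; congr 1; ring
          rw [h6]
          calc 2 * en (kk l H (s + 1)) X ≤ 2 * (n * ((s + 1) * (n + 1))) := by omega
            _ ≤ 2 * (2 ^ l * (2 ^ (584 * l) * (2 * 2 ^ l))) := by gcongr <;> omega
            _ = 4 * (2 ^ l * (2 ^ (584 * l) * 2 ^ l)) := by ring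
            _ ≤ _ := Nat.mul_le_mul_right _ (by omega))
        (fun u v => Finset.sum_congr rfl fun r _ => hs _ u v) (hm _ hsj) g h0 h1
      simp only [iterIdx, Rand.E_bind]
      push_cast
      rw [abs_le] at h2 h3 ⊢
      constructor <;> linarith [h2.1, h2.2, h3.1, h3.2]
  have h1 := main _ le_rfl (fun y => f (y ⟨0, Nat.two_pow_pos _⟩)) (fun _ => hf0 _) fun _ => hf1 _
  rw [ch_marginal _ _ (ch_prb_sum l hl hn _)] at h1
  have e1 : mean l (kk l H (j * pU l)) f = ∑ y, prb l (kk l H (j * pU l)) y * f y := by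
    unfold mean prb
    rw [Finset.sum_div]
    exact Finset.sum_congr rfl fun y _ => by ring
  simp only [sampleR, Rand.E_bind, Rand.E_ret]
  rw [e1]
  refine h1.trans ?_
  have h2 : ((j * pU l : ℕ) : ℝ) ≤ ((2 : ℝ) ^ l) ^ 584 := by
    rw [← ch_pow]; exact_mod_cast hjU
  have hW := ch_W hl
  generalize (2 : ℝ) ^ l = W at hW h2
  have hW0 : 0 < W := by linarith
  have hW2 : 256 ≤ W ^ 2 := by nlinarith
  calc 1 / W ^ 12 + ((j * pU l : ℕ) : ℝ) * (28 / W ^ 598) ≤ 1 / W ^ 12 + W ^ 584 * (28 / W ^ 598) := by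
        gcongr
    _ = (W ^ 2 + 28) / (W ^ 2 * W ^ 2 * W ^ 10) := by field_simp
    _ ≤ 1 / (2 * W ^ 10) := by
        rw [div_le_div_iff₀ (by positivity) (by positivity)]
        have : (W ^ 2 + 28) * 2 ≤ W ^ 2 * W ^ 2 := by nlinarith
        have h3 := mul_le_mul_of_nonneg_right this (by positivity : 0 ≤ W ^ 10)
        linarith

end Vale.Agent.P308
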