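import Vale.Agent.P308.Init
import Vale.Agent.P308.Levels

/-! The learning rule keeps marginals large and increases a bounded potential. -/

namespace Vale.Agent.P308

open Finset Equiv Vale.Agent.P317

variable {n : ℕ}

/-- Normalised partition function after `j` rounds. -/
noncomputable def Zt (l : ℕ) (H : List (Mat n)) (j : ℕ) : ℝ :=
  Zf (aw l (kk l H (j * pU l))) / qq l ^ (pU l * (n * (n * j)))

/-- Step size on the logarithmic scale. -/
noncomputable def sQ (l : ℕ) : ℝ := -(pU l * Real.log (qq l))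

/-- The potential after `j` rounds. -/
noncomputable def Pot (l : ℕ) (H : List (Mat n)) (j : ℕ) : ℝ :=
  1 / ((2 : ℝ) ^ l) ^ 3 * ∑ u, ∑ v, (if u = v then 0 else sQ l * ((n * j : ℝ) - KK H j u v))
    - Real.log (Zt l H j)

theorem W_ge {l : ℕ} (hl : 4 ≤ l) : (16 : ℝ) ≤ 2 ^ l :=
  le_trans (by norm_num) (pow_le_pow_right₀ (by norm_num : (1 : ℝ) ≤ 2) hl)

theorem sQ_bounds (l : ℕ) (hl : 4 ≤ l) :
    1 / ((2 : ℝ) ^ l) ^ 3 ≤ sQ l ∧ sQ l ≤ 2 / ((2 : ℝ) ^ l) ^ 3 := by
  have hq := qq_pos hl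
  have hW := W_ge hl
  set W : ℝ := 2 ^ l with hWd
  have hU : (pU l : ℝ) = W ^ 577 := by
    rw [pU, mul_comm, pow_mul, hWd]
    push_cast
    rfl
  have hx : qq l = 1 - 1 / W ^ 580 := by rw [qq, pM, mul_comm, pow_mul]
  have hx2 : 1 / W ^ 580 ≤ 1 / 2 := by
    refine one_div_le_one_div_of_le (by norm_num) ?_
    exact le_trans (by linarith) (le_self_pow₀ (by linarith : 1 ≤ W) (by norm_num))
  have hUx : W ^ 577 * (1 / W ^ 580) = 1 / W ^ 3 := by
    rw [show 580 = 577 + 3 from rfl, pow_add]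
    field_simp
  have hU0 : 0 ≤ W ^ 577 := by positivity
  have hx0 : 0 ≤ 1 / W ^ 580 := by positivity
  generalize 1 / W ^ 580 = x at hx hx2 hUx hx0
  have h1 := Real.log_le_sub_one_of_pos hq
  have h2 := Real.one_sub_inv_le_log_of_pos hq
  have h3 : (qq l)⁻¹ ≤ 1 + 2 * x := by
    rw [inv_le_iff_one_le_mul₀ hq, hx]
    nlinarith
  rw [sQ, hU, show 2 / W ^ 3 = 2 * (1 / W ^ 3) by ring, ← hUx]
  constructor
  · have h4 : Real.log (qq l) ≤ -x := by linarith
    nlinarith [mul_le_mul_of_nonneg_left h4 hU0]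
  · have h4 : -(2 * x) ≤ Real.log (qq l) := by linarith
    nlinarith [mul_le_mul_of_nonneg_left h4 hU0]

theorem sQ_small (l : ℕ) (hl : 4 ≤ l) (hnl : n ≤ 2 ^ l) :
    0 < sQ l ∧ sQ l * n ≤ 1 / 8 ∧ sQ l * n ^ 2 ≤ 1 / 8 := by
  obtain ⟨h1, h2⟩ := sQ_bounds l hl
  have hW := W_ge hl
  have hn : (n : ℝ) ≤ 2 ^ l := by exact_mod_cast hnl
  generalize (2 : ℝ) ^ l = W at h1 h2 hW hn
  have hn0 : (0 : ℝ) ≤ n := Nat.cast_nonneg n
  have h0 : 0 < sQ l := lt_of_lt_of_le (by positivity) h1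
  have h3 : sQ l * W ^ 2 ≤ 1 / 8 := by
    rw [le_div_iff₀ (by positivity)] at h2
    have : sQ l * W ^ 2 * 16 ≤ sQ l * W ^ 2 * W :=
      mul_le_mul_of_nonneg_left hW (by positivity)
    nlinarith
  refine ⟨h0, le_trans (mul_le_mul_of_nonneg_left ?_ h0.le) h3,
    le_trans (mul_le_mul_of_nonneg_left (pow_le_pow_left₀ hn0 hn 2) h0.le) h3⟩
  nlinarith

theorem cube_small (l : ℕ) (hl : 4 ≤ l) (hnl : n ≤ 2 ^ l) :
    (n : ℝ) ^ 2 * (1 / ((2 : ℝ) ^ l) ^ 3) ≤ 1 / 16 := by
  have hW := W_ge hl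
  have hn : (n : ℝ) ≤ 2 ^ l := by exact_mod_cast hnl
  generalize (2 : ℝ) ^ l = W at hW hn
  have h1 := pow_le_pow_left₀ (Nat.cast_nonneg n) hn 2
  rw [mul_one_div, div_le_div_iff₀ (by positivity) (by norm_num)]
  nlinarith [mul_le_mul_of_nonneg_left hW (by positivity : 0 ≤ W ^ 2)]

theorem qq_pow (l : ℕ) (hl : 4 ≤ l) (e : ℕ) : qq l ^ e = Real.exp (e * Real.log (qq l)) := by
  rw [Real.exp_nat_mul, Real.exp_log (qq_pos hl)]

theorem qq_pow_U (l : ℕ) (hl : 4 ≤ l) (e : ℕ) : qq l ^ (pU l * e) = Real.exp (-(sQ l * e)) := by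
  rw [qq_pow l hl, sQ]
  push_cast
  ring_nf

theorem en_kk (l : ℕ) (H : List (Mat n)) (j : ℕ) (X : PM (Fin n)) :
    en (kk l H (j * pU l)) X = pU l * ∑ v, KK H j v (X.1 v) := by
  simp only [en, kk_mul, Finset.mul_sum]

theorem wt_kk (l : ℕ) (hl : 4 ≤ l) (H : List (Mat n)) (j : ℕ) (X : PM (Fin n)) :
    wt (aw l (kk l H (j * pU l))) X = qq l ^ (pU l * (n * (n * j))) *
      Real.exp (∑ v, sQ l * ((n * j : ℝ) - KK H j v (X.1 v))) := by
  rw [wt_aw, en_kk, qq_pow_U l hl, qq_pow_U l hl, ← Real.exp_add, ← Finset.mul_sum,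
    Finset.sum_sub_distrib, Finset.sum_const, Finset.card_univ, Fintype.card_fin, nsmul_eq_mul]
  push_cast
  ring_nf

theorem Zt_eq (l : ℕ) (hl : 4 ≤ l) (H : List (Mat n)) (j : ℕ) :
    Zt l H j = ∑ X : PM (Fin n), Real.exp (∑ v, sQ l * ((n * j : ℝ) - KK H j v (X.1 v))) := by
  simp only [Zt, Zf, wt_kk l hl, ← Finset.mul_sum]
  rw [mul_div_cancel_left₀ _ (pow_pos (qq_pos hl) _).ne']

theorem sum_pair (w : PM (Fin n) → ℝ) (g : Fin n → Fin n → ℝ) :
    ∑ X, w X * ∑ v, g v (X.1 v) =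
      ∑ u, ∑ v, if u = v then 0 else g u v * ∑ X, if X.1 u = v then w X else 0 := by
  simp only [Finset.mul_sum]
  rw [Finset.sum_comm]
  refine Finset.sum_congr rfl fun u _ => ?_
  have e : ∀ v, (if u = v then 0 else ∑ X : PM (Fin n), g u v * if X.1 u = v then w X else 0) =
      ∑ X : PM (Fin n), if X.1 u = v then w X * g u v else 0 := by
    intro v
    split_ifs with h
    · exact (Finset.sum_eq_zero fun X _ => if_neg (h ▸ X.ne u)).symm
    · refine Finset.sum_congr rfl fun X _ => ?_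
      split_ifs <;> ring
  simp only [e]
  rw [Finset.sum_comm]
  simp

theorem Zt_pos (l : ℕ) (hl : 4 ≤ l) (hn : Even n) (H : List (Mat n)) (j : ℕ) : 0 < Zt l H j :=
  div_pos (Zf_pos hl hn _) (pow_pos (qq_pos hl) _)

theorem Zt_zero (l : ℕ) (hn : Even n) (H : List (Mat n)) : Zt l H 0 = dfact (n / 2) := by
  simp [Zt, Zf, wt_aw, en, kk, card_PM hn]

theorem HOK_zero (l : ℕ) (hl : 4 ≤ l) (hnl : n ≤ 2 ^ l) (hn : Even n) :
    HOK l [fun _ _ : Fin n => n] 1 := by
  refine ⟨fun i u v => by cases i <;> rfl, fun i u v => ?_, fun s hs u v huv => ?_⟩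
  · cases i with
    | zero => exact Nat.le_succ n
    | succ i => exact Nat.zero_le _
  · have hk : ∀ u v, kk l [fun _ _ : Fin n => n] s u v = s * n := fun u v => by
      simpa [KK] using kk_add l [fun _ _ : Fin n => n] 0 s (by omega) u v
    have hw : ∀ X, wt (aw l (kk l [fun _ _ : Fin n => n] s)) X = qq l ^ (n * (s * n)) := fun X => by
      simp [wt_aw, en, hk]
    have _ := hn
    have hW := W_ge hl
    have hn' : (n : ℝ) ≤ 2 ^ l := by exact_mod_cast hnl
    have h1 : ((n - 1 : ℕ) : ℝ) ≤ 8 * ((2 : ℝ) ^ l) ^ 3 := by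
      have h2 : ((n - 1 : ℕ) : ℝ) ≤ n := by exact_mod_cast Nat.sub_le n 1
      have h3 := le_self_pow₀ (by linarith : (1 : ℝ) ≤ 2 ^ l) (by norm_num : 3 ≠ 0)
      linarith
    simp only [Zf, Zm, hw]
    rw [← Finset.sum_filter, Finset.sum_const, Finset.sum_const, Finset.card_univ, ← card_pair huv,
      nsmul_eq_mul, nsmul_eq_mul, ← mul_assoc, Nat.cast_mul, ← mul_assoc]
    refine mul_le_mul_of_nonneg_right (mul_le_of_le_one_left (Nat.cast_nonneg _) ?_)
      (pow_pos (qq_pos hl) _).le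
    rw [one_div_mul_eq_div, div_le_one (by positivity)]
    exact h1

theorem Pot_one (l : ℕ) (hl : 4 ≤ l) (hnl : n ≤ 2 ^ l) (hn : Even n) :
    -((2 : ℝ) ^ l) ^ 2 ≤ Pot l [fun _ _ : Fin n => n] 1 := by
  have hk : ∀ u v, KK [fun _ _ : Fin n => n] 1 u v = n := fun u v => by simp [KK]
  have hn' : (n : ℝ) ≤ 2 ^ l := by exact_mod_cast hnl
  have hn0 : (0 : ℝ) ≤ n := Nat.cast_nonneg n
  have h1 : Real.log (Fintype.card (PM (Fin n))) ≤ ((2 : ℝ) ^ l) ^ 2 := by
    have h2 : (Fintype.card (PM (Fin n)) : ℝ) ≤ (n : ℝ) ^ n := by exact_mod_cast card_PM_le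
    refine (Real.log_le_log (by exact_mod_cast Fintype.card_pos_iff.2 ⟨x0 hn⟩) h2).trans ?_
    rw [Real.log_pow]
    nlinarith [mul_le_mul_of_nonneg_left (Real.log_le_self hn0) hn0]
  rw [Pot, Zt_eq l hl]
  simpa [hk] using h1

/-- Marginals along one round. -/
theorem marg_step (l : ℕ) (hl : 4 ≤ l) (hnl : n ≤ 2 ^ l) (hn : Even n) (k M : Mat n)
    (hM : ∀ u v, M u v ≤ n + 1) (hMs : ∀ u v, M u v = M v u)
    (hlow : ∀ u v, u ≠ v →
      (M u v = 0 ∧ Zm (aw l k) u v ≤ 3 / (4 * ((2 : ℝ) ^ l) ^ 3) * Zf (aw l k)) ∨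
      (n ≤ M u v ∧ 1 / (4 * ((2 : ℝ) ^ l) ^ 3) * Zf (aw l k) ≤ Zm (aw l k) u v))
    (hm : Marg l k (1 / (8 * ((2 : ℝ) ^ l) ^ 3))) (t : ℕ) (ht : t ≤ pU l) :
    Marg l (fun u v => k u v + t * M u v) (1 / (8 * ((2 : ℝ) ^ l) ^ 3)) := by
  classical
  intro u0 v0 h0
  obtain ⟨-, hs1, hs2⟩ := sQ_small l hl hnl
  have hc := cube_small l hl hnl
  have hZ := Zf_pos hl hn k
  have hn0 : (0 : ℝ) ≤ n := Nat.cast_nonneg n
  set δ : ℝ := 1 / ((2 : ℝ) ^ l) ^ 3 with hδ
  have hδ0 : 0 < δ := by positivity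
  have d1 : 3 / (4 * ((2 : ℝ) ^ l) ^ 3) = 3 / 4 * δ := by rw [hδ]; field_simp
  have d2 : 1 / (4 * ((2 : ℝ) ^ l) ^ 3) = 1 / 4 * δ := by rw [hδ]; field_simp
  have d3 : 1 / (8 * ((2 : ℝ) ^ l) ^ 3) = 1 / 8 * δ := by rw [hδ]; field_simp
  have hm0 := hm u0 v0 h0
  rw [d3] at hm0 ⊢
  simp only [d1, d2] at hlow
  have hlog : Real.log (qq l) ≤ 0 := Real.log_nonpos (qq_pos hl).le (qq_le_one l)
  set τ : ℝ := -(t * Real.log (qq l)) with hτ
  have hτ0 : 0 ≤ τ := by nlinarith [(Nat.cast_nonneg t : (0 : ℝ) ≤ t)]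
  have hτs : τ ≤ sQ l := by
    have : (t : ℝ) ≤ pU l := by exact_mod_cast ht
    rw [sQ]
    nlinarith
  have hτ1 : τ * n ≤ 1 / 8 := (mul_le_mul_of_nonneg_right hτs hn0).trans hs1
  have hτ2 : τ * n ^ 2 ≤ 1 / 8 := (mul_le_mul_of_nonneg_right hτs (by positivity)).trans hs2
  let w : PM (Fin n) → ℝ := wt (aw l k)
  have hw0 : ∀ X, 0 ≤ w X := fun X => by
    simp only [w, wt_aw]
    exact (pow_pos (qq_pos hl) _).le
  let y : PM (Fin n) → ℝ := fun X => ∑ v, ((n : ℝ) - M v (X.1 v))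
  have hw : ∀ X, wt (aw l fun u v => k u v + t * M u v) X =
      Real.exp (-(τ * n ^ 2)) * (w X * Real.exp (τ * y X)) := by
    intro X
    simp only [w, y, wt_aw, en, Finset.sum_add_distrib, ← Finset.mul_sum, pow_add,
      Finset.sum_sub_distrib, Finset.sum_const, Finset.card_univ, Fintype.card_fin, nsmul_eq_mul]
    rw [mul_left_comm, ← Real.exp_add, qq_pow l hl (t * _), hτ]
    push_cast
    ring_nf
  let low : Fin n → Fin n → ℝ := fun u v =>
    if Zm (aw l k) u v ≤ 3 / 4 * δ * Zf (aw l k) then 1 else 0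
  have hA : ∑ X, w X * Real.exp (τ * y X) ≤ Real.exp (τ * n) * Zf (aw l k) := by
    have a1 : ∀ X : PM (Fin n), Real.exp (τ * y X) ≤ 1 + 2 * (τ * n) * ∑ v, low v (X.1 v) := by
      intro X
      have b1 : y X ≤ n * ∑ v, low v (X.1 v) := by
        rw [Finset.mul_sum]
        refine Finset.sum_le_sum fun v _ => ?_
        have b2 : (0 : ℝ) ≤ M v (X.1 v) := Nat.cast_nonneg _
        simp only [low]
        split_ifs with h
        · linarith
        · have b3 : (n : ℝ) ≤ M v (X.1 v) := by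
            exact_mod_cast ((hlow v _ (X.ne v).symm).resolve_left fun h' => h h'.2).1
          linarith
      have b2 : 0 ≤ ∑ v, low v (X.1 v) := Finset.sum_nonneg fun v _ => by
        simp only [low]
        split_ifs <;> norm_num
      have b3 : ∑ v, low v (X.1 v) ≤ n := by
        refine (Finset.sum_le_card_nsmul _ _ 1 fun v _ => ?_).trans (by simp)
        simp only [low]
        split_ifs <;> norm_num
      have b4 : 0 ≤ τ * (n * ∑ v, low v (X.1 v)) := by positivity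
      have b5 : τ * (n * ∑ v, low v (X.1 v)) ≤ 1 := by
        nlinarith [mul_le_mul_of_nonneg_left b3 (mul_nonneg hτ0 hn0)]
      have b6 := Real.abs_exp_sub_one_le (x := τ * (n * ∑ v, low v (X.1 v)))
        (by rwa [abs_of_nonneg b4])
      rw [abs_of_nonneg b4] at b6
      have b7 := Real.exp_le_exp.2 (mul_le_mul_of_nonneg_left b1 hτ0)
      linarith [(abs_le.1 b6).2]
    have a2 : ∑ X, w X * ∑ v, low v (X.1 v) ≤ n ^ 2 * (3 / 4 * δ * Zf (aw l k)) := by
      rw [sum_pair w low]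
      refine (Finset.sum_le_card_nsmul _ _ (n * (3 / 4 * δ * Zf (aw l k))) fun u _ =>
        (Finset.sum_le_card_nsmul _ _ (3 / 4 * δ * Zf (aw l k)) fun v _ => ?_).trans
          (by simp)).trans (le_of_eq (by simp [sq, mul_assoc]))
      simp only [low]
      split_ifs with h1 h2
      · positivity
      · rw [one_mul]
        exact h2
      · rw [zero_mul]
        positivity
    have a3 : ∑ X, w X * Real.exp (τ * y X) ≤
        Zf (aw l k) + 2 * (τ * n) * ∑ X, w X * ∑ v, low v (X.1 v) := by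
      rw [Zf, Finset.mul_sum, ← Finset.sum_add_distrib]
      refine Finset.sum_le_sum fun X _ => (mul_le_mul_of_nonneg_left (a1 X) (hw0 X)).trans ?_
      simp only [w]
      linarith
    have a4 := mul_le_mul_of_nonneg_right (Real.add_one_le_exp (τ * n)) hZ.le
    have a5 := mul_le_mul_of_nonneg_left a2 (by positivity : 0 ≤ 2 * (τ * n))
    have a6 := mul_le_mul_of_nonneg_left hc (by positivity : 0 ≤ τ * n * Zf (aw l k))
    nlinarith [mul_nonneg (mul_nonneg hτ0 hn0) hZ.le]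
  have hB : ∀ b : ℝ, (∀ X : PM (Fin n), X.1 u0 = v0 → b ≤ y X) →
      Real.exp (τ * b) * Zm (aw l k) u0 v0 ≤
        ∑ X : PM (Fin n), if X.1 u0 = v0 then w X * Real.exp (τ * y X) else 0 := by
    intro b hb
    rw [Zm, Finset.mul_sum]
    refine Finset.sum_le_sum fun X _ => ?_
    split_ifs with h
    · rw [mul_comm]
      exact mul_le_mul_of_nonneg_left
        (Real.exp_le_exp.2 (mul_le_mul_of_nonneg_left (hb X h) hτ0)) (hw0 X)
    · rw [mul_zero]
  have hM' : ∀ u v, (M u v : ℝ) ≤ n + 1 := fun u v => by exact_mod_cast hM u v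
  have key : 1 / 8 * δ * (Real.exp (τ * n) * Zf (aw l k)) ≤
      ∑ X : PM (Fin n), if X.1 u0 = v0 then w X * Real.exp (τ * y X) else 0 := by
    rcases hlow u0 v0 h0 with h | h
    · refine le_trans ?_ (hB n fun X hX => ?_)
      · nlinarith [mul_le_mul_of_nonneg_left hm0 (Real.exp_pos (τ * n)).le]
      · have b1 : ∑ v : Fin n, (-1 + (if v = u0 then (n : ℝ) + 1 else 0) +
            (if v = v0 then (n : ℝ) + 1 else 0)) ≤ y X := by
          refine Finset.sum_le_sum fun v _ => ?_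
          by_cases h1 : v = u0
          · rw [h1, if_pos rfl, if_neg h0, hX, h.1]
            simp
          by_cases h2 : v = v0
          · rw [if_neg h1, h2, if_pos rfl, X.eq_iff.1 hX, hMs, h.1]
            simp
          · rw [if_neg h1, if_neg h2]
            linarith [hM' v (X.1 v)]
        simp only [Finset.sum_add_distrib, Finset.sum_ite_eq', Finset.mem_univ, if_true,
          Finset.sum_const, Finset.card_univ, Fintype.card_fin, nsmul_eq_mul] at b1
        linarith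
    · refine le_trans ?_ (hB (-n) fun X _ => ?_)
      · have b1 := Real.abs_exp_sub_one_le (x := 2 * (τ * n))
          (by rw [abs_of_nonneg (by positivity)]; linarith)
        rw [abs_of_nonneg (show 0 ≤ 2 * (τ * n) by positivity)] at b1
        have b2 : Real.exp (τ * n) ≤ 2 * Real.exp (τ * -n) := by
          have b3 : Real.exp (τ * n) = Real.exp (2 * (τ * n)) * Real.exp (τ * -n) := by
            rw [← Real.exp_add]
            ring_nf
          rw [b3]
          exact mul_le_mul_of_nonneg_right (by linarith [(abs_le.1 b1).2]) (Real.exp_pos _).le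
        nlinarith [mul_le_mul_of_nonneg_left h.2 (Real.exp_pos (τ * -n)).le,
          mul_le_mul_of_nonneg_right b2 (by positivity : 0 ≤ δ * Zf (aw l k))]
      · refine le_trans (le_of_eq ?_) (Finset.card_nsmul_le_sum _ _ (-1) fun v _ => ?_)
        · simp
        · linarith [hM' v (X.1 v)]
  have e1 : Zm (aw l fun u v => k u v + t * M u v) u0 v0 = Real.exp (-(τ * n ^ 2)) *
      ∑ X : PM (Fin n), if X.1 u0 = v0 then w X * Real.exp (τ * y X) else 0 := by
    simp only [Zm, hw, Finset.mul_sum, mul_ite, mul_zero]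
  have e2 : Zf (aw l fun u v => k u v + t * M u v) = Real.exp (-(τ * n ^ 2)) *
      ∑ X : PM (Fin n), w X * Real.exp (τ * y X) := by
    simp only [Zf, hw, Finset.mul_sum]
  rw [e1, e2, mul_left_comm]
  exact mul_le_mul_of_nonneg_left
    ((mul_le_mul_of_nonneg_left hA (by positivity)).trans key) (Real.exp_pos _).le

open Classical in
/-- Gain of the potential in a round without success. -/
theorem pot_step (l : ℕ) (hl : 4 ≤ l) (hnl : n ≤ 2 ^ l) (hn : Even n) (H : List (Mat n)) (j : ℕ)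
    (act : Fin n → Fin n → Prop)
    (hcl : ∀ u v, u ≠ v →
      (H.getD j 0 u v = 0 ∧ Zm (aw l (kk l H (j * pU l))) u v
        ≤ 3 / (4 * ((2 : ℝ) ^ l) ^ 3) * Zf (aw l (kk l H (j * pU l)))) ∨
      (H.getD j 0 u v = n + 1 ∧ 2 / ((2 : ℝ) ^ l) ^ 3 * Zf (aw l (kk l H (j * pU l)))
        ≤ Zm (aw l (kk l H (j * pU l))) u v) ∨
      (H.getD j 0 u v = n ∧ (act u v → Zm (aw l (kk l H (j * pU l))) u v
        ≤ 3 / ((2 : ℝ) ^ l) ^ 3 * Zf (aw l (kk l H (j * pU l))))))
    (hbad : mean l (kk l H (j * pU l)) (fun X => if ∀ v, ¬ act v (X.1 v) then 1 else 0) ≤ 1 / 2) :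
    Pot l H j + 1 / (16 * ((2 : ℝ) ^ l) ^ 3) ≤ Pot l H (j + 1) := by
  obtain ⟨hs0, -, hs2⟩ := sQ_small l hl hnl
  have hs1 := (sQ_bounds l hl).1
  have hc := cube_small l hl hnl
  have hn0 : (0 : ℝ) ≤ n := Nat.cast_nonneg n
  set k := kk l H (j * pU l) with hk
  have hZ := Zf_pos hl hn k
  set δ : ℝ := 1 / ((2 : ℝ) ^ l) ^ 3 with hδ
  have hδ0 : 0 < δ := by positivity
  have d1 : 3 / (4 * ((2 : ℝ) ^ l) ^ 3) = 3 / 4 * δ := by rw [hδ]; field_simp
  have d2 : 2 / ((2 : ℝ) ^ l) ^ 3 = 2 * δ := by rw [hδ]; field_simp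
  have d3 : 3 / ((2 : ℝ) ^ l) ^ 3 = 3 * δ := by rw [hδ]; field_simp
  have d4 : 1 / (16 * ((2 : ℝ) ^ l) ^ 3) = 1 / 16 * δ := by rw [hδ]; field_simp
  simp only [d1, d2, d3] at hcl
  rw [d4]
  let g : Fin n → Fin n → ℝ := fun u v => (n : ℝ) - H.getD j 0 u v
  let π : PM (Fin n) → ℝ := fun X => wt (aw l k) X / Zf (aw l k)
  have hπ0 : ∀ X, 0 ≤ π X := fun X => by
    simp only [π, wt_aw]
    exact div_nonneg (pow_pos (qq_pos hl) _).le hZ.le
  have hπ1 : ∑ X, π X = 1 := by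
    simp only [π]
    rw [← Finset.sum_div]
    exact div_self hZ.ne'
  let p : Fin n → Fin n → ℝ := fun u v => ∑ X : PM (Fin n), if X.1 u = v then π X else 0
  have hp : ∀ u v, p u v = Zm (aw l k) u v / Zf (aw l k) := fun u v => by
    simp only [p, π, Zm, Finset.sum_div, ite_div, zero_div]
  have hg : ∀ u v, u ≠ v → |g u v| ≤ n := by
    intro u v huv
    have hn1 : (1 : ℝ) ≤ n := by exact_mod_cast u.pos
    simp only [g]
    rcases hcl u v huv with h | h | h <;> rw [h.1] <;> simp [hn1]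
  have hZt : Zt l H (j + 1) = Zt l H j * ∑ X, π X * Real.exp (sQ l * ∑ v, g v (X.1 v)) := by
    rw [Zt_eq l hl, Finset.mul_sum]
    refine Finset.sum_congr rfl fun X _ => ?_
    simp only [π, g]
    rw [Zt, ← hk, ← mul_assoc, div_mul_div_comm, mul_comm (Zf _), mul_div_mul_right _ _ hZ.ne', hk,
      wt_kk l hl, mul_div_cancel_left₀ _ (pow_pos (qq_pos hl) _).ne', ← Real.exp_add,
      Finset.mul_sum, ← Finset.sum_add_distrib]
    refine congrArg Real.exp (Finset.sum_congr rfl fun v _ => ?_)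
    rw [KK_succ]
    push_cast
    ring
  have hE0 : 0 < ∑ X, π X * Real.exp (sQ l * ∑ v, g v (X.1 v)) :=
    (mul_pos_iff_of_pos_left (Zt_pos l hl hn H j)).1 (hZt ▸ Zt_pos l hl hn H (j + 1))
  have hE : ∑ X, π X * Real.exp (sQ l * ∑ v, g v (X.1 v)) ≤
      1 + ∑ X, π X * ∑ v, (sQ l * g v (X.1 v) + sQ l / 8 * |g v (X.1 v)|) := by
    rw [← hπ1, ← Finset.sum_add_distrib]
    refine Finset.sum_le_sum fun X _ => ?_
    rw [← mul_one_add]
    refine mul_le_mul_of_nonneg_left ?_ (hπ0 X)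
    rw [Finset.sum_add_distrib, ← Finset.mul_sum, ← Finset.mul_sum]
    have a1 : |∑ v, g v (X.1 v)| ≤ ∑ v, |g v (X.1 v)| := Finset.abs_sum_le_sum_abs _ _
    have a2 : ∑ v, |g v (X.1 v)| ≤ n ^ 2 :=
      (Finset.sum_le_card_nsmul _ _ (n : ℝ) fun v _ => hg v _ (X.ne v).symm).trans (by simp [sq])
    have a3 : |sQ l * ∑ v, g v (X.1 v)| ≤ 1 / 8 := by
      rw [abs_mul, abs_of_pos hs0]
      exact (mul_le_mul_of_nonneg_left (a1.trans a2) hs0.le).trans hs2
    have a4 := (abs_le.1 (Real.abs_exp_sub_one_sub_id_le (a3.trans (by norm_num)))).2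
    have a5 : |sQ l * ∑ v, g v (X.1 v)| ≤ sQ l * ∑ v, |g v (X.1 v)| := by
      rw [abs_mul, abs_of_pos hs0]
      exact mul_le_mul_of_nonneg_left a1 hs0.le
    have a6 := mul_le_mul a3 a5 (abs_nonneg _) (by norm_num)
    rw [abs_mul_abs_self] at a6
    nlinarith
  rw [sum_pair π fun u v => sQ l * g u v + sQ l / 8 * |g u v|] at hE
  have hact : 1 / 2 ≤ ∑ u, ∑ v, if u = v then 0 else (if act u v then 1 else 0) * p u v := by
    rw [← sum_pair π fun u v => if act u v then 1 else 0]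
    have a1 : mean l k (fun X => if ∀ v, ¬ act v (X.1 v) then 1 else 0) =
        ∑ X, π X * if ∀ v, ¬ act v (X.1 v) then 1 else 0 := by
      simp only [mean, π, Finset.sum_div, div_mul_eq_mul_div]
    have a2 : ∑ X, π X ≤ (∑ X, π X * if ∀ v, ¬ act v (X.1 v) then 1 else 0) +
        ∑ X, π X * ∑ v, if act v (X.1 v) then 1 else 0 := by
      rw [← Finset.sum_add_distrib]
      refine Finset.sum_le_sum fun X _ => ?_
      rw [← mul_add]
      refine le_mul_of_one_le_right (hπ0 X) ?_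
      have a3 : ∀ v, (0 : ℝ) ≤ if act v (X.1 v) then 1 else 0 := fun v => by
        split_ifs <;> norm_num
      split_ifs with h
      · exact le_add_of_nonneg_right (Finset.sum_nonneg fun v _ => a3 v)
      · obtain ⟨v, hv⟩ := not_forall.1 h
        rw [zero_add]
        exact le_trans (le_of_eq (if_pos (not_not.1 hv)).symm)
          (Finset.single_le_sum (fun v _ => a3 v) (Finset.mem_univ v))
    linarith
  have hpair : ∀ u v, sQ l / 4 * (if u = v then 0 else (if act u v then 1 else 0) * p u v) +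
      (if u = v then 0 else (sQ l * g u v + sQ l / 8 * |g u v|) * p u v) ≤
      sQ l / 4 * (3 * δ) + δ * (if u = v then 0 else sQ l * g u v) := by
    intro u v
    have b0 : 0 ≤ sQ l * δ := by positivity
    by_cases huv : u = v
    · simp only [if_pos huv]
      linarith
    simp only [if_neg huv]
    have p0 : 0 ≤ p u v := Finset.sum_nonneg fun X _ => by
      split_ifs
      · exact hπ0 X
      · exact le_rfl
    have b1 : (if act u v then 1 else 0) * p u v ≤ p u v := by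
      split_ifs <;> linarith
    have b2 := mul_le_mul_of_nonneg_left b1 hs0.le
    rcases hcl u v huv with h | h | h
    · have b3 : p u v ≤ 3 / 4 * δ := by rw [hp, div_le_iff₀ hZ]; exact h.2
      have b4 : g u v = n := by simp only [g, h.1]; simp
      rw [b4, abs_of_nonneg hn0]
      nlinarith [mul_le_mul_of_nonneg_left b3 hs0.le,
        mul_le_mul_of_nonneg_left b3 (mul_nonneg hs0.le hn0), mul_nonneg b0 hn0]
    · have b3 : 2 * δ ≤ p u v := by rw [hp, le_div_iff₀ hZ]; exact h.2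
      have b4 : g u v = -1 := by simp only [g, h.1]; simp
      rw [b4, abs_neg, abs_one]
      nlinarith [mul_le_mul_of_nonneg_left b3 hs0.le]
    · have b3 : (if act u v then 1 else 0) * p u v ≤ 3 * δ := by
        split_ifs with ha
        · rw [one_mul, hp, div_le_iff₀ hZ]
          exact h.2 ha
        · linarith
      have b4 : g u v = 0 := by simp only [g, h.1]; simp
      rw [b4, abs_zero]
      nlinarith [mul_le_mul_of_nonneg_left b3 hs0.le]
  have hsum := Finset.sum_le_sum fun u (_ : u ∈ univ) =>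
    Finset.sum_le_sum fun v (_ : v ∈ univ) => hpair u v
  simp only [Finset.sum_add_distrib, ← Finset.mul_sum, Finset.sum_const, Finset.card_univ,
    Fintype.card_fin, nsmul_eq_mul] at hsum
  have hP : ∑ u, ∑ v, (if u = v then 0 else sQ l * ((n * (j + 1 : ℕ) : ℝ) - KK H (j + 1) u v)) =
      ∑ u, ∑ v, (if u = v then 0 else sQ l * ((n * j : ℝ) - KK H j u v)) +
        ∑ u, ∑ v, if u = v then 0 else sQ l * g u v := by
    simp only [← Finset.sum_add_distrib]
    refine Finset.sum_congr rfl fun u _ => Finset.sum_congr rfl fun v _ => ?_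
    split_ifs
    · simp
    · simp only [g, KK_succ]
      push_cast
      ring
  have hlog := Real.log_le_sub_one_of_pos hE0
  rw [Pot, Pot, hP, hZt, Real.log_mul (Zt_pos l hl hn H j).ne' hE0.ne', ← hδ]
  nlinarith [mul_le_mul_of_nonneg_left hact hs0.le, mul_le_mul_of_nonneg_left hc hs0.le]

theorem pot_le (l : ℕ) (hl : 4 ≤ l) (hnl : n ≤ 2 ^ l) (hn : Even n) (hn0 : 0 < n)
    (adj : Fin n → Fin n → Bool) (H : List (Mat n)) (j : ℕ)
    (hb : ∀ u v, adj u v = true → KK H j u v ≤ n * j) (h1 : 0 < nAdj adj) : Pot l H j ≤ 0 := by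
  have hs0 := (sQ_small l hl hnl).1
  have hc := cube_small l hl hnl
  let θ : Fin n → Fin n → ℝ := fun u v => sQ l * ((n * j : ℝ) - KK H j u v)
  have a1 : ∀ X : PM (Fin n), ∑ v, θ v (X.1 v) ≤ Real.log (Zt l H j) := by
    intro X
    rw [Real.le_log_iff_exp_le (Zt_pos l hl hn H j), Zt_eq l hl]
    exact Finset.single_le_sum (f := fun X : PM (Fin n) => Real.exp (∑ v, θ v (X.1 v)))
      (fun _ _ => (Real.exp_pos _).le) (Finset.mem_univ X)
  have a2 : 0 ≤ Real.log (Zt l H j) := by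
    obtain ⟨X, hX⟩ := Finset.card_pos.1 h1
    refine le_trans (Finset.sum_nonneg fun v _ => mul_nonneg hs0.le (sub_nonneg.2 ?_)) (a1 X)
    exact_mod_cast hb v _ ((Finset.mem_filter.1 hX).2 v)
  have hc0 : (0 : ℝ) < Fintype.card (PM (Fin n)) := by
    exact_mod_cast Fintype.card_pos_iff.2 ⟨x0 hn⟩
  have a3 : ((n - 1 : ℕ) : ℝ) * ∑ X : PM (Fin n), 1 * ∑ v, θ v (X.1 v) =
      Fintype.card (PM (Fin n)) * ∑ u, ∑ v, if u = v then 0 else θ u v := by
    rw [sum_pair (fun _ => 1) θ]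
    simp only [Finset.mul_sum (s := (univ : Finset (Fin n)))]
    refine Finset.sum_congr rfl fun u _ => Finset.sum_congr rfl fun v _ => ?_
    split_ifs with h
    · simp
    · rw [← card_pair h, ← Finset.sum_filter, Finset.sum_const, nsmul_eq_mul]
      push_cast
      ring
  have a4 : ∑ X : PM (Fin n), 1 * ∑ v, θ v (X.1 v) ≤
      Fintype.card (PM (Fin n)) * Real.log (Zt l H j) :=
    (Finset.sum_le_card_nsmul _ _ _ fun X _ => (one_mul _).le.trans (a1 X)).trans (by simp)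
  have a5 : ∑ u, ∑ v, (if u = v then 0 else θ u v) ≤ (n - 1 : ℕ) * Real.log (Zt l H j) := by
    refine le_of_mul_le_mul_left ?_ hc0
    rw [← a3, mul_left_comm]
    exact mul_le_mul_of_nonneg_left a4 (Nat.cast_nonneg _)
  have a6 : ((n - 1 : ℕ) : ℝ) ≤ n ^ 2 := by
    have : n - 1 ≤ n ^ 2 := (Nat.sub_le n 1).trans (Nat.le_self_pow (by norm_num) n)
    exact_mod_cast this
  have _ := hn0
  have hδ : 0 < 1 / ((2 : ℝ) ^ l) ^ 3 := by positivity
  rw [Pot, sub_nonpos]
  refine (mul_le_mul_of_nonneg_left a5 hδ.le).trans ?_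
  rw [← mul_assoc]
  refine mul_le_of_le_one_left a2 ?_
  nlinarith [mul_le_mul_of_nonneg_left a6 hδ.le]

theorem e1_le' (l : ℕ) (H : List (Mat n)) (j : ℕ) (X : PM (Fin n)) :
    e1 l H j X ≤ pU l * (n * (n + 1)) :=
  Nat.mul_le_mul_left _
    ((Finset.sum_le_card_nsmul _ _ (n + 1) fun _ _ => Nat.sub_le _ _).trans (by simp))

theorem e1_le (l : ℕ) (hl : 4 ≤ l) (hnl : n ≤ 2 ^ l) (H : List (Mat n)) (j : ℕ)
    (X : PM (Fin n)) : e1 l H j X ≤ pD l := by
  refine (e1_le' l H j X).trans ?_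
  have h1 : n + 1 ≤ 2 ^ (l + 1) := by
    have := Nat.one_le_two_pow (n := l)
    rw [pow_succ]
    omega
  refine (Nat.mul_le_mul_left _ (Nat.mul_le_mul hnl h1)).trans ?_
  rw [pU, pD, ← pow_add, ← pow_add]
  exact Nat.pow_le_pow_right (by norm_num) (by omega)

theorem e2_le (l : ℕ) (hl : 4 ≤ l) (hnl : n ≤ 2 ^ l) (H : List (Mat n)) (j : ℕ) (hj : j < pJ l)
    (X : PM (Fin n)) : e2 l H j X ≤ pD l := by
  have h1 : e2 l H j X ≤ pU l * (n * (n * (j + 1))) := Nat.mul_le_mul_left _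
    ((Finset.sum_le_card_nsmul _ _ (n * (j + 1)) fun _ _ => Nat.sub_le _ _).trans (by simp))
  refine h1.trans ((Nat.mul_le_mul_left _ (Nat.mul_le_mul hnl (Nat.mul_le_mul hnl hj))).trans ?_)
  rw [pU, pD, pJ, ← pow_add, ← pow_add, ← pow_add]
  exact Nat.pow_le_pow_right (by norm_num) (by omega)

theorem mean_e1 (l : ℕ) (hl : 4 ≤ l) (hn : Even n) (H : List (Mat n)) (j : ℕ)
    (hH : ∀ u v, H.getD j 0 u v ≤ n + 1) :
    mean l (kk l H ((j + 1) * pU l)) (fun X => qq l ^ e1 l H j X) * Zt l H (j + 1)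
      = qq l ^ (pU l * n) * Zt l H j := by
  have hq := qq_pos hl
  have e : ∀ X : PM (Fin n), wt (aw l (kk l H ((j + 1) * pU l))) X * qq l ^ e1 l H j X =
      qq l ^ (pU l * n) * qq l ^ (pU l * (n * n)) * wt (aw l (kk l H (j * pU l))) X := by
    intro X
    rw [wt_aw, wt_aw, en_kk, en_kk, e1, ← pow_add, ← pow_add, ← pow_add, ← mul_add, ← mul_add,
      ← mul_add, ← Finset.sum_add_distrib]
    have : ∑ v, (KK H (j + 1) v (X.1 v) + (n + 1 - H.getD j 0 v (X.1 v))) =
        ∑ v, (n + 1 + KK H j v (X.1 v)) := Finset.sum_congr rfl fun v _ => by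
      have := hH v (X.1 v)
      rw [KK_succ]
      omega
    rw [this, Finset.sum_add_distrib, Finset.sum_const, Finset.card_univ, Fintype.card_fin,
      smul_eq_mul, show n * (n + 1) = n + n * n by ring]
  rw [mean, Zt, Zt, div_mul_div_cancel₀ (Zf_pos hl hn _).ne']
  simp only [e]
  rw [← Finset.mul_sum, show pU l * (n * (n * (j + 1))) = pU l * (n * n) + pU l * (n * (n * j)) by
    ring, pow_add, Zf]
  field_simp

theorem half_le_mean_e1 (l : ℕ) (hl : 4 ≤ l) (hnl : n ≤ 2 ^ l) (hn : Even n) (H : List (Mat n))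
    (j : ℕ) : 1 / 2 ≤ mean l (kk l H ((j + 1) * pU l)) fun X => qq l ^ e1 l H j X := by
  obtain ⟨-, hs1, hs2⟩ := sQ_small l hl hnl
  rw [mean, le_div_iff₀ (Zf_pos hl hn _), Zf, Finset.mul_sum]
  refine Finset.sum_le_sum fun X _ => ?_
  rw [mul_comm]
  refine mul_le_mul_of_nonneg_left (le_trans ?_ (pow_le_pow_of_le_one (qq_pos hl).le (qq_le_one l)
    (e1_le' l H j X))) (by rw [wt_aw]; exact (pow_pos (qq_pos hl) _).le)
  rw [qq_pow_U l hl]
  refine le_trans ?_ (Real.add_one_le_exp _)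
  push_cast
  nlinarith

theorem mean_e2 (l : ℕ) (hl : 4 ≤ l) (hn : Even n) (adj : Fin n → Fin n → Bool)
    (H : List (Mat n)) (j : ℕ)
    (hb : ∀ u v, adj u v = true → KK H (j + 1) u v ≤ n * (j + 1)) :
    mean l (kk l H ((j + 1) * pU l))
        (fun X => if ∀ v, adj v (X.1 v) = true then qq l ^ e2 l H j X else 0) * Zt l H (j + 1)
      = nAdj adj := by
  have hq := qq_pos hl
  rw [mean, Zt, div_mul_div_cancel₀ (Zf_pos hl hn _).ne', div_eq_iff (pow_pos hq _).ne', nAdj,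
    Finset.card_filter, Nat.cast_sum, Finset.sum_mul]
  refine Finset.sum_congr rfl fun X _ => ?_
  split_ifs with h
  · rw [wt_aw, en_kk, e2, ← pow_add, ← mul_add, ← Finset.sum_add_distrib,
      Finset.sum_congr rfl fun v _ => Nat.add_sub_cancel' (hb v _ (h v))]
    simp
  · simp

end Vale.Agent.P308
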