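import Vale.Agent.P308.ProgCTA

/-! Running time and number of coins of the program on lists. -/

namespace Vale.Agent.P308

open Vale.Agent.P317 Vale.Agent.Lib.TM

/-- size bound for a matching -/
def bT (c : Ctx) : ℕ := cn c * (sz (cn c + 1) + 1) + 1

/-- size bound for a population -/
def bP (c : Ctx) : ℕ := pN (cl c) * (bT c + 1) + 1

/-- size bound for a matrix -/
def bM (c : Ctx) : ℕ := cn c * (bT c + 1) + 1

/-- growth of the accumulator in a round -/
def bG (c : Ctx) : ℕ := bM c + 2 * sz (pS (cl c) * sc (cl c)) + sz (dfact (cn c / 2)) + 12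

section
variable {α : Type} [Enc α]

theorem bd_bT {c : α → Ctx} (hc : CT 0 c) : Bd 0 fun a => bT (c a) :=
  ((bd_cn hc).mul ((((ct_cn hc).add (CT.const 1)).size).add (Bd.const 1))).add (Bd.const 1)

theorem bd_bP {c : α → Ctx} (hc : CT 0 c) : Bd 0 fun a => bP (c a) :=
  ((bd_pN hc).mul ((bd_bT hc).add (Bd.const 1))).add (Bd.const 1)

theorem bd_bG {c : α → Ctx} (hc : CT 0 c) : Bd 0 fun a => bG (c a) :=
  (((((bd_cn hc).mul ((bd_bT hc).add (Bd.const 1))).add (Bd.const 1)).add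
    ((Bd.const 2).mul ((ct_pS hc).mul (ct_sc hc)).size)).add (ct_dfact hc).size).add (Bd.const 12)

end

theorem sz_row (c : Ctx) {g : ℕ → ℕ} (h : ∀ v, g v ≤ cn c + 1) : sz ((rn c).map g) ≤ bT c := by
  have := sz_list_le (l := (rn c).map g) (B := sz (cn c + 1)) fun x hx => by
    obtain ⟨v, -, rfl⟩ := List.mem_map.1 hx
    exact sz_mono (h v)
  rwa [List.length_map, rn, List.length_range] at this

theorem sz_tabN (c : Ctx) (g : ℕ → ℕ) : sz (tabN c g) ≤ bT c :=
  sz_row c fun _ => (min_le_right _ _).trans (Nat.le_succ _)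

theorem sz_tabM (c : Ctx) {g : ℕ → ℕ → ℕ} (h : ∀ u v, g u v ≤ cn c + 1) :
    sz (tabM c g) ≤ bM c := by
  have := sz_list_le (l := tabM c g) (B := bT c) fun x hx => by
    obtain ⟨u, -, rfl⟩ := List.mem_map.1 hx
    exact sz_row c (h u)
  rwa [tabM, List.length_map, rn, List.length_range] at this

theorem sz_pop (c : Ctx) (g : ℕ → ℕ → ℕ) :
    sz ((List.range (pN (cl c))).map fun s => tabN c (g s)) ≤ bP c := by
  have := sz_list_le (l := (List.range (pN (cl c))).map fun s => tabN c (g s)) (B := bT c)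
    fun x hx => by
      obtain ⟨u, -, rfl⟩ := List.mem_map.1 hx
      exact sz_tabN c _
  rwa [List.length_map, List.length_range] at this

theorem sz_stepFP (c : Ctx) (K x : List (List ℕ)) (i j t a b u : ℕ) {B : ℕ} (h1 : sz x ≤ B)
    (h2 : bP c ≤ B) : sz (stepFP c K x i j t a b u) ≤ B := by
  unfold stepFP accQ
  cases Nat.blt i (pN (cl c)) && (Nat.blt j (pN (cl c)) && !Nat.beq i j)
  · exact h1
  · rw [cond_true]
    cases Nat.blt u _
    · exact h1
    · exact (sz_pop c _).trans h2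

theorem All_bind' {α β : Type} {q : β → Prop} (t : Rand α) {g : α → Rand β}
    (hg : ∀ a, (g a).All q) : (t.bind g).All q :=
  Rand.All_bind (Rand.All_of_forall (p := fun _ => True) (fun _ => trivial) t) fun a _ => hg a

theorem all_stepP (c : Ctx) (K x : List (List ℕ)) {B : ℕ} (h1 : sz x ≤ B) (h2 : bP c ≤ B) :
    (stepP c K x).All fun y => sz y ≤ B :=
  All_bind' _ fun i => All_bind' _ fun j => All_bind' _ fun t => All_bind' _ fun a =>
    All_bind' _ fun b => All_bind' _ fun u => sz_stepFP c K x i j t a b u h1 h2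

theorem rc_stepP : RC fun p : Ctx × List (List ℕ) × List (List ℕ) => stepP p.1 p.2.1 p.2.2 := by
  unfold stepP
  refine RC.bind (RC.bits (by fun_prop) (bd_pK (by fun_prop))) ?_
  refine RC.bind (RC.bits (by fun_prop) (bd_pK (by fun_prop))) ?_
  refine RC.bind (RC.bits (by fun_prop) (Bd.const 2)) ?_
  refine RC.bind (RC.bits (by fun_prop) (bd_cl (by fun_prop))) ?_
  refine RC.bind (RC.bits (by fun_prop) (bd_cl (by fun_prop))) ?_
  refine RC.bind (RC.bits (by fun_prop) ((bd_pM (by fun_prop)).mul (bd_pD (by fun_prop)))) ?_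
  exact RC.ret (ct_stepFP (by fun_prop) (by fun_prop) (by fun_prop) (by fun_prop) (by fun_prop)
    (by fun_prop) (by fun_prop) (by fun_prop) (by fun_prop))

theorem rc_initP : RC initP := by
  refine RC.iterIdx (g := fun c i X => (bits (pB (cl c))).bind fun u =>
    .ret (swapP c (2 * i) (u % (2 * i + 1)) X)) (k := fun c => cn c / 2) (init := x0P) (B := bT)
    ?_ (by fun_prop) ((bd_cn CT.id).of_le fun _ => Nat.div_le_self _ _) (ct_x0P CT.id)
    (bd_bT CT.id) (fun c _ X => sz X ≤ bT c) (fun c => sz_tabN c _)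
    (fun c i X _ _ => All_bind' _ fun u => sz_tabN c _) fun _ _ _ _ h => h
  exact RC.bind (RC.bits (by fun_prop) (bd_pB (by fun_prop))) (RC.ret (by fun_prop))

theorem rc_popP : RC popP := by
  refine RC.iterIdx (g := fun c t x => (initP c).bind fun X => .ret (setP c x t X))
    (k := fun c => pN (cl c)) (init := fun c => (List.range (pN (cl c))).map fun _ => x0P c)
    (B := bP) ?_ (ct_pN CT.id) (bd_pN CT.id)
    (CT.map (f := fun c _ => x0P c) (by fun_prop) (ct_rangeN CT.id)) (bd_bP CT.id)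
    (fun c _ x => sz x ≤ bP c) (fun c => sz_pop c _)
    (fun c i x _ _ => All_bind' _ fun u => sz_pop c _) fun _ _ _ _ h => h
  exact RC.bind (rc_initP.comp (by fun_prop)) (RC.ret (by fun_prop))

theorem rc_chain : RC fun p : Ctx × List (List ℕ) × List (List ℕ) =>
    iter (stepP p.1 p.2.1) (pT (cl p.1)) p.2.2 := by
  have h1 : CT 0 fun p : Ctx × List (List ℕ) × List (List ℕ) => p.1 := by fun_prop
  have h2 : CT 0 fun p : Ctx × List (List ℕ) × List (List ℕ) => p.2.2 := by fun_prop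
  exact RC.iter (g := fun (p : Ctx × List (List ℕ) × List (List ℕ)) y => stepP p.1 p.2.1 y)
    (B := fun p => sz p.2.2 + bP p.1)
    (rc_stepP.comp (g := fun q : (Ctx × List (List ℕ) × List (List ℕ)) × List (List ℕ) =>
      (q.1.1, q.1.2.1, q.2)) (by fun_prop)) (ct_pT h1) (bd_pT h1) h2 (h2.size.add (bd_bP h1))
    (fun p _ y => sz y ≤ sz p.2.2 + bP p.1) (fun _ => Nat.le_add_right _ _)
    (fun p _ y _ h => all_stepP _ _ _ h (Nat.le_add_left _ _)) fun _ _ _ _ h => h

theorem rc_sampleP : RC fun p : Ctx × List (List (List ℕ)) × ℕ => sampleP p.1 p.2.1 p.2.2 := by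
  unfold sampleP
  refine RC.bind (rc_popP.comp (by fun_prop)) (RC.bind ?_ (RC.ret
    (ct_tabN (g := fun (q : ((Ctx × List (List (List ℕ)) × ℕ) × List (List ℕ)) × List (List ℕ)) v =>
      vw (q.2.getD 0 []) v) (by fun_prop) (by fun_prop))))
  have h1 : CT 0 fun p : (Ctx × List (List (List ℕ)) × ℕ) × List (List ℕ) => p.1.1 := by fun_prop
  have h2 : CT 0 fun p : (Ctx × List (List (List ℕ)) × ℕ) × List (List ℕ) => p.2 := by fun_prop
  exact RC.iterIdx (g := fun (p : (Ctx × List (List (List ℕ)) × ℕ) × List (List ℕ)) s y =>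
      iter (stepP p.1.1 (kkP p.1.1 p.1.2.1 (s + 1))) (pT (cl p.1.1)) y)
    (B := fun p => sz p.2 + bP p.1.1)
    (rc_chain.comp (g := fun q : ((Ctx × List (List (List ℕ)) × ℕ) × List (List ℕ)) × ℕ ×
      List (List ℕ) => (q.1.1.1, kkP q.1.1.1 q.1.1.2.1 (q.2.1 + 1), q.2.2)) (by fun_prop))
    (by fun_prop) (((bd_pJ h1).mul (bd_pU h1)).of_le fun _ =>
      Nat.mul_le_mul_right _ (min_le_right _ _)) h2 (h2.size.add (bd_bP h1))
    (fun p _ y => sz y ≤ sz p.2 + bP p.1.1) (fun _ => Nat.le_add_right _ _)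
    (fun p _ y _ h => All_iter _ h fun y h => all_stepP _ _ _ h (Nat.le_add_left _ _))
    fun _ _ _ _ h => h

theorem all_sampleP (c : Ctx) (H : List (List (List ℕ))) (j : ℕ) :
    (sampleP c H j).All fun X => sz X ≤ bT c :=
  All_bind' _ fun _ => All_bind' _ fun _ => sz_tabN c _

theorem rc_samplesP : RC fun p : Ctx × List (List (List ℕ)) × ℕ => samplesP p.1 p.2.1 p.2.2 := by
  have h1 : CT 0 fun p : Ctx × List (List (List ℕ)) × ℕ => p.1 := by fun_prop
  refine RC.iter (g := fun (p : Ctx × List (List (List ℕ)) × ℕ) L =>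
      (sampleP p.1 p.2.1 p.2.2).bind fun X => .ret (X :: L))
    (B := fun p => pS (cl p.1) * (bT p.1 + 1) + 1) ?_ (ct_pS h1) (bd_pS h1) (CT.const [])
    (((bd_pS h1).mul ((bd_bT h1).add (Bd.const 1))).add (Bd.const 1))
    (fun p i L => sz L ≤ i * (bT p.1 + 1) + 1) (fun _ => by simp)
    (fun p i L _ h => Rand.All_bind (all_sampleP _ _ _) fun X hX => ?_) fun p i L hi h => ?_
  · exact RC.bind (rc_sampleP.comp (g := fun q : (Ctx × List (List (List ℕ)) × ℕ) ×
      List (List ℕ) => q.1) (by fun_prop)) (RC.ret (by fun_prop))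
  · change sz (X :: L) ≤ (i + 1) * (bT p.1 + 1) + 1
    rw [sz_cons, add_mul]
    omega
  · exact h.trans (Nat.add_le_add_right (Nat.mul_le_mul_right _ hi) _)

theorem all_samplesP (c : Ctx) (H : List (List (List ℕ))) (j : ℕ) :
    (samplesP c H j).All fun L => L.length ≤ pS (cl c) := by
  unfold samplesP
  rw [iter_eq_iterIdx]
  exact All_iterIdx (p := fun i (L : List (List ℕ)) => L.length ≤ i) _ le_rfl fun i _ L h =>
    All_bind' _ fun X => Nat.succ_le_succ h

theorem rc_roundP : RC fun p : Ctx × ℕ × AccP => roundP p.1 p.2.1 p.2.2 :=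
  RC.bind (rc_samplesP.comp (g := fun q : Ctx × ℕ × AccP => (q.1, q.2.2.1, q.2.1 + 1))
    (by fun_prop)) (RC.ret (ct_roundFP (by fun_prop) (by fun_prop) (by fun_prop) (by fun_prop)))

theorem sum_map_le {β : Type} (L : List β) (f : β → ℕ) {B : ℕ} (h : ∀ x, f x ≤ B) :
    (L.map f).sum ≤ L.length * B := by
  induction L with
  | nil => simp
  | cons x L ih =>
    have := h x
    rw [List.map_cons, List.sum_cons, List.length_cons, add_mul]
    omega

theorem rnd_le (x y : ℕ) : rnd x y ≤ x + 1 := by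
  unfold rnd
  rcases Nat.eq_zero_or_pos y with rfl | hy
  · simp
  · exact Nat.div_le_of_le_mul (by nlinarith)

/-- size invariant of the accumulator -/
def SzA (B : ℕ) (A : AccP) : Prop :=
  sz A.1 ≤ B ∧ sz A.2.1 ≤ B ∧ sz A.2.2.1 ≤ B ∧ sz A.2.2.2.2 ≤ B

theorem szA_round (c : Ctx) (j : ℕ) {A : AccP} {L : List (List ℕ)} {B : ℕ} (h : SzA B A)
    (hL : L.length ≤ pS (cl c)) : SzA (B + bG c) (roundFP c j A L) := by
  obtain ⟨a1, a2, a3, a4⟩ := h
  have b0 : sz (nextP c A.1 j L) ≤ bM c := sz_tabM c fun u v => by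
    cases Nat.blt (2 * pI (cl c) * cntP L u v) (pS (cl c))
    · rw [cond_false]
      cases (!ga c u v || Nat.blt (KKP A.1 (j + 1) u v) (cn c * (j + 1))) &&
        Nat.ble (5 * pS (cl c)) (2 * pI (cl c) * cntP L u v)
      · exact Nat.le_succ _
      · exact le_rfl
    · exact Nat.zero_le _
  have b1 : sz (pS (cl c) * pw (cl c) (pU (cl c) * cn c)) ≤ sz (pS (cl c) * sc (cl c)) :=
    sz_mono (Nat.mul_le_mul_left _ (pw_le _ _))
  have b2 : sz (sum1P c A.1 j L) ≤ sz (pS (cl c) * sc (cl c)) :=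
    sz_mono ((sum_map_le _ _ fun _ => pw_le _ _).trans (Nat.mul_le_mul_right _ hL))
  have b3 : sz (sum2P c A.1 j L) ≤ sz (pS (cl c) * sc (cl c)) :=
    sz_mono ((sum_map_le _ _ fun X => by
      cases ((rn c).filter fun v => !ga c v (vw X v)).isEmpty
      · exact Nat.zero_le _
      · exact pw_le _ _).trans (Nat.mul_le_mul_right _ hL))
  have c1 := sz_append A.1 [nextP c A.1 j L]
  have c2 := sz_mul_le A.2.1 (pS (cl c) * pw (cl c) (pU (cl c) * cn c))
  have c3 := sz_mul_le A.2.2.1 (sum1P c A.1 j L)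
  have c4 := sz_mul_le (A.2.1 * (pS (cl c) * pw (cl c) (pU (cl c) * cn c))) (sum2P c A.1 j L)
  have c5 := sz_add_le (A.2.1 * (pS (cl c) * pw (cl c) (pU (cl c) * cn c)) * sum2P c A.1 j L) 1
  have c6 := sz_mono (rnd_le (A.2.1 * (pS (cl c) * pw (cl c) (pU (cl c) * cn c)) * sum2P c A.1 j L)
    (A.2.2.1 * sum1P c A.1 j L * (pS (cl c) * sc (cl c))))
  rw [sz_cons, sz_nil] at c1
  rw [sz_one] at c5
  unfold SzA roundFP bG
  dsimp only
  refine ⟨by omega, by omega, by omega, ?_⟩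
  cases !A.2.2.2.1 && Nat.ble (pS (cl c) * sc (cl c)) (4 * sum2P c A.1 j L)
  · rw [cond_false]; omega
  · rw [cond_true]; omega

theorem rc_algP : RC algP := by
  refine RC.bind (u := fun _ (A : AccP) => .ret A.2.2.2.2) ?_ (RC.ret (by fun_prop))
  refine RC.iterIdx (g := roundP) (B := fun c => 4 * ((pJ (cl c) + 1) * bG c) + 9) rc_roundP
    (ct_pJ CT.id) (bd_pJ CT.id) (ct_acc0P CT.id)
    (((Bd.const 4).mul (((bd_pJ CT.id).add (Bd.const 1)).mul (bd_bG CT.id))).add (Bd.const 9))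
    (fun c i A => SzA ((i + 1) * bG c) A) (fun c => ?_)
    (fun c i A _ h => Rand.All_bind (all_samplesP _ _ _) fun L hL => ?_) fun c i A hi h => ?_
  · have := sz_tabM c (g := fun _ _ => cn c) fun _ _ => Nat.le_succ _
    unfold SzA acc0P bG
    simp only [sz_cons, sz_nil, sz_one, sz_zero]
    omega
  · change SzA ((i + 1 + 1) * bG c) _
    rw [add_mul (i + 1), one_mul]
    exact szA_round c i h hL
  · obtain ⟨a1, a2, a3, a4⟩ := h
    have : (i + 1) * bG c ≤ (pJ (cl c) + 1) * bG c := Nat.mul_le_mul_right _ (by omega)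
    rw [sz_prod A, sz_prod A.2, sz_prod A.2.2, sz_prod A.2.2.2, sz_bool]
    omega

theorem rc_topP : RC topP :=
  RC.cond (by fun_prop) (RC.ret (CT.const 0)) (RC.cond (by fun_prop) (RC.ret (CT.const 1)) rc_algP)

theorem ct_fullP : CT 0 fullP := by
  have h1 : CT 0 fun p : Raw × List Bool => parP p.1 := by unfold parP; fun_prop
  have h2 : CT 0 fun p : Raw × List Bool => List.range (min (parP p.1) p.2.length) :=
    CT.range (by fun_prop) ((CT.snd (e := 0) CT.id).bd_length.of_le fun _ => min_le_right _ _)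
  exact (CT.comp (g := fun p : Raw × List Bool =>
    ((p.1.1, List.range (min (parP p.1) p.2.length)), p.2)) rc_topP (by fun_prop)).fst

theorem lp_mul {W a b x y : ℕ} (hx : x ≤ W ^ a) (hy : y ≤ W ^ b) : x * y ≤ W ^ (a + b) := by
  rw [pow_add]; exact Nat.mul_le_mul hx hy

theorem lp_mono {W a b x : ℕ} (hW : 2 ≤ W) (hx : x ≤ W ^ a) (h : a ≤ b) : x ≤ W ^ b :=
  hx.trans (Nat.pow_le_pow_right (by omega) h)

theorem lp_add {W a b c x y : ℕ} (hW : 2 ≤ W) (hx : x ≤ W ^ a) (hy : y ≤ W ^ b) (ha : a ≤ c)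
    (hb : b ≤ c) : x + y ≤ W ^ (c + 1) := by
  have h1 := lp_mono hW hx ha
  have h2 := lp_mono hW hy hb
  calc x + y ≤ W ^ c * 2 := by omega
    _ ≤ _ := by rw [pow_succ]; exact Nat.mul_le_mul_left _ hW

theorem dep_topP (c : Ctx) (hl : 4 ≤ cl c) (hn : cn c ≤ 2 ^ cl c) :
    Dep (topP c) ((2 ^ cl c) ^ 2200) := by
  have d1 : ∀ K x, Dep (stepP c K x) _ := fun K x => (Dep.bits _).bind fun i =>
    (Dep.bits _).bind fun j => (Dep.bits _).bind fun t => (Dep.bits _).bind fun a =>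
      (Dep.bits _).bind fun b => (Dep.bits _).bind fun u => Dep.ret _ 0
  have d2 : Dep (initP c) _ := Dep.iterIdx (fun i X => (Dep.bits _).bind fun u => Dep.ret _ 0) _ _
  have d3 : Dep (popP c) _ := Dep.iterIdx (fun i X => d2.bind fun u => Dep.ret _ 0) _ _
  have d4 : ∀ H j, Dep (sampleP c H j) _ := fun H j => d3.bind fun x =>
    ((Dep.iterIdx (fun s y => Dep.iter (d1 _) _ y) _ x).mono (Nat.mul_le_mul_right _
      (Nat.mul_le_mul_right _ (min_le_right _ _)))).bind fun y => Dep.ret _ 0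
  have d5 : ∀ j A, Dep (roundP c j A) _ := fun j A =>
    (Dep.iter (fun L => (d4 _ _).bind fun X => Dep.ret _ 0) _ _).bind fun L => Dep.ret _ 0
  have d6 : Dep (algP c) _ := (Dep.iterIdx d5 _ _).bind fun A => Dep.ret _ 0
  unfold topP
  cases Nat.beq (cn c % 2) 1
  swap
  · trivial
  cases Nat.beq (cn c) 0
  swap
  · trivial
  refine d6.mono ?_
  simp only [add_zero]
  have e : ∀ k, 2 ^ (k * cl c) ≤ (2 ^ cl c) ^ k := fun k => by rw [mul_comm, pow_mul]
  have h16 : 16 ≤ 2 ^ cl c := Nat.pow_le_pow_right (n := 2) (by norm_num) hl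
  have hlW : cl c ≤ (2 ^ cl c) ^ 1 := by rw [pow_one]; exact Nat.lt_two_pow_self.le
  have hnW : cn c / 2 ≤ (2 ^ cl c) ^ 1 := by rw [pow_one]; omega
  have hW : 2 ≤ 2 ^ cl c := by omega
  have h3 : 4096 ≤ (2 ^ cl c) ^ 3 := Nat.pow_le_pow_left h16 3
  have hK : pK (cl c) ≤ (2 ^ cl c) ^ (3 + 1) := lp_mul (le_trans (by norm_num) h3) hlW
  have hM : pM (cl c) ≤ (2 ^ cl c) ^ (3 + 1) := lp_mul (le_trans (by norm_num) h3) hlW
  have hB : pB (cl c) ≤ (2 ^ cl c) ^ (3 + 1) := lp_mul (le_trans (by norm_num) h3) hlW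
  have h2 : 2 ≤ (2 ^ cl c) ^ 1 := by rw [pow_one]; exact hW
  have s1 := lp_add (c := 595) hW hK (lp_add (c := 594) hW hK (lp_add (c := 593) hW h2
    (lp_add (c := 592) hW hlW (lp_add (c := 591) hW hlW (lp_mul hM (e 587)) (by norm_num)
      (by norm_num)) (by norm_num) (by norm_num)) (by norm_num) (by norm_num)) (by norm_num)
      (by norm_num)) (by norm_num) (by norm_num)
  have s2 := lp_add (c := 2162) hW (lp_mul (e 556) (lp_mul hnW hB))
    (lp_mul (lp_mul (e 7) (e 577)) (lp_mul (e 982) s1)) (by norm_num) (by norm_num)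
  exact lp_mono hW (lp_mul (e 7) (lp_mul (e 24) s2)) (by norm_num)

end Vale.Agent.P308
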