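import Vale.Agent.P308.PM

/-! Basic facts on alternating lists, cyclic shifts and exchanges along cycles. -/

namespace Vale.Agent.P308

open Finset Equiv

variable {V : Type}

section
variable [Inhabited V]

theorem hd_mem {Q : List V} (h : Q ≠ []) : hd Q ∈ Q := by
  cases Q with
  | nil => exact absurd rfl h
  | cons a l => simp [hd]

@[simp] theorem hd_cons (a : V) (l : List V) : hd (a :: l) = a := rfl

@[simp] theorem lt_single (a : V) : lt [a] = a := rfl

@[simp] theorem lt_cons_cons (a b : V) (l : List V) : lt (a :: b :: l) = lt (b :: l) := by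
  simp [lt, List.getLastD]

theorem lt_cons (a : V) {l : List V} (h : l ≠ []) : lt (a :: l) = lt l := by
  cases l with
  | nil => exact absurd rfl h
  | cons b l => simp

theorem lt_eq_getLast {Q : List V} (h : Q ≠ []) : lt Q = Q.getLast h := by
  induction Q with
  | nil => exact absurd rfl h
  | cons a l ih =>
    cases l with
    | nil => rfl
    | cons b l => rw [lt_cons_cons, ih (by simp), List.getLast_cons_cons]

theorem lt_mem {Q : List V} (h : Q ≠ []) : lt Q ∈ Q := by
  rw [lt_eq_getLast h]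
  exact List.getLast_mem h

theorem hd_append {L : List V} (h : L ≠ []) (R : List V) : hd (L ++ R) = hd L := by
  cases L with
  | nil => exact absurd rfl h
  | cons a l => rfl

theorem lt_append (L : List V) {R : List V} (h : R ≠ []) : lt (L ++ R) = lt R := by
  induction L with
  | nil => rfl
  | cons a l ih => rw [List.cons_append, lt_cons _ (by simp [h]), ih]

omit [Inhabited V] in
@[simp] theorem Ef_nil (X : PM V) : Ef X [] := trivial

omit [Inhabited V] in
@[simp] theorem Ef_single (X : PM V) (a : V) : Ef X [a] := trivial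

omit [Inhabited V] in
@[simp] theorem Ef_cons_cons (X : PM V) (a b : V) (l : List V) :
    Ef X (a :: b :: l) ↔ X.1 a = b ∧ Ef X l := Iff.rfl

omit [Inhabited V] in
theorem Ef_append_even {X : PM V} {L R : List V} (h : Even L.length) :
    Ef X (L ++ R) ↔ Ef X L ∧ Ef X R := by
  induction L using List.twoStepInduction with
  | nil => simp
  | singleton a => simp at h
  | cons_cons a b l ih _ =>
    have : Even l.length := by
      simp only [List.length_cons] at h
      rcases h with ⟨k, hk⟩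
      exact ⟨k - 1, by omega⟩
    simp only [List.cons_append, Ef_cons_cons, ih this, and_assoc]

theorem Ef_append_odd {X : PM V} {L R : List V} (h : Odd L.length) (hR : R ≠ []) :
    Ef X (L ++ R) ↔ Ef X L ∧ X.1 (lt L) = hd R ∧ Ef X R.tail := by
  obtain ⟨c, r, rfl⟩ := List.exists_cons_of_ne_nil hR
  induction L using List.twoStepInduction with
  | nil => simp at h
  | singleton a => simp
  | cons_cons a b l ih _ =>
    have h1 : Odd l.length := by
      simp only [List.length_cons] at h
      rcases h with ⟨k, hk⟩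
      exact ⟨k - 1, by omega⟩
    have h2 : l ≠ [] := by rintro rfl; simp at h1
    simp only [List.cons_append, Ef_cons_cons, ih h1, and_assoc, lt_cons_cons, lt_cons b h2]

theorem Ef_rotate {Y : PM V} {Q : List V} (h : Q ≠ []) :
    Ef Y (Q.rotate 1) ↔ Ef Y Q.tail ∧ (Even Q.length → Y.1 (hd Q) = lt Q) := by
  obtain ⟨a, l, rfl⟩ := List.exists_cons_of_ne_nil h
  rw [List.rotate_cons_succ, List.rotate_zero, List.tail_cons, hd_cons, List.length_cons]
  rcases Nat.even_or_odd l.length with h1 | h1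
  · have : ¬ Even (l.length + 1) := by simpa [Nat.even_add_one] using h1
    simp [Ef_append_even h1, this]
  · have h2 : l ≠ [] := by rintro rfl; simp at h1
    have : Even (l.length + 1) := h1.add_one
    rw [Ef_append_odd h1 (by simp), lt_cons a h2]
    simp [this, Y.eq_iff (u := a)]

theorem Ef.mem {X : PM V} {Q : List V} (h : Ef X Q) {v : V} (hv : v ∈ Q)
    (hl : Odd Q.length → v ≠ lt Q) : X.1 v ∈ Q := by
  induction Q using List.twoStepInduction with
  | nil => simp at hv
  | singleton a => simp_all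
  | cons_cons a b l ih _ =>
    obtain ⟨h1, h2⟩ := h
    simp only [List.mem_cons] at hv ⊢
    rcases hv with rfl | rfl | hv
    · exact Or.inr (Or.inl h1)
    · exact Or.inl (X.eq_iff.1 h1)
    · refine Or.inr (Or.inr (ih h2 hv fun ho => ?_))
      have h3 : l ≠ [] := List.ne_nil_of_mem hv
      have := hl (by simpa [Nat.odd_add_one, Nat.even_add_one] using ho)
      rwa [lt_cons_cons, lt_cons b h3] at this

theorem Ef.not_mem {X : PM V} {Q : List V} (h : Ef X Q) (hn : Q.Nodup) (ho : Odd Q.length) :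
    X.1 (lt Q) ∉ Q := by
  induction Q using List.twoStepInduction with
  | nil => simp
  | singleton a => simpa using X.ne a
  | cons_cons a b l ih _ =>
    obtain ⟨h1, h2⟩ := h
    have h3 : Odd l.length := by simpa [Nat.odd_add_one, Nat.even_add_one] using ho
    have h4 : l ≠ [] := by rintro rfl; simp at h3
    have h5 := lt_mem h4
    rw [lt_cons_cons, lt_cons b h4]
    simp only [List.nodup_cons, List.mem_cons, not_or] at hn ⊢
    refine ⟨fun h6 => ?_, fun h6 => ?_, ih h2 hn.2.2 h3⟩
    · exact hn.2.1 (by rw [← h1, ← h6, X.inv]; exact h5)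
    · exact hn.1.2 (by rw [← X.eq_iff.1 h1, ← h6, X.inv]; exact h5)

theorem Ef.congr {X X' : PM V} {Q : List V} (h : Ef X Q) (h' : Ef X' Q) {v : V} (hv : v ∈ Q)
    (hl : Odd Q.length → v ≠ lt Q) : X.1 v = X'.1 v := by
  induction Q using List.twoStepInduction with
  | nil => simp at hv
  | singleton a => simp_all
  | cons_cons a b l ih _ =>
    obtain ⟨h1, h2⟩ := h
    obtain ⟨h1', h2'⟩ := h'
    simp only [List.mem_cons] at hv
    rcases hv with rfl | rfl | hv
    · rw [h1, h1']
    · rw [X.eq_iff.1 h1, X'.eq_iff.1 h1']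
    · refine ih h2 h2' hv fun ho => ?_
      have h3 : l ≠ [] := List.ne_nil_of_mem hv
      have := hl (by simpa [Nat.odd_add_one, Nat.even_add_one] using ho)
      rwa [lt_cons_cons, lt_cons b h3] at this

theorem Ef.of_eq {X X' : PM V} {Q : List V} (h : Ef X Q) (hn : Q.Nodup)
    (he : ∀ v ∈ Q, (Odd Q.length → v ≠ lt Q) → X'.1 v = X.1 v) : Ef X' Q := by
  induction Q using List.twoStepInduction with
  | nil => simp
  | singleton a => simp
  | cons_cons a b l ih _ =>
    obtain ⟨h1, h2⟩ := h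
    have hn' := hn
    simp only [List.nodup_cons, List.mem_cons, not_or] at hn
    refine ⟨?_, ih h2 hn.2.2 fun v hv ho => he v (by simp [hv]) fun ho' => ?_⟩
    · rw [he a (by simp) fun _ h3 => ?_, h1]
      have := lt_mem (Q := b :: l) (by simp)
      rw [lt_cons_cons] at h3
      rw [← h3] at this
      exact (List.nodup_cons.1 hn').1 this
    · rw [lt_cons_cons, lt_cons b (List.ne_nil_of_mem hv)]
      exact ho (by simpa [Nat.odd_add_one, Nat.even_add_one] using ho')

omit [Inhabited V] in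
theorem Alt_cons_cons {X Y : PM V} {a b : V} {l : List V} :
    Alt X Y (a :: b :: l) ↔ X.1 a = b ∧ Alt Y X (b :: l) := by
  simp only [Alt, Ef_cons_cons, List.tail_cons]
  tauto

theorem Alt.eq_walkL {X Y : PM V} {Q : List V} (h : Alt X Y Q) :
    Q = walkL X Y (hd Q) Q.length := by
  induction Q generalizing X Y with
  | nil => rfl
  | cons a l ih =>
    cases l with
    | nil => rfl
    | cons b l =>
      obtain ⟨h1, h2⟩ := Alt_cons_cons.1 h
      have := ih h2
      rw [hd_cons] at this
      rw [List.length_cons, walkL, hd_cons, h1, ← this]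

theorem Inst.alt {X Y : PM V} {Q : List V} (h : Inst Q X Y) : Alt X Y Q :=
  ⟨h.2.2.1, ((Ef_rotate h.1).1 h.2.2.2).1⟩

theorem alt_unique {X Y : PM V} {Q Q' : List V} (h : Alt X Y Q) (h' : Alt X Y Q')
    (hn : Q.Nodup) (hn' : Q'.Nodup) (h0 : Q ≠ []) (h0' : Q' ≠ []) (h1 : hd Q = hd Q')
    (h2 : lt Q = lt Q') : Q = Q' := by
  induction Q generalizing Q' X Y with
  | nil => exact absurd rfl h0
  | cons a l ih =>
    obtain ⟨a', l', rfl⟩ := List.exists_cons_of_ne_nil h0'
    simp only [hd_cons] at h1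
    subst h1
    cases l with
    | nil =>
      cases l' with
      | nil => rfl
      | cons b' l' =>
        rw [lt_single, lt_cons_cons] at h2
        exact absurd (h2 ▸ lt_mem (Q := b' :: l') (by simp)) (List.nodup_cons.1 hn').1
    | cons b l =>
      cases l' with
      | nil =>
        rw [lt_single, lt_cons_cons] at h2
        exact absurd (h2 ▸ lt_mem (Q := b :: l) (by simp)) (List.nodup_cons.1 hn).1
      | cons b' l' =>
        obtain ⟨k1, k2⟩ := Alt_cons_cons.1 h
        obtain ⟨k1', k2'⟩ := Alt_cons_cons.1 h'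
        rw [ih k2 k2' (List.nodup_cons.1 hn).2 (List.nodup_cons.1 hn').2 (by simp) (by simp)
          (by simp [← k1, ← k1']) (by simpa using h2)]

end

@[simp] theorem length_walkL (X Y : PM V) (a : V) (k : ℕ) : (walkL X Y a k).length = k := by
  induction k generalizing X Y a with
  | zero => rfl
  | succ k ih => simp [walkL, ih]

theorem alt_walkL (X Y : PM V) (a : V) (k : ℕ) : Alt X Y (walkL X Y a k) := by
  induction k generalizing X Y a with
  | zero => exact ⟨trivial, trivial⟩
  | succ k ih =>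
    cases k with
    | zero => exact ⟨trivial, trivial⟩
    | succ k => exact Alt_cons_cons.2 ⟨rfl, ih Y X (X.1 a)⟩

open Classical in
theorem sw_fst (T : Set V) (p : PM V × PM V) (v : V) :
    (sw T p).1.1 v = if Reach T p v then p.2.1 v else p.1.1 v := rfl

open Classical in
theorem sw_snd (T : Set V) (p : PM V × PM V) (v : V) :
    (sw T p).2.1 v = if Reach T p v then p.1.1 v else p.2.1 v := rfl

theorem Rel_sw (T : Set V) (p : PM V × PM V) : Rel (sw T p) = Rel p := by
  funext u v
  simp only [Rel, sw_fst, sw_snd]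
  split_ifs
  · exact propext or_comm
  · rfl

theorem Reach_sw (S T : Set V) (p : PM V × PM V) : Reach S (sw T p) = Reach S p := by
  funext v
  simp only [Reach, Rel_sw]

theorem Rel.symm {p : PM V × PM V} {u v : V} (h : Rel p u v) : Rel p v u := by
  rcases h with h | h
  · exact Or.inl (by rw [h, PM.inv])
  · exact Or.inr (by rw [h, PM.inv])

theorem rtg_symm {p : PM V × PM V} {u v : V} (h : Relation.ReflTransGen (Rel p) u v) :
    Relation.ReflTransGen (Rel p) v u := by
  induction h with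
  | refl => exact .refl
  | tail _ h ih => exact .head h.symm ih

theorem Reach_swap (S : Set V) (X Y : PM V) : Reach S (Y, X) = Reach S (X, Y) := by
  have : Rel (Y, X) = Rel (X, Y) := by
    funext u v
    exact propext or_comm
  funext v
  simp only [Reach, this]

theorem sw_sw (T : Set V) (p : PM V × PM V) : sw T (sw T p) = p := by
  refine Prod.ext (PM.ext fun v => ?_) (PM.ext fun v => ?_)
  · rw [sw_fst, Reach_sw, sw_fst, sw_snd]
    split_ifs <;> rfl
  · rw [sw_snd, Reach_sw, sw_fst, sw_snd]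
    split_ifs <;> rfl

theorem sw_empty (p : PM V × PM V) : sw ∅ p = p := by
  refine Prod.ext (PM.ext fun v => ?_) (PM.ext fun v => ?_)
  · rw [sw_fst, if_neg (by simp [Reach])]
  · rw [sw_snd, if_neg (by simp [Reach])]

theorem sw_univ (p : PM V × PM V) : (sw Set.univ p).1 = p.2 :=
  PM.ext fun v => by rw [sw_fst, if_pos ⟨v, trivial, .refl⟩]

theorem sw_insert (t : V) (T : Set V) (p : PM V × PM V) :
    (sw (insert t T) p).1 = (sw T p).1 ∨ (sw (insert t T) p).1 = (sw {t} (sw T p)).1 := by
  have key : ∀ v, Reach (insert t T) p v ↔ Reach {t} p v ∨ Reach T p v := by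
    intro v
    simp only [Reach, Set.mem_insert_iff, Set.mem_singleton_iff, exists_eq_left, or_and_right,
      exists_or]
  by_cases h : Reach T p t
  · refine Or.inl (PM.ext fun v => ?_)
    have : Reach (insert t T) p v ↔ Reach T p v := by
      rw [key]
      refine ⟨fun h' => h'.elim ?_ id, Or.inr⟩
      rintro ⟨s, rfl, hs⟩
      obtain ⟨t', ht', h'⟩ := h
      exact ⟨t', ht', h'.trans hs⟩
    rw [sw_fst, sw_fst]
    by_cases h1 : Reach T p v
    · rw [if_pos h1, if_pos (this.2 h1)]
    · rw [if_neg h1, if_neg (mt this.1 h1)]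
  · refine Or.inr (PM.ext fun v => ?_)
    rw [sw_fst, sw_fst, Reach_sw, sw_fst, sw_snd]
    by_cases h1 : Reach {t} p v
    · have h2 : ¬ Reach T p v := by
        rintro ⟨t', ht', h'⟩
        obtain ⟨s, rfl, hs⟩ := h1
        exact h ⟨t', ht', h'.trans (rtg_symm hs)⟩
      rw [if_pos h1, if_neg h2, if_pos ((key v).2 (Or.inl h1))]
    · rw [if_neg h1]
      by_cases h2 : Reach T p v
      · rw [if_pos h2, if_pos ((key v).2 (Or.inr h2))]
      · rw [if_neg h2, if_neg fun h3 => ((key v).1 h3).elim h1 h2]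

variable [DecidableEq V]

theorem swap_smul_of_eq {X : PM V} {u v : V} (h : X.1 u = v) : swap u v • X = X := by
  refine PM.ext fun w => ?_
  rw [PM.smul_apply, swap_inv]
  by_cases h1 : w = u
  · subst h1; rw [swap_apply_left, X.eq_iff.1 h, swap_apply_left, h]
  by_cases h2 : w = v
  · subst h2; rw [swap_apply_right, h, swap_apply_right, X.eq_iff.1 h]
  rw [swap_apply_of_ne_of_ne h1 h2, swap_apply_of_ne_of_ne]
  · intro h3; exact h2 (by rw [← h, ← h3, X.inv])
  · intro h3; exact h1 (X.inj (h3.trans h.symm))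

omit [DecidableEq V] in
theorem Ef_smul (g : Perm V) (X : PM V) (Q : List V) : Ef (g • X) (Q.map g) ↔ Ef X Q := by
  induction Q using List.twoStepInduction with
  | nil => simp
  | singleton a => simp
  | cons_cons a b l ih _ => simp [ih, PM.smul_apply']

theorem map_tau {Q : List V} (hn : Q.Nodup) : Q.map (tau Q) = Q.rotate 1 := by
  refine List.ext_getElem (by simp) fun i h1 h2 => ?_
  rw [List.getElem_map, List.formPerm_apply_getElem _ hn, List.getElem_rotate]

theorem Ef_tau {X : PM V} {Q : List V} (hn : Q.Nodup) :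
    Ef (tau Q • X) (Q.rotate 1) ↔ Ef X Q := by
  rw [← map_tau hn, Ef_smul]

theorem Inst.flip {X Y : PM V} {Q : List V} (h : Inst Q X Y) :
    Inst Q ((tau Q)⁻¹ • Y) (tau Q • X) :=
  ⟨h.1, h.2.1, (Ef_tau h.2.1).1 (by rw [smul_inv_smul]; exact h.2.2.2), (Ef_tau h.2.1).2 h.2.2.1⟩

section
variable [Inhabited V]

omit [Inhabited V] in
theorem tau_apply_of_not_mem {Q : List V} {v : V} (h : v ∉ Q) : tau Q v = v :=
  List.formPerm_apply_of_notMem h

omit [Inhabited V] in
theorem tau_inv_apply_of_not_mem {Q : List V} {v : V} (h : v ∉ Q) : (tau Q)⁻¹ v = v := by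
  rw [Perm.inv_eq_iff_eq, tau_apply_of_not_mem h]

theorem tau_lt {Q : List V} (h : Q ≠ []) : tau Q (lt Q) = hd Q := by
  obtain ⟨a, l, rfl⟩ := List.exists_cons_of_ne_nil h
  rw [lt_eq_getLast h]
  exact List.formPerm_apply_getLast a l

theorem tau_inv_hd {Q : List V} (h : Q ≠ []) : (tau Q)⁻¹ (hd Q) = lt Q := by
  rw [Perm.inv_eq_iff_eq, tau_lt h]

theorem tau_append' {L R : List V} (hL : L ≠ []) (hR : R ≠ []) :
    tau (L ++ R) = tau L * swap (lt L) (hd R) * tau R := by
  obtain ⟨c, r, rfl⟩ := List.exists_cons_of_ne_nil hR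
  induction L with
  | nil => exact absurd rfl hL
  | cons a l ih =>
    cases l with
    | nil => simp
    | cons b l =>
      have := ih (by simp)
      simp only [tau, List.cons_append, List.formPerm_cons_cons, lt_cons_cons, hd_cons] at this ⊢
      rw [this]
      simp only [mul_assoc]

theorem tau_append {L R : List V} (hL : L ≠ []) (hR : R ≠ []) (hn : (L ++ R).Nodup) :
    tau (L ++ R) = swap (hd L) (hd R) * tau L * tau R := by
  have h1 : hd R ∉ L := fun h => (List.nodup_append.1 hn).2.2 _ h _ (hd_mem hR) rfl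
  rw [tau_append' hL hR, mul_swap_eq_swap_mul, tau_lt hL, tau_apply_of_not_mem h1]

omit [Inhabited V] in
theorem tau_commute {L R : List V} (hn : (L ++ R).Nodup) : tau L * tau R = tau R * tau L := by
  refine Perm.Disjoint.commute fun v => ?_
  by_cases h : v ∈ L
  · exact Or.inr (tau_apply_of_not_mem fun h' => (List.nodup_append.1 hn).2.2 _ h _ h' rfl)
  · exact Or.inl (tau_apply_of_not_mem h)

omit [DecidableEq V] in
theorem lt_rotate {Q : List V} (h : Q ≠ []) : lt (Q.rotate 1) = hd Q := by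
  obtain ⟨a, l, rfl⟩ := List.exists_cons_of_ne_nil h
  rw [List.rotate_cons_succ, List.rotate_zero, lt_append _ (by simp)]
  rfl

omit [DecidableEq V] in
theorem Ef.out {X : PM V} {Q : List V} (h : Ef X Q) {v : V} (hv : v ∉ Q)
    (h' : ¬ (Odd Q.length ∧ v = X.1 (lt Q))) : X.1 v ∉ Q := fun h1 =>
  hv (by
    have := h.mem h1 fun ho h2 => h' ⟨ho, by rw [← h2, X.inv]⟩
    rwa [X.inv] at this)

theorem Inst.tau_apply {X Y : PM V} {Q : List V} (h : Inst Q X Y) (v : V) :
    (tau Q • X).1 v =
      if v ∈ Q then (if Odd Q.length ∧ v = hd Q then X.1 (lt Q) else Y.1 v)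
      else (if Odd Q.length ∧ v = X.1 (lt Q) then hd Q else X.1 v) := by
  obtain ⟨h0, hn, hX, hY⟩ := h
  split_ifs with h1 h2 h2
  · rw [h2.2, PM.smul_apply, tau_inv_hd h0, tau_apply_of_not_mem (hX.not_mem hn h2.1)]
  · refine ((Ef_tau hn).2 hX).congr hY (by simpa using h1) fun ho h3 => h2 ⟨?_, ?_⟩
    · simpa using ho
    · rwa [lt_rotate h0] at h3
  · rw [PM.smul_apply, tau_inv_apply_of_not_mem h1, h2.2, X.inv, tau_lt h0]
  · rw [PM.smul_apply, tau_inv_apply_of_not_mem h1, tau_apply_of_not_mem (hX.out h1 h2)]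

theorem Inst.tau_inv_apply {X Y : PM V} {Q : List V} (h : Inst Q X Y) (v : V) :
    ((tau Q)⁻¹ • Y).1 v =
      if v ∈ Q then (if Odd Q.length ∧ v = lt Q then Y.1 (hd Q) else X.1 v)
      else (if Odd Q.length ∧ v = Y.1 (hd Q) then lt Q else Y.1 v) := by
  have hf := h.flip
  obtain ⟨h0, hn, hX, hY⟩ := h
  have hn' : (Q.rotate 1).Nodup := List.nodup_rotate.2 hn
  split_ifs with h1 h2 h2
  · have h3 := hY.not_mem hn' (by simpa using h2.1)
    rw [lt_rotate h0, List.mem_rotate] at h3
    rw [h2.2, PM.smul_apply, inv_inv, tau_lt h0, tau_inv_apply_of_not_mem h3]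
  · exact hf.2.2.1.congr hX h1 fun ho h3 => h2 ⟨ho, h3⟩
  · rw [PM.smul_apply, inv_inv, tau_apply_of_not_mem h1, h2.2, Y.inv, tau_inv_hd h0]
  · have h3 := hY.out (v := v) (by simpa using h1) (by simpa [lt_rotate h0] using h2)
    rw [List.mem_rotate] at h3
    rw [PM.smul_apply, inv_inv, tau_apply_of_not_mem h1, tau_inv_apply_of_not_mem h3]

omit [DecidableEq V] in
theorem Alt.rtg {X Y : PM V} {Q : List V} (h : Alt X Y Q) {v : V} (hv : v ∈ Q) :
    Relation.ReflTransGen (Rel (X, Y)) (hd Q) v := by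
  induction Q generalizing X Y with
  | nil => simp at hv
  | cons a l ih =>
    rcases List.mem_cons.1 hv with rfl | hv
    · exact .refl
    · obtain ⟨b, l, rfl⟩ := List.exists_cons_of_ne_nil (List.ne_nil_of_mem hv)
      obtain ⟨h1, h2⟩ := Alt_cons_cons.1 h
      have h3 : Rel (Y, X) = Rel (X, Y) := by
        funext u v
        exact propext or_comm
      have := ih h2 hv
      rw [h3] at this
      exact .head (Or.inl h1.symm) this

omit [DecidableEq V] in
theorem Inst.reach {X Y : PM V} {Q : List V} (h : Inst Q X Y) (he : Even Q.length) {t : V}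
    (ht : t ∈ Q) (v : V) : Reach {t} (X, Y) v ↔ v ∈ Q := by
  have hne : ¬ Odd Q.length := Nat.not_odd_iff_even.2 he
  constructor
  · rintro ⟨s, rfl, hs⟩
    induction hs with
    | refl => exact ht
    | tail _ h1 ih =>
      rcases h1 with rfl | rfl
      · exact h.2.2.1.mem ih fun ho => absurd ho hne
      · exact List.mem_rotate.1 (h.2.2.2.mem (List.mem_rotate.2 ih) fun ho =>
          absurd (by simpa using ho) hne)
  · intro hv
    exact ⟨t, rfl, (rtg_symm (h.alt.rtg ht)).trans (h.alt.rtg hv)⟩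

theorem Inst.sw_fst {X Y : PM V} {Q : List V} (h : Inst Q X Y) (he : Even Q.length) {t : V}
    (ht : t ∈ Q) : (sw {t} (X, Y)).1 = tau Q • X := by
  have hne : ¬ Odd Q.length := Nat.not_odd_iff_even.2 he
  refine PM.ext fun v => ?_
  rw [h.tau_apply, Vale.Agent.P308.sw_fst]
  by_cases hv : v ∈ Q
  · simp [hv, hne, (h.reach he ht v).2 hv]
  · simp [hv, hne, mt (h.reach he ht v).1 hv]

theorem Inst.sw_snd {X Y : PM V} {Q : List V} (h : Inst Q X Y) (he : Even Q.length) {t : V}
    (ht : t ∈ Q) : (sw {t} (Y, X)).1 = (tau Q)⁻¹ • Y := by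
  have hne : ¬ Odd Q.length := Nat.not_odd_iff_even.2 he
  refine PM.ext fun v => ?_
  rw [h.tau_inv_apply, Vale.Agent.P308.sw_fst, Reach_swap]
  by_cases hv : v ∈ Q
  · simp [hv, hne, (h.reach he ht v).2 hv]
  · simp [hv, hne, mt (h.reach he ht v).1 hv]

end

variable [Fintype V]

theorem mem_arcs {Q : List V} : Q ∈ arcs V ↔ Q ≠ [] ∧ Q.Nodup := by
  simp [arcs, and_comm]

omit [DecidableEq V] in
theorem wt_pos {a : V → V → ℝ} (h : ∀ u v, u ≠ v → 0 < a u v) (X : PM V) : 0 < wt a X :=
  Finset.prod_pos fun v _ => h _ _ (X.ne v).symm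

omit [DecidableEq V] in
theorem wt_sw (a : V → V → ℝ) (T : Set V) (p : PM V × PM V) :
    wt a (sw T p).1 * wt a (sw T p).2 = wt a p.1 * wt a p.2 := by
  simp only [wt, ← Finset.prod_mul_distrib]
  refine Finset.prod_congr rfl fun v _ => ?_
  rw [sw_fst, sw_snd]
  split_ifs
  · exact mul_comm _ _
  · rfl

theorem prod_off (f g : V → ℝ) (S : Finset V) (h : ∀ v, v ∉ S → f v = g v) :
    (∏ v, f v) * ∏ v ∈ S, g v = (∏ v, g v) * ∏ v ∈ S, f v := by
  rw [← Finset.prod_mul_prod_compl S f, ← Finset.prod_mul_prod_compl S g,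
    Finset.prod_congr rfl fun v hv => h v (Finset.mem_compl.1 hv)]
  ring

theorem wt_swap {a : V → V → ℝ} (hs : ∀ u v, a u v = a v u) (X : PM V) {u v : V} (huv : u ≠ v)
    (h : X.1 u ≠ v) :
    wt a (swap u v • X) * (a u (X.1 u) * a v (X.1 v)) ^ 2
      = wt a X * (a v (X.1 u) * a u (X.1 v)) ^ 2 := by
  have h1 : X.1 v ≠ u := fun h1 => h (X.eq_iff.1 h1)
  have h2 : X.1 u ≠ X.1 v := fun h2 => huv (X.inj h2)
  have h3 := X.ne u
  have h4 := X.ne v
  have e1 : (swap u v • X).1 u = X.1 v := by
    rw [PM.smul_apply, swap_inv, swap_apply_left, swap_apply_of_ne_of_ne h1 h4]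
  have e2 : (swap u v • X).1 v = X.1 u := by
    rw [PM.smul_apply, swap_inv, swap_apply_right, swap_apply_of_ne_of_ne h3 h]
  have e3 : (swap u v • X).1 (X.1 u) = v := (PM.eq_iff _).1 e2
  have e4 : (swap u v • X).1 (X.1 v) = u := (PM.eq_iff _).1 e1
  have key := prod_off (fun w => a w ((swap u v • X).1 w)) (fun w => a w (X.1 w))
    {u, v, X.1 u, X.1 v} fun w hw => by
      simp only [Finset.mem_insert, Finset.mem_singleton, not_or] at hw
      rw [PM.smul_apply, swap_inv, swap_apply_of_ne_of_ne hw.1 hw.2.1, swap_apply_of_ne_of_ne]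
      · exact fun h5 => hw.2.2.1 (X.eq_iff.1 h5).symm
      · exact fun h5 => hw.2.2.2 (X.eq_iff.1 h5).symm
  rw [Finset.prod_insert (by simp [huv, h3.symm, h1.symm]),
    Finset.prod_insert (by simp [h.symm, h4.symm]), Finset.prod_pair h2,
    Finset.prod_insert (by simp [huv, h3.symm, h1.symm]),
    Finset.prod_insert (by simp [h.symm, h4.symm]), Finset.prod_pair h2] at key
  simp only [e1, e2, e3, e4, PM.inv] at key
  rw [hs (X.1 u) u, hs (X.1 v) v, hs (X.1 u) v, hs (X.1 v) u] at key
  unfold wt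
  linear_combination key

theorem Inst.wt_even {a : V → V → ℝ} {X Y : PM V} {Q : List V} (h : Inst Q X Y)
    (he : Even Q.length) :
    wt a ((tau Q)⁻¹ • Y) * wt a (tau Q • X) = wt a X * wt a Y := by
  obtain ⟨d, -⟩ := List.exists_mem_of_ne_nil Q h.1
  have : Inhabited V := ⟨d⟩
  have hne : ¬ Odd Q.length := Nat.not_odd_iff_even.2 he
  simp only [wt, ← Finset.prod_mul_distrib]
  refine Finset.prod_congr rfl fun v _ => ?_
  rw [h.tau_apply, h.tau_inv_apply]
  by_cases hv : v ∈ Q
  · simp [hv, hne]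
  · simp [hv, hne, mul_comm]

variable [Inhabited V]

theorem Inst.wt_odd {a : V → V → ℝ} (hs : ∀ u v, a u v = a v u) {X Y : PM V} {Q : List V}
    (h : Inst Q X Y) (ho : Odd Q.length) :
    wt a ((tau Q)⁻¹ • Y) * wt a (tau Q • X) *
        (a (lt Q) (X.1 (lt Q)) * a (hd Q) (Y.1 (hd Q))) ^ 2
      = wt a X * wt a Y * (a (hd Q) (X.1 (lt Q)) * a (lt Q) (Y.1 (hd Q))) ^ 2 := by
  have h1 := hd_mem h.1
  have h2 := lt_mem h.1
  have h3 := h.2.2.1.not_mem h.2.1 ho
  have h4 := h.2.2.2.not_mem (List.nodup_rotate.2 h.2.1) (by simpa using ho)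
  rw [lt_rotate h.1, List.mem_rotate] at h4
  have k1 := prod_off (fun w => a w ((tau Q • X).1 w))
    (fun w => a w (if w ∈ Q then Y.1 w else X.1 w)) {hd Q, X.1 (lt Q)} fun w hw => by
      simp only [Finset.mem_insert, Finset.mem_singleton, not_or] at hw
      rw [h.tau_apply]
      simp [hw.1, hw.2]
  have k2 := prod_off (fun w => a w (((tau Q)⁻¹ • Y).1 w))
    (fun w => a w (if w ∈ Q then X.1 w else Y.1 w)) {lt Q, Y.1 (hd Q)} fun w hw => by
      simp only [Finset.mem_insert, Finset.mem_singleton, not_or] at hw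
      rw [h.tau_inv_apply]
      simp [hw.1, hw.2]
  have k3 : (∏ w, a w (if w ∈ Q then Y.1 w else X.1 w)) *
      ∏ w, a w (if w ∈ Q then X.1 w else Y.1 w) = wt a X * wt a Y := by
    simp only [wt, ← Finset.prod_mul_distrib]
    refine Finset.prod_congr rfl fun v _ => ?_
    split_ifs
    · exact mul_comm _ _
    · rfl
  have n1 : hd Q ≠ X.1 (lt Q) := fun h5 => h3 (h5 ▸ h1)
  have n2 : lt Q ≠ Y.1 (hd Q) := fun h5 => h4 (h5 ▸ h2)
  rw [Finset.prod_pair n1, Finset.prod_pair n1] at k1
  rw [Finset.prod_pair n2, Finset.prod_pair n2] at k2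
  simp only [h.tau_apply, h.tau_inv_apply, h1, h2, h3, h4, ho, if_true, if_false, true_and,
    PM.inv] at k1 k2
  rw [hs (X.1 (lt Q)) (lt Q), hs (X.1 (lt Q)) (hd Q)] at k1
  rw [hs (Y.1 (hd Q)) (hd Q), hs (Y.1 (hd Q)) (lt Q)] at k2
  rw [← k3]
  simp only [wt, h.tau_apply, h.tau_inv_apply, ho, true_and]
  have := congrArg₂ (· * ·) k1 k2
  linear_combination this

open Classical in
theorem card_inst (X Y : PM V) :
    ∑ Q ∈ arcs V, (if Inst Q X Y then (1 : ℝ) else 0) ≤ (Fintype.card V : ℝ) ^ 2 := by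
  rw [Finset.sum_boole]
  have : ((arcs V).filter fun Q => Inst Q X Y).card
      ≤ ((univ : Finset V) ×ˢ range (Fintype.card V)).card := by
    refine Finset.card_le_card_of_injOn (fun Q => (hd Q, Q.length - 1)) (fun Q hQ => ?_) ?_
    · have h := (Finset.mem_filter.1 (Finset.mem_coe.1 hQ)).2
      have h1 := h.2.1.length_le_card
      have h2 := List.length_pos_of_ne_nil h.1
      simp only [Finset.coe_product, Set.mem_prod, Finset.mem_coe, mem_univ, mem_range, true_and]
      omega
    · intro Q hQ Q' hQ' he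
      have h := (Finset.mem_filter.1 (Finset.mem_coe.1 hQ)).2
      have h' := (Finset.mem_filter.1 (Finset.mem_coe.1 hQ')).2
      have h2 := List.length_pos_of_ne_nil h.1
      have h2' := List.length_pos_of_ne_nil h'.1
      simp only [Prod.mk.injEq] at he
      rw [h.alt.eq_walkL, h'.alt.eq_walkL, he.1, show Q.length = Q'.length by omega]
  rw [Finset.card_product, Finset.card_univ, Finset.card_range] at this
  rw [sq]
  exact_mod_cast this

theorem exists_closed (X Y : PM V) (a : V) :
    ∃ Q, hd Q = a ∧ Inst Q X Y ∧ Even Q.length := by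
  classical
  obtain ⟨Q, hQ, hmax⟩ := Finset.exists_max_image
    ((arcs V).filter fun Q => hd Q = a ∧ Alt X Y Q) List.length
    ⟨[a], Finset.mem_filter.2 ⟨mem_arcs.2 (by simp), rfl, trivial, trivial⟩⟩
  simp only [Finset.mem_filter, mem_arcs] at hQ hmax
  obtain ⟨⟨h0, hn⟩, h1, h2⟩ := hQ
  obtain ⟨b, l, rfl⟩ := List.exists_cons_of_ne_nil h0
  have ext : ∀ z, z ∉ b :: l → ¬ Alt X Y (b :: l ++ [z]) := fun z hz h3 => by
    have := hmax (b :: l ++ [z]) ⟨⟨by simp, List.nodup_append.2 ⟨hn, by simp, fun x hx y hy => by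
      rw [List.mem_singleton.1 hy]; rintro rfl; exact hz hx⟩⟩, h1, h3⟩
    simp at this
  rcases Nat.even_or_odd (b :: l).length with he | ho
  · refine ⟨_, h1, ⟨h0, hn, h2.1, (Ef_rotate h0).2 ⟨h2.2, fun _ => ?_⟩⟩, he⟩
    have ho : Odd l.length := by simpa [Nat.even_add_one] using he
    have hl : l ≠ [] := by rintro rfl; simp at ho
    have h3 := Ef.not_mem h2.2 (List.nodup_cons.1 hn).2 ho
    rw [lt_cons b hl, hd_cons, Y.eq_iff]
    by_contra h4
    refine ext (Y.1 (lt l)) (by simpa [h4] using h3) ⟨(Ef_append_even he).2 ⟨h2.1, trivial⟩, ?_⟩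
    exact (Ef_append_odd ho (by simp)).2 ⟨h2.2, rfl, trivial⟩
  · have he : Even l.length := by simpa [Nat.odd_add_one] using ho
    exact absurd ⟨(Ef_append_odd ho (by simp)).2 ⟨h2.1, rfl, trivial⟩,
      (Ef_append_even he).2 ⟨h2.2, trivial⟩⟩ (ext _ (h2.1.not_mem hn ho))

end Vale.Agent.P308
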