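import Vale.Agent.P308.Prog
import Vale.Agent.P308.PML
import Vale.Agent.P308.Levels

/-! The program on lists simulates the functional algorithm. -/

namespace Vale.Agent.P308

open Vale.Agent.P317

variable {n : ℕ}

def encX (X : PM (Fin n)) : List ℕ := List.ofFn fun v => (X.1 v).val

def encM (M : Mat n) : List (List ℕ) := List.ofFn fun u => List.ofFn fun v => M u v

def encPop {l : ℕ} (x : Pop n l) : List (List ℕ) := List.ofFn fun i => encX (x i)

def encA (A : Acc n) : AccP := (A.1.map encM, A.2)

theorem getD_ofFn {β : Type} {m : ℕ} (f : Fin m → β) (i : Fin m) (d : β) :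
    (List.ofFn f).getD i d = f i := by
  simp [List.getD_eq_getElem?_getD]

theorem vw_encX (X : PM (Fin n)) (v : Fin n) : vw (encX X) v = (X.1 v).val := getD_ofFn _ _ _

theorem gm_encM (k : Mat n) (u v : Fin n) : gm (encM k) u v = k u v := by
  unfold gm encM
  rw [getD_ofFn, getD_ofFn]

theorem gm_H (H : List (Mat n)) (i : ℕ) (u v : Fin n) :
    gm ((H.map encM).getD i []) u v = H.getD i 0 u v := by
  by_cases h : i < H.length
  · rw [List.getD_eq_getElem _ _ (by simpa using h), List.getD_eq_getElem _ _ h, List.getElem_map,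
      gm_encM]
  · rw [List.getD_eq_default _ _ (by simpa using h), List.getD_eq_default _ _ (by simpa using h)]
    simp [gm]

theorem range_map_ofFn {β : Type} {m : ℕ} (f : ℕ → β) (g : Fin m → β)
    (h : ∀ v : Fin m, f v = g v) : (List.range m).map f = List.ofFn g :=
  List.ext_getElem (by simp) fun i h1 h2 => by simpa using h ⟨i, by simpa using h1⟩

theorem rn_eq {c : Ctx} (hc : cn c = n) : rn c = List.range n := by rw [← hc]; rfl

theorem tabN_eq {c : Ctx} (hc : cn c = n) {g : ℕ → ℕ} {X : PM (Fin n)}
    (h : ∀ v : Fin n, g v = (X.1 v).val) : tabN c g = encX X := by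
  unfold tabN encX
  rw [rn_eq hc, hc]
  exact range_map_ofFn _ _ fun v => by rw [h, min_eq_left (X.1 v).isLt.le]

theorem tabM_eq {c : Ctx} (hc : cn c = n) {g : ℕ → ℕ → ℕ} {M : Mat n}
    (h : ∀ u v : Fin n, g u v = M u v) : tabM c g = encM M := by
  unfold tabM encM
  rw [rn_eq hc]
  exact range_map_ofFn _ _ fun u => range_map_ofFn _ _ fun v => h u v

theorem sum_rn {c : Ctx} (hc : cn c = n) {f : ℕ → ℕ} {g : Fin n → ℕ} (h : ∀ v : Fin n, f v = g v) :
    ((rn c).map f).sum = ∑ v, g v := by
  rw [rn_eq hc, range_map_ofFn f g h, List.sum_ofFn]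

theorem beq_dec (p q : ℕ) : Nat.beq p q = decide (p = q) := by rw [Bool.eq_iff_iff]; simp

theorem blt_dec (p q : ℕ) : Nat.blt p q = decide (p < q) := by rw [Bool.eq_iff_iff]; simp

theorem ble_dec (p q : ℕ) : Nat.ble p q = decide (p ≤ q) := by rw [Bool.eq_iff_iff]; simp

theorem walk_fold (X Y : PM (Fin n)) (m : ℕ) : ∀ (i : ℕ) (a : Fin n) (acc : List ℕ),
    ((List.range' i m).foldl (fun (s : ℕ × List ℕ) i =>
      (vw (bif Nat.beq (i % 2) 0 then encX X else encX Y) s.1, s.1 :: s.2)) (a, acc)).2 =
      ((walkL (if i % 2 = 0 then X else Y) (if i % 2 = 0 then Y else X) a m).map Fin.val).reverse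
        ++ acc := by
  induction m with
  | zero => intro i a acc; rfl
  | succ m ih =>
    intro i a acc
    rw [List.range'_succ, List.foldl_cons]
    by_cases h : i % 2 = 0
    · have h' : ¬ (i + 1) % 2 = 0 := by omega
      simp only [h, Nat.beq_refl, cond_true, vw_encX, ih, if_pos, h', if_false, walkL,
        List.map_cons, List.reverse_cons, List.append_assoc, List.singleton_append]
    · have h' : (i + 1) % 2 = 0 := by omega
      simp only [beq_dec, h, decide_false, cond_false, vw_encX, if_false, walkL,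
        List.map_cons, List.reverse_cons, List.append_assoc, List.singleton_append]
      have := ih (i + 1) (Y.1 a) (a.val :: acc)
      simp only [beq_dec, h', if_true] at this
      exact this

theorem walkP_enc {c : Ctx} (hc : cn c = n) (X Y : PM (Fin n)) (a : Fin n) {b : ℕ} (hb : b < n) :
    walkP c (encX X) (encX Y) a b = (walkL X Y a (b + 1)).map Fin.val := by
  have e : ((rn c).filter fun i => Nat.ble i b) = List.range' 0 (b + 1) := by
    obtain ⟨m, rfl⟩ : ∃ m, n = b + 1 + m := ⟨n - (b + 1), by omega⟩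
    rw [rn_eq hc, List.range_add, List.filter_append, List.filter_eq_self.2, List.filter_eq_nil_iff.2,
      List.append_nil, List.range_eq_range']
    · intro i hi
      obtain ⟨j, _, rfl⟩ := List.mem_map.1 hi
      simp; omega
    · intro i hi
      simp at hi ⊢; omega
  unfold walkP
  rw [e, walk_fold]
  simp

theorem ndpP_enc {c : Ctx} (hc : cn c = n) (Q : List (Fin n)) :
    ndpP c (Q.map Fin.val) = decide Q.Nodup := by
  have e : ∀ v : Fin n, ((Q.map Fin.val).filter fun w => Nat.beq w v).length = Q.count v := by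
    intro v
    rw [List.filter_map, List.length_map, List.count_eq_length_filter]
    refine congrArg _ (List.filter_congr fun w _ => ?_)
    rw [Bool.eq_iff_iff]
    simp [Fin.ext_iff]
  rw [Bool.eq_iff_iff, decide_eq_true_iff, List.nodup_iff_count_le_one]
  unfold ndpP
  rw [List.isEmpty_iff, List.filter_eq_nil_iff, rn_eq hc]
  constructor
  · intro h v
    have := h v (by simp)
    rw [e, Nat.blt_eq] at this
    omega
  · intro h v hv
    have := h ⟨v, by simpa using hv⟩
    rw [← e] at this
    rw [Nat.blt_eq]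
    exact not_lt.2 this

theorem nxtP_enc {Q : List (Fin n)} (hQ : Q.Nodup) (v : Fin n) :
    nxtP (Q.map Fin.val) v = (Q.formPerm v).val := by
  have hv : ∀ (i : ℕ) (h : i < Q.length), vw (Q.map Fin.val) i = (Q[i]).val := by
    intro i h
    unfold vw
    rw [List.getD_eq_getElem _ _ (by simpa using h), List.getElem_map]
  by_cases h : v ∈ Q
  · obtain ⟨i, hi, rfl⟩ := List.getElem_of_mem h
    have e : idxP (Q.map Fin.val) (Q[i]).val = i := by
      unfold idxP
      have m : i ∈ (List.range (Q.map Fin.val).length).filter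
          fun j => Nat.beq (vw (Q.map Fin.val) j) (Q[i]).val := by
        rw [List.mem_filter, hv i hi]
        simpa using hi
      rcases hh : (List.range (Q.map Fin.val).length).filter
          fun j => Nat.beq (vw (Q.map Fin.val) j) (Q[i]).val with _ | ⟨j, r⟩
      · rw [hh] at m; simp at m
      · have m2 : j ∈ (List.range (Q.map Fin.val).length).filter
            fun j => Nat.beq (vw (Q.map Fin.val) j) (Q[i]).val := by rw [hh]; simp
        rw [List.mem_filter] at m2
        have hj : j < Q.length := by simpa using m2.1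
        have := m2.2
        rw [hv j hj, Nat.beq_eq, ← Fin.ext_iff] at this
        exact (hQ.getElem_inj_iff).1 this
    unfold nxtP
    rw [e, List.length_map, blt_dec, decide_eq_true hi, cond_true,
      hv _ (Nat.mod_lt _ (by omega)), List.formPerm_apply_getElem Q hQ i hi]
  · have e : idxP (Q.map Fin.val) v = Q.length := by
      unfold idxP
      rw [List.filter_eq_nil_iff.2, List.length_map]
      · rfl
      · intro j hj
        have hj' : j < Q.length := by simpa using hj
        rw [hv j hj', Nat.beq_eq, ← Fin.ext_iff]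
        rintro rfl
        exact h (List.getElem_mem _)
    unfold nxtP
    rw [e, List.length_map, blt_dec, decide_eq_false (lt_irrefl _), cond_false,
      List.formPerm_apply_of_notMem h]

theorem arcQ_enc {c : Ctx} (hc : cn c = n) (X Y : PM (Fin n)) (a : Fin n) (b : ℕ) :
    arcQ c a ((walkL X Y a (b + 1)).map Fin.val) (encX X) (encX Y) =
      (encX (arcMv a (b + 1) (X, Y)).1, encX (arcMv a (b + 1) (X, Y)).2) := by
  have : Inhabited (Fin n) := ⟨a⟩
  have h0 : hd (walkL X Y a (b + 1)) = a := rfl
  have h1 : walkL X Y a (b + 1) ≠ [] := by simp [walkL]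
  have h2 := alt_walkL X Y a (b + 1)
  unfold arcQ arcMv
  dsimp only
  generalize walkL X Y a (b + 1) = Q at h0 h1 h2
  have h3 : (Q.map Fin.val).reverse.headD 0 = (lt Q).val := by
    rcases List.eq_nil_or_concat Q with h | ⟨L, x, h⟩
    · exact absurd h h1
    · simp [h, lt]
  have h4 : (ndpP c (Q.map Fin.val) && (Nat.beq ((Q.map Fin.val).length % 2) 1 ||
      Nat.beq (vw (encX Y) a) ((Q.map Fin.val).reverse.headD 0))) = true ↔ Inst Q X Y := by
    rw [ndpP_enc hc, h3, vw_encX, List.length_map, Inst, Ef_rotate h1, h0]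
    simp only [Bool.and_eq_true, decide_eq_true_eq, Bool.or_eq_true, Nat.beq_eq, ← Fin.ext_iff,
      Nat.even_iff]
    constructor
    · rintro ⟨a1, a2⟩
      exact ⟨h1, a1, h2.1, h2.2, fun h => a2.resolve_left (by omega)⟩
    · rintro ⟨-, a1, -, -, a2⟩
      refine ⟨a1, ?_⟩
      by_cases h : Q.length % 2 = 1
      · exact Or.inl h
      · exact Or.inr (a2 (by omega))
  by_cases h : Inst Q X Y
  · rw [h4.2 h, if_pos h, cond_true]
    have hn := h.2.1
    have hr : ∀ v : Fin n, nxtP (Q.map Fin.val).reverse v = (Q.formPerm⁻¹ v).val := fun v => by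
      rw [← List.map_reverse, nxtP_enc (List.nodup_reverse.2 hn), List.formPerm_reverse]
    refine Prod.ext (tabN_eq hc fun v => ?_) (tabN_eq hc fun v => ?_)
    · rw [nxtP_enc hn, vw_encX, hr]
      rfl
    · rw [hr, vw_encX, nxtP_enc hn]
      rfl
  · rw [Bool.eq_false_iff.2 fun hh => h (h4.1 hh), if_neg h, cond_false]

theorem spP_enc (u v w : Fin n) : spP u v w = (Equiv.swap u v w).val := by
  unfold spP
  simp only [beq_dec, ← Fin.ext_iff, Equiv.swap_apply_def, Bool.cond_decide]
  split_ifs <;> rfl

theorem swapP_enc {c : Ctx} (hc : cn c = n) (u v : Fin n) (X : PM (Fin n)) :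
    swapP c u v (encX X) = encX (Equiv.swap u v • X) :=
  tabN_eq hc fun w => by
    rw [spP_enc, vw_encX, spP_enc, PM.smul_apply, Equiv.swap_inv]

theorem mvP_enc (c : Ctx) (hc : cn c = n) (t a b : ℕ) (X Y : PM (Fin n)) :
    mvP c t a b (encX X) (encX Y) = (encX (mvN t a b (X, Y)).1, encX (mvN t a b (X, Y)).2) := by
  unfold mvP mvN
  simp only [blt_dec, beq_dec, hc, ← Bool.decide_and, Bool.cond_decide]
  by_cases h : t < 2 ∧ a < n ∧ b < n
  · rw [if_pos h, dif_pos h]
    by_cases h0 : t = 0
    · rw [if_pos h0, if_pos h0]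
      have e := walkP_enc hc X Y ⟨a, h.2.1⟩ h.2.2
      have e2 := arcQ_enc hc X Y ⟨a, h.2.1⟩ b
      rw [← e] at e2
      exact e2
    · rw [if_neg h0, if_neg h0]
      exact Prod.ext (swapP_enc hc ⟨a, h.2.1⟩ ⟨b, h.2.2⟩ X) rfl
  · rw [if_neg h, dif_neg h]

theorem enP_enc {c : Ctx} (hc : cn c = n) (k : Mat n) (X : PM (Fin n)) :
    enP c (encM k) (encX X) = en k X :=
  sum_rn hc fun v => by rw [vw_encX, gm_encM]

theorem getD_encPop {l : ℕ} (x : Pop n l) {i : ℕ} (h : i < pN l) :
    (encPop x).getD i [] = encX (x ⟨i, h⟩) := getD_ofFn _ (⟨i, h⟩ : Fin (pN l)) _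

theorem setP_enc {c : Ctx} (hc : cn c = n) (x : Pop n (cl c)) {i : ℕ} (h : i < pN (cl c))
    (X : PM (Fin n)) :
    setP c (encPop x) i (encX X) = encPop (Function.update x ⟨i, h⟩ X) := by
  unfold setP
  refine range_map_ofFn _ _ fun s => tabN_eq hc fun v => ?_
  rw [beq_dec, Bool.cond_decide]
  split_ifs with hs
  · rw [show s = ⟨i, h⟩ from Fin.ext hs, Function.update_self, vw_encX]
  · rw [getD_encPop x s.isLt, vw_encX, Function.update_of_ne fun hh => hs (congrArg Fin.val hh)]

theorem stepFP_enc {c : Ctx} (hc : cn c = n) (k : Mat n) (x : Pop n (cl c)) (i j t a b u : ℕ) :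
    stepFP c (encM k) (encPop x) i j t a b u = encPop (stepF (cl c) k x i j t a b u) := by
  unfold stepFP stepF
  simp only [blt_dec, beq_dec, ← decide_not, ← Bool.decide_and, Bool.cond_decide]
  by_cases h : i < pN (cl c) ∧ j < pN (cl c) ∧ i ≠ j
  · rw [if_pos h, dif_pos h]
    unfold accQ
    rw [getD_encPop x h.1, getD_encPop x h.2.1, mvP_enc c hc]
    simp only [enP_enc hc, blt_dec, Bool.cond_decide]
    split_ifs
    · rw [setP_enc hc x h.1, setP_enc hc _ h.2.1]
    · rfl
  · rw [if_neg h, dif_neg h]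

theorem sim_refl {α : Type} (t : Rand α) : Sim (fun a b => a = b) t t := by
  induction t with
  | ret a => rfl
  | flip s t ihs iht => exact ⟨ihs, iht⟩

theorem sim_bits {α β : Type} {R : α → β → Prop} (k : ℕ) {f : ℕ → Rand α} {g : ℕ → Rand β}
    (h : ∀ r, Sim R (f r) (g r)) : Sim R ((bits k).bind f) ((bits k).bind g) :=
  (sim_refl _).bind fun a _ hab => hab ▸ h a

theorem sim_iterIdx {α β : Type} {R : α → β → Prop} {f : ℕ → α → Rand α} {g : ℕ → β → Rand β}
    (k : ℕ) {a : α} {b : β} (h0 : R a b)
    (hstep : ∀ i, i < k → ∀ a b, R a b → Sim R (f i a) (g i b)) :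
    Sim R (iterIdx f k a) (iterIdx g k b) := by
  induction k with
  | zero => exact h0
  | succ k ih =>
    exact (ih fun i hi => hstep i (Nat.lt_succ_of_lt hi)).bind (hstep k (Nat.lt_succ_self k))

theorem stepP_sim (c : Ctx) (hc : cn c = n) (k : Mat n) (x : Pop n (cl c)) :
    Sim (fun a b => a = encPop b) (stepP c (encM k) (encPop x)) (stepR (cl c) k x) :=
  sim_bits _ fun i => sim_bits _ fun j => sim_bits _ fun t => sim_bits _ fun a =>
    sim_bits _ fun b => sim_bits _ fun u => stepFP_enc hc k x i j t a b u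

theorem x0P_enc {c : Ctx} (hc : cn c = n) (hn : Even n) : x0P c = encX (x0 hn) :=
  tabN_eq hc fun v => by
    rw [beq_dec, Bool.cond_decide]
    rfl

theorem initP_sim {c : Ctx} (hc : cn c = n) (hn : Even n) :
    Sim (fun a b => a = encX b) (initP c) (initR (cl c) hn) := by
  unfold initP initR
  rw [hc]
  refine sim_iterIdx _ (x0P_enc hc hn) fun i hi a b hab => sim_bits _ fun u => ?_
  have h1 : 2 * i < n := by omega
  have h2 : u % (2 * i + 1) < n := by
    have := Nat.mod_lt u (show 0 < 2 * i + 1 by omega)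
    omega
  rw [Sim_ret, hab, swapN, dif_pos ⟨h1, h2⟩]
  exact swapP_enc hc ⟨_, h1⟩ ⟨_, h2⟩ b

theorem popP_sim {c : Ctx} (hc : cn c = n) (hn : Even n) :
    Sim (fun a b => a = encPop b) (popP c) (popR (cl c) hn) := by
  unfold popP popR
  refine sim_iterIdx _ (range_map_ofFn _ _ fun _ => x0P_enc hc hn) fun t ht a b hab =>
    (initP_sim hc hn).bind fun X Y hXY => ?_
  rw [Sim_ret, hab, hXY, dif_pos ht, setP_enc hc b ht]

theorem KKP_enc (H : List (Mat n)) (j : ℕ) (u v : Fin n) :
    KKP (H.map encM) j u v = KK H j u v := by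
  unfold KKP KK
  simp only [gm_H, List.length_map]
  have e : ∀ (m : ℕ) (f : ℕ → ℕ), (((List.range m).filter fun i => Nat.blt i j).map f).sum =
      ∑ i ∈ (Finset.range m).filter (fun i => i < j), f i := by
    intro m f
    induction m with
    | zero => rfl
    | succ m ih =>
      rw [List.range_succ, List.filter_append, List.map_append, List.sum_append, ih,
        Finset.sum_filter, Finset.sum_filter, Finset.sum_range_succ]
      by_cases h : m < j <;> simp [blt_dec, h]
  rw [e]
  refine Finset.sum_subset (fun i hi => Finset.mem_range.2 (Finset.mem_filter.1 hi).2)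
    fun i hi hi' => ?_
  rw [List.getD_eq_default]
  · rfl
  · by_contra h
    exact hi' (Finset.mem_filter.2 ⟨Finset.mem_range.2 (by omega), Finset.mem_range.1 hi⟩)

theorem kkP_enc {c : Ctx} (hc : cn c = n) (H : List (Mat n)) (s : ℕ) :
    kkP c (H.map encM) s = encM (kk (cl c) H s) :=
  tabM_eq hc fun u v => by rw [KKP_enc, gm_H, kk_closed]

theorem sampleP_sim (c : Ctx) (hc : cn c = n) (hn : Even n) (H : List (Mat n)) (j : ℕ)
    (hj : j ≤ pJ (cl c)) :
    Sim (fun a b => a = encX b) (sampleP c (H.map encM) j) (sampleR (cl c) hn H j) := by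
  unfold sampleP sampleR
  rw [min_eq_left hj]
  refine (popP_sim hc hn).bind fun x y hxy => Sim.bind (R := fun a b => a = encPop b)
    (sim_iterIdx _ hxy fun s _ a b hab => Sim.iter _ hab fun a b hab => ?_) fun a b hab => ?_
  · rw [hab, kkP_enc hc]
    exact stepP_sim c hc _ b
  · rw [Sim_ret, hab, getD_encPop b (Nat.two_pow_pos _)]
    exact tabN_eq hc fun v => vw_encX _ v

theorem cntP_enc (L : List (PM (Fin n))) (u v : Fin n) : cntP (L.map encX) u v = cnt L u v := by
  unfold cntP cnt
  rw [List.filter_map, List.length_map]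
  refine congrArg _ (List.filter_congr fun X _ => ?_)
  simp only [Function.comp, vw_encX, beq_dec, Fin.ext_iff]

theorem sum1P_enc {c : Ctx} (hc : cn c = n) (H : List (Mat n)) (j : ℕ) (L : List (PM (Fin n))) :
    sum1P c (H.map encM) j (L.map encX) = sum1 (cl c) H j L := by
  unfold sum1P sum1
  rw [List.map_map]
  refine congrArg _ (List.map_congr_left fun X _ => ?_)
  simp only [Function.comp, e1P, e1]
  rw [sum_rn hc fun v => by rw [vw_encX, gm_H, hc]]

theorem sum2P_enc {c : Ctx} (hc : cn c = n) (adj : Fin n → Fin n → Bool)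
    (hadj : ∀ u v : Fin n, ga c u v = adj u v) (H : List (Mat n)) (j : ℕ)
    (L : List (PM (Fin n))) : sum2P c (H.map encM) j (L.map encX) = sum2 (cl c) adj H j L := by
  unfold sum2P sum2
  rw [List.map_map]
  refine congrArg _ (List.map_congr_left fun X _ => ?_)
  have e : ((rn c).filter fun v => !ga c v (vw (encX X) v)).isEmpty =
      decide (∀ v, adj v (X.1 v) = true) := by
    rw [Bool.eq_iff_iff, decide_eq_true_iff, List.isEmpty_iff, List.filter_eq_nil_iff, rn_eq hc]
    constructor
    · intro h v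
      have := h v (by simp)
      rw [vw_encX, hadj] at this
      simpa using this
    · intro h v hv
      have h1 := h ⟨v, by simpa using hv⟩
      rw [← hadj, ← vw_encX] at h1
      simpa using h1
  simp only [Function.comp, e2P, e2, e, Bool.cond_decide]
  rw [sum_rn hc fun v => by rw [vw_encX, KKP_enc, hc]]

theorem nextP_enc {c : Ctx} (hc : cn c = n) (adj : Fin n → Fin n → Bool)
    (hadj : ∀ u v : Fin n, ga c u v = adj u v) (H : List (Mat n)) (j : ℕ)
    (L : List (PM (Fin n))) : nextP c (H.map encM) j (L.map encX) = encM (nextM (cl c) adj H j L) :=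
  tabM_eq hc fun u v => by
    have e : (!adj u v) = decide (adj u v = false) := by cases adj u v <;> rfl
    simp only [cntP_enc, KKP_enc, hadj, hc, nextM, blt_dec, ble_dec, e, ← Bool.decide_or,
      ← Bool.decide_and, Bool.cond_decide]

theorem roundFP_enc (c : Ctx) (hc : cn c = n) (adj : Fin n → Fin n → Bool)
    (hadj : ∀ u v : Fin n, ga c u v = adj u v) (j : ℕ) (A : Acc n) (L : List (PM (Fin n))) :
    roundFP c j (encA A) (L.map encX) = encA (roundF (cl c) adj j A L) := by
  have e : (!A.2.2.2.1) = decide (A.2.2.2.1 = false) := by cases A.2.2.2.1 <;> rfl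
  unfold roundFP roundF encA
  simp only [nextP_enc hc adj hadj, sum1P_enc hc, sum2P_enc hc adj hadj, hc, List.map_append,
    List.map_cons, List.map_nil, ble_dec, e, ← Bool.decide_and, Bool.cond_decide]

theorem algP_sim (c : Ctx) (hc : cn c = n) (hn : Even n) (adj : Fin n → Fin n → Bool)
    (hadj : ∀ u v : Fin n, ga c u v = adj u v) :
    Sim (fun a b => a = b) (algP c) (algR (cl c) hn adj) := by
  unfold algP algR
  refine Sim.bind (R := fun a b => a = encA b) (sim_iterIdx _ ?_ fun j hj a b hab => ?_)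
    fun a b hab => ?_
  · unfold acc0P acc0 encA
    rw [tabM_eq hc (M := fun _ _ => n) fun _ _ => hc, hc]
    rfl
  · subst hab
    unfold roundP roundR samplesP samplesR
    refine Sim.bind (R := fun a b => a = List.map encX b) (Sim.iter _ rfl fun a' b' hab => ?_)
      fun a' b' hab => ?_
    · refine (sampleP_sim c hc hn b.1 (j + 1) hj).bind fun X Y hXY => ?_
      rw [Sim_ret, hab, hXY, List.map_cons]
    · rw [Sim_ret, hab, roundFP_enc c hc adj hadj]
  · subst hab
    rfl

end Vale.Agent.P308
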