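import Vale.Agent.P308.Stage
import Vale.Agent.P308.ProgSim
import Vale.Agent.P308.ProgCT

/-! Assembly. -/

namespace Vale.Agent.P308

open Vale.Agent.P317 Vale.Agent.Lib.TM

/-- The input as lists and numbers. -/
noncomputable def raw (q : Query) : Raw :=
  (q.rows, (q.ε.num.toNat, q.ε.den), (q.δ.num.toNat, q.δ.den))

theorem code_bool (b : Bool) : (enc b).code = codeBool b := by cases b <;> rfl

theorem code_pair {β γ : Type} [Enc β] [Enc γ] (x : β) (y : γ) :
    (enc (x, y)).code = codePair (enc x).code (enc y).code := rfl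

theorem code_list {β : Type} [Enc β] (l : List β) (f : β → List Bool)
    (h : ∀ x, (enc x).code = f x) : (enc l).code = codeList f l := by
  induction l with
  | nil => rfl
  | cons x l ih => simp [enc_cons, Tr.code, codeList, h, ih]

theorem code_nat (k : ℕ) : (enc k).code = codeNat k := code_list _ _ code_bool

theorem code_input (p : Query × List Bool) : (enc (raw p.1, p.2)).code = codeInput p := by
  simp only [raw, code_pair, code_nat, code_list _ _ code_bool,
    code_list _ _ fun x => code_list x _ code_bool]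
  rfl

theorem export_full : ∃ M : Turing.TM2ComputableInPolyTime codeInput codeNat
    fun p : Query × List Bool => fullP (raw p.1, p.2), ∀ k, Finite (M.tm.Γ k) := by
  obtain ⟨M, C, h1, hM⟩ := ct_fullP.export
  refine ⟨{ toTM2ComputableAux := M.toTM2ComputableAux
            time := (4 * Polynomial.X + 4) ^ C
            outputsFun := fun a => ?_ }, h1⟩
  have h1 := M.outputsFun (raw a.1, a.2)
  rw [code_input, code_nat] at h1
  refine { h1 with steps_le_m := h1.steps_le_m.trans ((hM _).trans ?_) }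
  simp only [bd, lg, zero_add, pow_one, Polynomial.eval_pow, Polynomial.eval_add,
    Polynomial.eval_mul, Polynomial.eval_ofNat, Polynomial.eval_X]
  rw [mul_comm, pow_mul]
  refine Nat.pow_le_pow_left ?_ _
  have := two_pow_size_le (codeInput a).length
  rw [pow_succ]
  omega

theorem rat_toNat_cast (q : ℚ) (hq : 0 < q) : ((q.num.toNat : ℕ) : ℝ) = (q : ℝ) * q.den := by
  have h1 : ((q.num.toNat : ℕ) : ℤ) = q.num := Int.toNat_of_nonneg (Rat.num_pos.2 hq).le
  have h2 : ((q.num.toNat : ℕ) : ℝ) = (q.num : ℝ) := by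
    exact_mod_cast congrArg (Int.cast : ℤ → ℝ) h1
  rw [h2, Rat.cast_def]
  have : (q.den : ℝ) ≠ 0 := by exact_mod_cast q.den_nz
  field_simp

theorem rat_div_le (q : ℚ) (hq : 0 < q) : ((q.den / q.num.toNat : ℕ) : ℝ) ≤ 1 / (q : ℝ) := by
  refine Nat.cast_div_le.trans (le_of_eq ?_)
  rw [rat_toNat_cast q hq]
  have : (q.den : ℝ) ≠ 0 := by exact_mod_cast q.den_nz
  have : (q : ℝ) ≠ 0 := by exact_mod_cast hq.ne'
  field_simp

theorem rat_lt_div (q : ℚ) (hq : 0 < q) :
    1 ≤ (q : ℝ) * ((q.den / q.num.toNat + 1 : ℕ) : ℝ) := by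
  have hnum : 0 < q.num.toNat := by have := Rat.num_pos.2 hq; omega
  have h1 : q.den < q.num.toNat * (q.den / q.num.toNat + 1) := Nat.lt_mul_div_succ _ hnum
  have h2 : (q.den : ℝ) ≤ (q.num.toNat : ℝ) * ((q.den / q.num.toNat + 1 : ℕ) : ℝ) := by
    exact_mod_cast h1.le
  rw [rat_toNat_cast q hq] at h2
  have h3 : (0 : ℝ) < q.den := by exact_mod_cast q.den_pos
  have : (q.den : ℝ) * 1 ≤ q.den * ((q : ℝ) * ((q.den / q.num.toNat + 1 : ℕ) : ℝ)) := by
    linarith
  exact le_of_mul_le_mul_left this h3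

theorem length_rows (q : Query) : q.rows.length = q.n := by simp [Query.rows]

theorem parP_raw (q : Query) : parP (raw q) =
    q.n + (q.ε.den / q.ε.num.toNat + 1) + (Nat.size (q.δ.den / q.δ.num.toNat) + 16) := by
  rw [← length_rows]; rfl

theorem parP_ge (q : Query) : 16 ≤ parP (raw q) ∧ q.n ≤ parP (raw q) ∧
    q.ε.den / q.ε.num.toNat + 1 ≤ parP (raw q) ∧
    Nat.size (q.δ.den / q.δ.num.toNat) ≤ parP (raw q) := by
  rw [parP_raw]
  generalize q.ε.den / q.ε.num.toNat = x
  omega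

theorem parP_le (q : Query) (hε0 : 0 < q.ε) (hε1 : q.ε < 1) (hδ0 : 0 < q.δ) (hδ1 : q.δ < 1) :
    (parP (raw q) : ℝ) ≤ 20 * ((q.n : ℝ) + 1 / (q.ε : ℝ) + Real.log (1 / (q.δ : ℝ))) := by
  have h1 := rat_div_le q.ε hε0
  have h2 := rat_div_le q.δ hδ0
  have hε0' : (0 : ℝ) < q.ε := by exact_mod_cast hε0
  have hε1' : (q.ε : ℝ) < 1 := by exact_mod_cast hε1
  have hδ0' : (0 : ℝ) < q.δ := by exact_mod_cast hδ0
  have hδ1' : (q.δ : ℝ) < 1 := by exact_mod_cast hδ1
  have h3 : 1 ≤ 1 / (q.ε : ℝ) := by rw [le_div_iff₀ hε0']; linarith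
  have h4 : 1 ≤ 1 / (q.δ : ℝ) := by rw [le_div_iff₀ hδ0']; linarith
  have h5 : 0 ≤ Real.log (1 / (q.δ : ℝ)) := Real.log_nonneg h4
  have h6 : (Nat.size (q.δ.den / q.δ.num.toNat) : ℝ) ≤ 1 + 2 * Real.log (1 / (q.δ : ℝ)) := by
    generalize q.δ.den / q.δ.num.toNat = x at h2
    rcases Nat.eq_zero_or_pos (Nat.size x) with h | h
    · rw [h]; push_cast; linarith
    · have h7 : 2 ^ (Nat.size x - 1) ≤ x := Nat.lt_size.1 (by omega)
      have h8 : (2 : ℝ) ^ (Nat.size x - 1) ≤ 1 / (q.δ : ℝ) := le_trans (by exact_mod_cast h7) h2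
      have h9 := Real.log_le_log (by positivity) h8
      rw [Real.log_pow, Nat.cast_sub h] at h9
      have h10 := Real.log_two_gt_d9
      have h11 : (1 : ℝ) ≤ Nat.size x := by exact_mod_cast h
      push_cast at h9
      nlinarith
  have hn : (0 : ℝ) ≤ q.n := Nat.cast_nonneg _
  rw [parP_raw]
  push_cast
  linarith

open Classical in
theorem top_correct (q : Query) (hε0 : 0 < q.ε) (hε1 : q.ε < 1) (hδ0 : 0 < q.δ) :
    1 - (q.δ : ℝ) ≤ (topP (q.rows, List.range (parP (raw q)))).prob fun out : ℕ =>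
      (1 - (q.ε : ℝ)) * numPM q.G ≤ out ∧ (out : ℝ) ≤ (1 + (q.ε : ℝ)) * numPM q.G := by
  have hε0' : (0 : ℝ) < q.ε := by exact_mod_cast hε0
  have hε1' : (q.ε : ℝ) < 1 := by exact_mod_cast hε1
  have hδ0' : (0 : ℝ) < q.δ := by exact_mod_cast hδ0
  obtain ⟨p1, p2, p3, p4⟩ := parP_ge q
  have hc : cn (q.rows, List.range (parP (raw q))) = q.n := length_rows q
  have hl : cl (q.rows, List.range (parP (raw q))) = (parP (raw q)).size := by simp [cl]
  unfold topP
  rw [hc, beq_dec, beq_dec, Bool.cond_decide, Bool.cond_decide]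
  split_ifs with h1 h2
  · rw [numPM_odd q.G (by rw [Nat.even_iff]; omega), Rand.prob, if_pos (by simp)]
    linarith
  · have : numPM q.G = 1 := by
      obtain ⟨n, G, ε, δ⟩ := q
      dsimp only at h2
      subst h2
      exact numPM_zero G
    rw [this, Rand.prob, if_pos (by push_cast; constructor <;> linarith)]
    linarith
  · have hn : Even q.n := by rw [Nat.even_iff]; omega
    have hW := Nat.lt_size_self (parP (raw q))
    have s := algP_sim _ hc hn (fun u v => decide (q.G.Adj u v)) fun u v => by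
      unfold ga Query.rows
      dsimp only
      rw [getD_ofFn, getD_ofFn]
    refine le_trans ?_ (s.prob_le (q := Accu (fun u v => decide (q.G.Adj u v)) q.ε)
      fun a b hab h => ?_)
    · refine le_trans ?_ (alg_correct _ ?_ ?_ hn (by omega) _ (fun u v => ?_) _ hε1' ?_)
      · have a1 := rat_lt_div q.δ hδ0
        have a2 : q.δ.den / q.δ.num.toNat + 1 ≤ 2 ^ 2 ^ (parP (raw q)).size := by
          have h3 := Nat.lt_size_self (q.δ.den / q.δ.num.toNat)
          have h4 : 2 ^ Nat.size (q.δ.den / q.δ.num.toNat) ≤ 2 ^ 2 ^ (parP (raw q)).size :=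
            Nat.pow_le_pow_right (by norm_num) (by omega)
          exact Nat.succ_le_of_lt (h3.trans_le h4)
        have a3 : ((q.δ.den / q.δ.num.toNat + 1 : ℕ) : ℝ) ≤ 2 ^ 2 ^ (parP (raw q)).size := by
          exact_mod_cast a2
        have a4 : (1 / 2 : ℝ) ^ 2 ^ (parP (raw q)).size ≤ q.δ := by
          rw [one_div, inv_pow, inv_le_iff_one_le_mul₀ (by positivity)]
          exact a1.trans (mul_le_mul_of_nonneg_left a3 hδ0'.le)
        rw [hl]
        linarith
      · rw [hl]
        exact (Nat.lt_size.2 (by omega)).le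
      · rw [hl]
        omega
      · exact decide_eq_decide.2 (q.G.adj_comm u v)
      · rw [hl]
        refine (rat_lt_div q.ε hε0).trans (mul_le_mul_of_nonneg_left ?_ hε0'.le)
        have : q.ε.den / q.ε.num.toNat + 1 ≤ 2 ^ (parP (raw q)).size := p3.trans hW.le
        exact_mod_cast this
    · rw [hab, numPM_eq]
      exact h

open Classical in
theorem fpras : ∃ (A : Query × List Bool → ℕ)
    (M : Turing.TM2ComputableInPolyTime codeInput codeNat A) (C d : ℕ),
    (∀ k, Finite (M.tm.Γ k)) ∧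
    ∀ q : Query, 0 < q.ε → q.ε < 1 → 0 < q.δ → q.δ < 1 / 2 → ∀ r : ℕ,
      C * ((q.n : ℝ) + 1 / (q.ε : ℝ) + Real.log (1 / (q.δ : ℝ))) ^ d ≤ r →
      (1 - (q.δ : ℝ)) * 2 ^ r ≤ ((Finset.univ.filter fun b : Fin r → Bool =>
        (1 - (q.ε : ℝ)) * numPM q.G ≤ A (q, List.ofFn b) ∧
          (A (q, List.ofFn b) : ℝ) ≤ (1 + (q.ε : ℝ)) * numPM q.G).card : ℝ) := by
  obtain ⟨M, hM⟩ := export_full
  obtain ⟨d, hd, hdep⟩ : ∃ d : ℕ, d ≠ 0 ∧ ∀ c : Ctx, 4 ≤ cl c → cn c ≤ 2 ^ cl c →
      Dep (topP c) ((2 ^ cl c) ^ d) := ⟨2200, by norm_num, dep_topP⟩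
  refine ⟨_, M, 60 ^ d, d, hM, fun q hε0 hε1 hδ0 hδ1 r hr => ?_⟩
  obtain ⟨p1, p2, p3, p4⟩ := parP_ge q
  have h1 := parP_le q hε0 hε1 hδ0 (by linarith)
  have h2 : (3 * parP (raw q)) ^ d ≤ r := by
    have : ((3 * parP (raw q) : ℕ) : ℝ) ^ d ≤ r := by
      refine le_trans ?_ hr
      rw [Nat.cast_pow, ← mul_pow]
      refine pow_le_pow_left₀ (Nat.cast_nonneg _) ?_ _
      push_cast
      linarith
    exact_mod_cast this
  have h3 : parP (raw q) ≤ r := le_trans (by omega) ((Nat.le_self_pow hd _).trans h2)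
  have hc : cn (q.rows, List.range (parP (raw q))) = q.n := length_rows q
  have hl : cl (q.rows, List.range (parP (raw q))) = (parP (raw q)).size := by simp [cl]
  have hW := Nat.lt_size_self (parP (raw q))
  have h4 : Dep (topP (q.rows, List.range (parP (raw q)))) r := by
    refine (hdep _ ?_ ?_).mono (le_trans (Nat.pow_le_pow_left ?_ _) h2)
    · rw [hl]
      exact (Nat.lt_size.2 (by omega)).le
    · rw [hl, hc]
      omega
    · have := two_pow_size_le (parP (raw q))
      rw [hl]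
      omega
  have h5 := prob_tape _ (fun out : ℕ => (1 - (q.ε : ℝ)) * numPM q.G ≤ out ∧
    (out : ℝ) ≤ (1 + (q.ε : ℝ)) * numPM q.G) r h4
  have h6 : ∀ b : Fin r → Bool, fullP (raw q, List.ofFn b) =
      (runT (topP (q.rows, List.range (parP (raw q)))) (List.ofFn b)).1 := fun b => by
    unfold fullP
    rw [List.length_ofFn, min_eq_left h3]
    rfl
  refine le_trans (mul_le_mul_of_nonneg_right (top_correct q hε0 hε1 hδ0) (by positivity))
    (h5.trans_le (le_of_eq (congrArg Nat.cast (congrArg Finset.card ?_))))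
  ext b
  simp only [Finset.mem_filter, h6]

end Vale.Agent.P308
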