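import Mathlib

/-!
Perfect matchings of the complete graph as fixed-point-free involutions; alternating lists.
-/

namespace Vale.Agent.P308

open Finset Equiv

/-- Perfect matchings of the complete graph on `V`. -/
def PM (V : Type) : Type := {f : V → V // (∀ v, f (f v) = v) ∧ ∀ v, f v ≠ v}

section
variable {V : Type}

noncomputable instance [Fintype V] [DecidableEq V] : Fintype (PM V) :=
  open Classical in Subtype.fintype _

noncomputable instance : DecidableEq (PM V) := Classical.decEq _

theorem PM.ext {X Y : PM V} (h : ∀ v, X.1 v = Y.1 v) : X = Y := Subtype.ext (funext h)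

@[simp] theorem PM.inv (X : PM V) (v : V) : X.1 (X.1 v) = v := X.2.1 v

theorem PM.ne (X : PM V) (v : V) : X.1 v ≠ v := X.2.2 v

theorem PM.eq_iff (X : PM V) {u v : V} : X.1 u = v ↔ X.1 v = u :=
  ⟨fun h => by rw [← h, X.inv], fun h => by rw [← h, X.inv]⟩

theorem PM.inj (X : PM V) {u v : V} (h : X.1 u = X.1 v) : u = v := by
  rw [← X.inv u, h, X.inv]

instance : MulAction (Perm V) (PM V) where
  smul g X := ⟨fun v => g (X.1 (g⁻¹ v)), fun v => by simp, fun v h => X.ne (g⁻¹ v) (by
    have := congrArg g.symm h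
    simpa using this)⟩
  one_smul X := PM.ext fun _ => rfl
  mul_smul g h X := PM.ext fun v => by
    change (g * h) (X.1 ((g * h)⁻¹ v)) = g (h (X.1 (h⁻¹ (g⁻¹ v))))
    simp

theorem PM.smul_apply (g : Perm V) (X : PM V) (v : V) : (g • X).1 v = g (X.1 (g⁻¹ v)) := rfl

theorem PM.smul_apply' (g : Perm V) (X : PM V) (v : V) : (g • X).1 (g v) = g (X.1 v) := by
  simp [PM.smul_apply]

/-- `X` pairs the entries of the list two by two, starting at the head. -/
def Ef (X : PM V) : List V → Prop
  | u :: v :: l => X.1 u = v ∧ Ef X l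
  | _ => True

/-- The list alternates between `X` and `Y`, starting with `X`. -/
def Alt (X Y : PM V) (Q : List V) : Prop := Ef X Q ∧ Ef Y Q.tail

/-- An instance: a simple alternating list, closed by `Y` if its length is even. -/
def Inst (Q : List V) (X Y : PM V) : Prop :=
  Q ≠ [] ∧ Q.Nodup ∧ Ef X Q ∧ Ef Y (Q.rotate 1)

/-- The alternating walk with `k` vertices. -/
def walkL : PM V → PM V → V → ℕ → List V
  | _, _, _, 0 => []
  | X, Y, a, k + 1 => a :: walkL Y X (X.1 a) k

/-- First entry. -/
def hd [Inhabited V] (Q : List V) : V := Q.headD default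

/-- Last entry. -/
def lt [Inhabited V] (Q : List V) : V := Q.getLastD default

/-- One step along an edge of either matching. -/
def Rel (p : PM V × PM V) (u v : V) : Prop := v = p.1.1 u ∨ v = p.2.1 u

/-- Vertices on the alternating cycles that meet `T`. -/
def Reach (T : Set V) (p : PM V × PM V) (v : V) : Prop :=
  ∃ t ∈ T, Relation.ReflTransGen (Rel p) t v

theorem Reach.fst {T : Set V} {p : PM V × PM V} {v : V} :
    Reach T p (p.1.1 v) ↔ Reach T p v := by
  constructor
  · rintro ⟨t, ht, h⟩
    exact ⟨t, ht, h.tail (Or.inl (by simp))⟩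
  · rintro ⟨t, ht, h⟩
    exact ⟨t, ht, h.tail (Or.inl rfl)⟩

theorem Reach.snd {T : Set V} {p : PM V × PM V} {v : V} :
    Reach T p (p.2.1 v) ↔ Reach T p v := by
  constructor
  · rintro ⟨t, ht, h⟩
    exact ⟨t, ht, h.tail (Or.inr (by simp))⟩
  · rintro ⟨t, ht, h⟩
    exact ⟨t, ht, h.tail (Or.inr rfl)⟩

open Classical in
/-- Follow `Y` on `S` and `X` elsewhere. -/
noncomputable def mix (S : V → Prop) (X Y : PM V) (hX : ∀ v, S (X.1 v) ↔ S v)
    (hY : ∀ v, S (Y.1 v) ↔ S v) : PM V :=
  ⟨fun v => if S v then Y.1 v else X.1 v, fun v => by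
    by_cases h : S v
    · simp [h, hY]
    · simp [h, hX], fun v => by
    by_cases h : S v
    · simpa [h] using Y.ne v
    · simpa [h] using X.ne v⟩

/-- Exchange the two matchings on the cycles that meet `T`. -/
noncomputable def sw (T : Set V) (p : PM V × PM V) : PM V × PM V :=
  (mix (Reach T p) p.1 p.2 (fun _ => Reach.fst) (fun _ => Reach.snd),
    mix (Reach T p) p.2 p.1 (fun _ => Reach.snd) (fun _ => Reach.fst))

variable [DecidableEq V]

/-- The cyclic shift along a list. -/
abbrev tau (Q : List V) : Perm V := Q.formPerm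

variable [Fintype V]

/-- Weight of a matching: each edge is counted from both ends. -/
def wt (a : V → V → ℝ) (X : PM V) : ℝ := ∏ v, a v (X.1 v)

/-- All nonempty lists without repetition. -/
noncomputable def arcs (V : Type) [DecidableEq V] [Fintype V] : Finset (List V) :=
  ((univ : Finset {l : List V // l.Nodup}).map (Function.Embedding.subtype _)).filter (· ≠ [])

open Classical in
/-- Energy of `h` under the arc moves. -/
noncomputable def Darc (a : V → V → ℝ) (h : PM V → ℝ) : ℝ :=
  ∑ Q ∈ arcs V, ∑ X : PM V, ∑ Y : PM V, if Inst Q X Y then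
    min (wt a X * wt a Y) (wt a ((tau Q)⁻¹ • Y) * wt a (tau Q • X)) *
      (h ((tau Q)⁻¹ • Y) + h (tau Q • X) - (h X + h Y)) ^ 2 else 0

/-- Energy of `h` under the switch moves. -/
noncomputable def Dsw (a : V → V → ℝ) (h : PM V → ℝ) : ℝ :=
  ∑ u : V, ∑ v : V, ∑ X : PM V,
    min (wt a X) (wt a (swap u v • X)) * (h (swap u v • X) - h X) ^ 2

/-- Partition function. -/
noncomputable def Zf (a : V → V → ℝ) : ℝ := ∑ X : PM V, wt a X

/-- Total weight of the matchings that pair `u` with `v`. -/
noncomputable def Zm (a : V → V → ℝ) (u v : V) : ℝ :=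
  ∑ X : PM V, if X.1 u = v then wt a X else 0

end

end Vale.Agent.P308
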