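import Mathlib

/-! Pair operators on coefficient functions and the sectors given by the number of excitations. -/

namespace Vale.Agent.P308

open Finset

variable {Ω : Type} [Fintype Ω] [DecidableEq Ω] {N : ℕ}

/-- Replace two coordinates. -/
def upd (x : Fin N → Ω) (i j : Fin N) (p : Ω × Ω) : Fin N → Ω :=
  Function.update (Function.update x i p.1) j p.2

section
omit [Fintype Ω] [DecidableEq Ω]
variable {x : Fin N → Ω} {i j : Fin N} {p q : Ω × Ω}

theorem upd_fst (h : i ≠ j) : upd x i j p i = p.1 := by simp [upd, h]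

theorem upd_snd : upd x i j p j = p.2 := by simp [upd]

theorem upd_other {k : Fin N} (hi : k ≠ i) (hj : k ≠ j) : upd x i j p k = x k := by
  simp [upd, hi, hj]

theorem upd_upd (h : i ≠ j) : upd (upd x i j p) i j q = upd x i j q := by
  funext k
  by_cases hj : k = j
  · rw [hj, upd_snd, upd_snd]
  by_cases hi : k = i
  · rw [hi, upd_fst h, upd_fst h]
  · rw [upd_other hi hj, upd_other hi hj, upd_other hi hj]

theorem upd_self : upd x i j (x i, x j) = x := by simp [upd]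

theorem prod_upd {M : Type} [CommMonoid M] (h : i ≠ j) (G : Fin N → Ω → M) :
    ∏ k, G k (upd x i j p k) = (∏ k ∈ (univ.erase i).erase j, G k (x k)) * (G i p.1 * G j p.2) := by
  rw [← Finset.mul_prod_erase univ _ (mem_univ i), ← Finset.mul_prod_erase (univ.erase i) _
    (mem_erase.2 ⟨h.symm, mem_univ j⟩), upd_fst h, upd_snd, ← mul_assoc, mul_comm]
  refine congrArg (· * (G i p.1 * G j p.2)) (Finset.prod_congr rfl fun k hk => ?_)
  rw [upd_other (ne_of_mem_erase (mem_of_mem_erase hk)) (ne_of_mem_erase hk)]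

end

omit [DecidableEq Ω] in
theorem sum_upd {i j : Fin N} (h : i ≠ j) (G : (Fin N → Ω) → Ω × Ω → ℝ) :
    ∑ x, ∑ p, G (upd x i j p) (x i, x j) = ∑ x, ∑ p, G x p := by
  let e : (Fin N → Ω) × (Ω × Ω) ≃ (Fin N → Ω) × (Ω × Ω) := Function.Involutive.toPerm
    (fun z => (upd z.1 i j z.2, (z.1 i, z.1 j))) fun z => by
      simp only [upd_upd h, upd_self, upd_fst h, upd_snd]
  have h1 := Equiv.sum_comp e fun z => G z.1 z.2
  rw [Fintype.sum_prod_type, Fintype.sum_prod_type] at h1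
  exact h1

omit [DecidableEq Ω] in
theorem sum_fib {i j : Fin N} (h : i ≠ j) (G : (Fin N → Ω) → ℝ) :
    ∑ x, ∑ p, G (upd x i j p) = Fintype.card (Ω × Ω) * ∑ x, G x := by
  rw [sum_upd h fun x _ => G x]
  simp only [Finset.sum_const, Finset.card_univ, nsmul_eq_mul, Finset.mul_sum]

/-- Excitation number of one particle. -/
def ex (o a : Ω) : ℕ := if a = o then 0 else 1

/-- Excitation number of a pair. -/
def pl (o : Ω) (p : Ω × Ω) : ℕ := ex o p.1 + ex o p.2

/-- Excitation number of a configuration. -/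
def lev (o : Ω) (x : Fin N → Ω) : ℕ := ∑ k, ex o (x k)

section
omit [Fintype Ω]

theorem lev_upd (o : Ω) (x : Fin N → Ω) {i j : Fin N} (h : i ≠ j) (p : Ω × Ω) :
    lev o (upd x i j p) + pl o (x i, x j) = lev o x + pl o p := by
  have h1 := prod_upd (x := x) (p := p) h fun _ a => Multiplicative.ofAdd (ex o a)
  have h2 := prod_upd (x := x) (p := (x i, x j)) h fun _ a => Multiplicative.ofAdd (ex o a)
  rw [upd_self] at h2
  simp only [← ofAdd_sum, ← ofAdd_add, EmbeddingLike.apply_eq_iff_eq] at h1 h2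
  simp only [lev, pl]
  omega

theorem pl_le (o : Ω) (p : Ω × Ω) : pl o p ≤ 2 := by
  simp only [pl, ex]
  split_ifs <;> omega

theorem pl_eq_zero {o : Ω} {p : Ω × Ω} (h : pl o p = 0) : p = (o, o) := by
  simp only [pl, ex] at h
  split_ifs at h with h1 h2 <;> first | exact Prod.ext h1 h2 | omega

theorem lev_eq_zero {o : Ω} {x : Fin N → Ω} : lev o x = 0 ↔ x = fun _ => o := by
  simp [lev, ex, funext_iff]

theorem cnt_one (o : Ω) (x : Fin N → Ω) :
    (∑ i, ∑ j, if i = j then 0 else if pl o (x i, x j) = 1 then (1 : ℝ) else 0) =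
      2 * lev o x * (N - lev o x) := by
  have e : ∀ i j, (if i = j then 0 else if pl o (x i, x j) = 1 then (1 : ℝ) else 0) =
      (ex o (x i) : ℝ) + ex o (x j) - 2 * (ex o (x i) * ex o (x j)) := by
    intro i j
    by_cases h : i = j
    · subst h
      by_cases h1 : x i = o <;> norm_num [ex, h1]
    · by_cases h1 : x i = o <;> by_cases h2 : x j = o <;> norm_num [pl, ex, h, h1, h2]
  simp only [e, Finset.sum_sub_distrib, Finset.sum_add_distrib, ← Finset.mul_sum, ← Finset.sum_mul,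
    Finset.sum_const, Finset.card_univ, Fintype.card_fin, nsmul_eq_mul, lev, Nat.cast_sum]
  ring

theorem cnt_two (o : Ω) (x : Fin N → Ω) :
    (∑ i, ∑ j, if i = j then 0 else if pl o (x i, x j) = 2 then (1 : ℝ) else 0) =
      lev o x * (lev o x - 1) := by
  have e : ∀ i j, (if i = j then 0 else if pl o (x i, x j) = 2 then (1 : ℝ) else 0) =
      (ex o (x i) : ℝ) * ex o (x j) - if i = j then (ex o (x i) : ℝ) else 0 := by
    intro i j
    by_cases h : i = j
    · subst h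
      by_cases h1 : x i = o <;> norm_num [ex, h1]
    · by_cases h1 : x i = o <;> by_cases h2 : x j = o <;> norm_num [pl, ex, h, h1, h2]
  simp only [e, Finset.sum_sub_distrib, ← Finset.mul_sum, ← Finset.sum_mul, Finset.sum_ite_eq,
    Finset.mem_univ, if_true, lev, Nat.cast_sum]
  ring

end

/-- The form of a matrix on pairs. -/
def qf (Q : Ω × Ω → Ω × Ω → ℝ) (G F : Ω × Ω → ℝ) : ℝ := ∑ p, ∑ q, G p * Q p q * F q

/-- What is needed of the pair matrix. -/
structure QOK (Q : Ω × Ω → Ω × Ω → ℝ) (o : Ω) (γ : ℝ) : Prop where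
  symm : ∀ p q, Q p q = Q q p
  nonneg : ∀ F, 0 ≤ qf Q F F
  le : ∀ F, qf Q F F ≤ ∑ p, F p ^ 2
  zero : ∀ q, Q (o, o) q = 0
  gap : ∀ F, (∀ p, F p ≠ 0 → pl o p = 1) → γ * ∑ p, F p ^ 2 ≤ qf Q F F

/-- The form of the pair matrix acting on two coordinates. -/
def Bij (Q : Ω × Ω → Ω × Ω → ℝ) (i j : Fin N) (v u : (Fin N → Ω) → ℝ) : ℝ :=
  ∑ x, ∑ p, v x * Q (x i, x j) p * u (upd x i j p)

/-- Euclidean norm. -/
noncomputable def nrm {X : Type} [Fintype X] (u : X → ℝ) : ℝ := Real.sqrt (∑ x, u x ^ 2)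

theorem nrm_nonneg {X : Type} [Fintype X] (u : X → ℝ) : 0 ≤ nrm u := Real.sqrt_nonneg _

theorem nrm_sq {X : Type} [Fintype X] (u : X → ℝ) : nrm u ^ 2 = ∑ x, u x ^ 2 :=
  Real.sq_sqrt (Finset.sum_nonneg fun _ _ => sq_nonneg _)

theorem psd_cs {a b c A C : ℝ} (h : ∀ t : ℝ, 0 ≤ a * (t * t) + 2 * b * t + c) (hA : 0 ≤ A)
    (hC : 0 ≤ C) (ha : a ≤ A ^ 2) (hc : c ≤ C ^ 2) : |b| ≤ A * C := by
  have h1 := discrim_le_zero h
  have h2 := h 0
  rw [discrim] at h1
  refine abs_le_of_sq_le_sq' ?_ (mul_nonneg hA hC) |> abs_le.2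
  have h3 : a * c ≤ A ^ 2 * C ^ 2 := mul_le_mul ha hc (by linarith) (sq_nonneg _)
  nlinarith

variable {Q : Ω × Ω → Ω × Ω → ℝ} {o : Ω} {γ : ℝ} {i j : Fin N} {u v : (Fin N → Ω) → ℝ}

omit [DecidableEq Ω] in
theorem Bij_fib (h : i ≠ j) (v u : (Fin N → Ω) → ℝ) :
    Fintype.card (Ω × Ω) * Bij Q i j v u =
      ∑ x, qf Q (fun p => v (upd x i j p)) fun p => u (upd x i j p) := by
  rw [Bij, ← sum_fib h]
  simp only [qf, upd_upd h, upd_fst h, upd_snd]

omit [DecidableEq Ω] in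
theorem card_pair_pos (o : Ω) : (0 : ℝ) < Fintype.card (Ω × Ω) := by
  exact_mod_cast Fintype.card_pos_iff.2 ⟨(o, o)⟩

theorem Bij_symm (hQ : QOK Q o γ) (h : i ≠ j) (v u : (Fin N → Ω) → ℝ) :
    Bij Q i j v u = Bij Q i j u v := by
  rw [Bij, ← sum_upd h fun x p => v x * Q (x i, x j) p * u (upd x i j p), Bij]
  refine Finset.sum_congr rfl fun x _ => Finset.sum_congr rfl fun p _ => ?_
  rw [upd_upd h, upd_self, upd_fst h, upd_snd, hQ.symm]
  ring

theorem Bij_nonneg (hQ : QOK Q o γ) (h : i ≠ j) (u : (Fin N → Ω) → ℝ) : 0 ≤ Bij Q i j u u := by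
  refine le_of_mul_le_mul_left ?_ (card_pair_pos o)
  rw [Bij_fib h, mul_zero]
  exact Finset.sum_nonneg fun x _ => hQ.nonneg _

theorem Bij_le (hQ : QOK Q o γ) (h : i ≠ j) (u : (Fin N → Ω) → ℝ) :
    Bij Q i j u u ≤ ∑ x, u x ^ 2 := by
  refine le_of_mul_le_mul_left ?_ (card_pair_pos o)
  rw [Bij_fib h, ← sum_fib h]
  exact Finset.sum_le_sum fun x _ => hQ.le _

theorem Bij_gap (hQ : QOK Q o γ) (h : i ≠ j) {k : ℕ} (hu : ∀ x, u x ≠ 0 → lev o x = k) :
    γ * ∑ x, (if pl o (x i, x j) = 1 then 1 else 0) * u x ^ 2 ≤ Bij Q i j u u := by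
  refine le_of_mul_le_mul_left ?_ (card_pair_pos o)
  rw [Bij_fib h, mul_left_comm, ← sum_fib h, Finset.mul_sum]
  refine Finset.sum_le_sum fun x _ => ?_
  simp only [upd_fst h, upd_snd, Prod.mk.eta]
  by_cases h1 : ∀ p, u (upd x i j p) ≠ 0 → pl o p = 1
  · refine le_trans (le_of_eq (congrArg _ (Finset.sum_congr rfl fun p _ => ?_))) (hQ.gap _ h1)
    by_cases h2 : u (upd x i j p) = 0
    · simp [h2]
    · rw [if_pos (h1 p h2), one_mul]
  · obtain ⟨q, hq⟩ := not_forall.1 h1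
    obtain ⟨hq1, hq2⟩ := Classical.not_imp.1 hq
    rw [Finset.sum_eq_zero, mul_zero]
    · exact hQ.nonneg _
    intro p _
    by_cases h2 : u (upd x i j p) = 0
    · simp [h2]
    · have a1 := lev_upd o x h p
      have a2 := lev_upd o x h q
      rw [hu _ h2] at a1
      rw [hu _ hq1] at a2
      rw [if_neg (by omega), zero_mul]

omit [DecidableEq Ω] in
theorem Bij_add_right (v u u' : (Fin N → Ω) → ℝ) :
    Bij Q i j v (fun x => u x + u' x) = Bij Q i j v u + Bij Q i j v u' := by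
  simp only [Bij, mul_add, Finset.sum_add_distrib]

theorem Bij_expand (hQ : QOK Q o γ) (h : i ≠ j) (v u : (Fin N → Ω) → ℝ) (t : ℝ) :
    Bij Q i j (fun x => t * v x + u x) (fun x => t * v x + u x) =
      Bij Q i j v v * (t * t) + 2 * Bij Q i j v u * t + Bij Q i j u u := by
  have e : Bij Q i j (fun x => t * v x + u x) (fun x => t * v x + u x) =
      Bij Q i j v v * (t * t) + (Bij Q i j v u * t + Bij Q i j u v * t) + Bij Q i j u u := by
    simp only [Bij, Finset.sum_mul, ← Finset.sum_add_distrib]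
    exact Finset.sum_congr rfl fun x _ => Finset.sum_congr rfl fun p _ => by ring
  rw [e, Bij_symm hQ h u v]
  ring

theorem abs_Bij_le (hQ : QOK Q o γ) (h : i ≠ j) (v u : (Fin N → Ω) → ℝ) :
    |Bij Q i j v u| ≤ nrm v * nrm u :=
  psd_cs (fun t => Bij_expand hQ h v u t ▸ Bij_nonneg hQ h _) (nrm_nonneg _) (nrm_nonneg _)
    (nrm_sq v ▸ Bij_le hQ h v) (nrm_sq u ▸ Bij_le hQ h u)

theorem Bij_cross (hQ : QOK Q o γ) (h : i ≠ j) {k : ℕ} (hu : ∀ x, u x ≠ 0 → lev o x = k)
    (hv : ∀ x, v x ≠ 0 → k < lev o x) :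
    Bij Q i j v u = Bij Q i j
      (fun x => if pl o (x i, x j) = 2 ∧ lev o x = k + 1 then v x else 0)
      fun x => if pl o (x i, x j) = 1 then u x else 0 := by
  refine Finset.sum_congr rfl fun x _ => Finset.sum_congr rfl fun p _ => ?_
  simp only [upd_fst h, upd_snd, Prod.mk.eta]
  by_cases h1 : v x = 0
  · simp [h1]
  by_cases h2 : u (upd x i j p) = 0
  · simp [h2]
  by_cases h3 : Q (x i, x j) p = 0
  · simp [h3]
  have a1 := lev_upd o x h p
  have a2 := hv x h1
  have a3 : pl o p ≠ 0 := fun h' => h3 (by rw [pl_eq_zero h', hQ.symm, hQ.zero])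
  have a4 := pl_le o (x i, x j)
  rw [hu _ h2] at a1
  rw [if_pos ⟨by omega, by omega⟩, if_pos (by omega)]

/-- The form of the sum over all pairs of coordinates. -/
def BB (Q : Ω × Ω → Ω × Ω → ℝ) (v u : (Fin N → Ω) → ℝ) : ℝ :=
  ∑ i, ∑ j, if i = j then 0 else Bij Q i j v u

/-- The transition operator on coefficients. -/
noncomputable def Ph (Q : Ω × Ω → Ω × Ω → ℝ) (u : (Fin N → Ω) → ℝ) (x : Fin N → Ω) : ℝ :=
  u x - 1 / (N : ℝ) ^ 2 * ∑ i, ∑ j, if i = j then 0 else ∑ p, Q (x i, x j) p * u (upd x i j p)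

/-- Its form. -/
noncomputable def PP (Q : Ω × Ω → Ω × Ω → ℝ) (v u : (Fin N → Ω) → ℝ) : ℝ :=
  ∑ x, v x * u x - 1 / (N : ℝ) ^ 2 * BB Q v u

omit [DecidableEq Ω] in
theorem sum_mul_Ph (v u : (Fin N → Ω) → ℝ) : ∑ x, v x * Ph Q u x = PP Q v u := by
  simp only [Ph, PP, BB, Bij, mul_sub, Finset.sum_sub_distrib, mul_left_comm (v _),
    ← Finset.mul_sum]
  congr 2
  simp only [Finset.mul_sum]
  rw [Finset.sum_comm]
  refine Finset.sum_congr rfl fun i _ => ?_
  rw [Finset.sum_comm]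
  refine Finset.sum_congr rfl fun j _ => ?_
  split_ifs
  · simp
  · simp only [Finset.mul_sum, mul_assoc]

theorem PP_symm (hQ : QOK Q o γ) (v u : (Fin N → Ω) → ℝ) : PP Q v u = PP Q u v := by
  have e : BB Q v u = BB Q u v := Finset.sum_congr rfl fun i _ => Finset.sum_congr rfl fun j _ => by
    split_ifs with h
    · rfl
    · exact Bij_symm hQ h v u
  simp only [PP, e, mul_comm (v _)]

omit [DecidableEq Ω] in
theorem PP_add_right (v u u' : (Fin N → Ω) → ℝ) :
    PP Q v (fun x => u x + u' x) = PP Q v u + PP Q v u' := by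
  have e : BB Q v (fun x => u x + u' x) = BB Q v u + BB Q v u' := by
    simp only [BB, ← Finset.sum_add_distrib]
    refine Finset.sum_congr rfl fun i _ => Finset.sum_congr rfl fun j _ => ?_
    split_ifs
    · simp
    · exact Bij_add_right v u u'
  simp only [PP, e, mul_add, Finset.sum_add_distrib]
  ring

theorem PP_expand (hQ : QOK Q o γ) (v u : (Fin N → Ω) → ℝ) (t : ℝ) :
    PP Q (fun x => t * v x + u x) (fun x => t * v x + u x) =
      PP Q v v * (t * t) + 2 * PP Q v u * t + PP Q u u := by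
  have e : BB Q (fun x => t * v x + u x) (fun x => t * v x + u x) =
      BB Q v v * (t * t) + 2 * BB Q v u * t + BB Q u u := by
    simp only [BB, Finset.sum_mul, Finset.mul_sum, ← Finset.sum_add_distrib]
    refine Finset.sum_congr rfl fun i _ => Finset.sum_congr rfl fun j _ => ?_
    split_ifs with h
    · simp
    · exact Bij_expand hQ h v u t
  have e2 : ∑ x, (t * v x + u x) * (t * v x + u x) =
      (∑ x, v x * v x) * (t * t) + 2 * (∑ x, v x * u x) * t + ∑ x, u x * u x := by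
    simp only [Finset.sum_mul, Finset.mul_sum, ← Finset.sum_add_distrib]
    exact Finset.sum_congr rfl fun x _ => by ring
  simp only [PP, e, e2]
  ring

theorem BB_nonneg (hQ : QOK Q o γ) (u : (Fin N → Ω) → ℝ) : 0 ≤ BB Q u u :=
  Finset.sum_nonneg fun i _ => Finset.sum_nonneg fun j _ => by
    split_ifs with h
    · exact le_rfl
    · exact Bij_nonneg hQ h u

theorem PP_nonneg (hQ : QOK Q o γ) (hN : 0 < N) (u : (Fin N → Ω) → ℝ) : 0 ≤ PP Q u u := by
  have hN' : (0 : ℝ) < N := by exact_mod_cast hN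
  have h1 : BB Q u u ≤ ∑ _i : Fin N, ∑ _j : Fin N, ∑ x, u x ^ 2 :=
    Finset.sum_le_sum fun i _ => Finset.sum_le_sum fun j _ => by
      split_ifs with h
      · exact Finset.sum_nonneg fun _ _ => sq_nonneg _
      · exact Bij_le hQ h u
  simp only [Finset.sum_const, Finset.card_univ, Fintype.card_fin, nsmul_eq_mul] at h1
  rw [PP, sub_nonneg, one_div_mul_eq_div, div_le_iff₀ (by positivity)]
  simp only [← sq]
  linarith

theorem PP_le (hQ : QOK Q o γ) (hN : 0 < N) (v u : (Fin N → Ω) → ℝ) :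
    |PP Q v u| ≤ nrm v * nrm u := by
  have h1 : ∀ u : (Fin N → Ω) → ℝ, PP Q u u ≤ nrm u ^ 2 := fun u => by
    rw [nrm_sq, PP]
    simp only [← sq]
    exact sub_le_self _ (mul_nonneg (by positivity) (BB_nonneg hQ u))
  exact psd_cs (fun t => PP_expand hQ v u t ▸ PP_nonneg hQ hN _) (nrm_nonneg _) (nrm_nonneg _)
    (h1 v) (h1 u)

theorem PP_self_gap (hQ : QOK Q o γ) (hγ : 0 ≤ γ) (hN : 4 ≤ N) {k : ℕ} (hk : k = 1 ∨ k = 2)
    (hu : ∀ x, u x ≠ 0 → lev o x = k) : PP Q u u ≤ (1 - γ / N) * nrm u ^ 2 := by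
  have hN' : (4 : ℝ) ≤ N := by exact_mod_cast hN
  have h1 : γ * (N * ∑ x, u x ^ 2) ≤ BB Q u u := by
    have h2 : ∑ i, ∑ j, γ * ∑ x, (if i = j then 0 else if pl o (x i, x j) = 1 then 1 else 0) *
        u x ^ 2 ≤ BB Q u u := Finset.sum_le_sum fun i _ => Finset.sum_le_sum fun j _ => by
      split_ifs with h
      · simp
      · exact Bij_gap hQ h hu
    refine le_trans ?_ h2
    simp only [← Finset.mul_sum]
    refine mul_le_mul_of_nonneg_left ?_ hγ
    rw [Finset.sum_congr rfl fun i _ => Finset.sum_comm, Finset.sum_comm, Finset.mul_sum]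
    refine Finset.sum_le_sum fun x _ => ?_
    simp only [← Finset.sum_mul]
    by_cases h : u x = 0
    · simp [h]
    rw [cnt_one, hu x h]
    refine mul_le_mul_of_nonneg_right ?_ (sq_nonneg _)
    rcases hk with rfl | rfl <;> push_cast <;> linarith
  have h3 := mul_le_mul_of_nonneg_left h1 (by positivity : 0 ≤ 1 / (N : ℝ) ^ 2)
  have h4 : 1 / (N : ℝ) ^ 2 * (γ * (N * ∑ x, u x ^ 2)) = γ / N * ∑ x, u x ^ 2 := by
    field_simp
  rw [nrm_sq, PP]
  simp only [← sq]
  linarith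

theorem PP_gap (hQ : QOK Q o γ) (hγ : 0 ≤ γ) (hγN : γ / N ≤ 1) (hN : 4 ≤ N) {k : ℕ}
    (hk : k = 1 ∨ k = 2) (hu : ∀ x, u x ≠ 0 → lev o x = k) (hv : ∀ x, v x ≠ 0 → lev o x = k) :
    PP Q v u ≤ (1 - γ / N) * nrm u * nrm v := by
  have h0 : 0 ≤ 1 - γ / N := by linarith
  have h1 := psd_cs (A := Real.sqrt (1 - γ / N) * nrm v) (C := Real.sqrt (1 - γ / N) * nrm u)
    (fun t => PP_expand hQ v u t ▸ PP_nonneg hQ (by omega) _)
    (mul_nonneg (Real.sqrt_nonneg _) (nrm_nonneg _))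
    (mul_nonneg (Real.sqrt_nonneg _) (nrm_nonneg _))
    (by rw [mul_pow, Real.sq_sqrt h0]; exact PP_self_gap hQ hγ hN hk hv)
    (by rw [mul_pow, Real.sq_sqrt h0]; exact PP_self_gap hQ hγ hN hk hu)
  rw [mul_mul_mul_comm, Real.mul_self_sqrt h0] at h1
  refine (le_abs_self _).trans (h1.trans (le_of_eq ?_))
  ring

theorem PP_cross (hQ : QOK Q o γ) {k : ℕ} (hu : ∀ x, u x ≠ 0 → lev o x = k)
    (hv : ∀ x, v x ≠ 0 → k < lev o x) :
    |PP Q v u| ≤ 1 / (N : ℝ) ^ 2 *
      (Real.sqrt ((k + 1) * k * ∑ x, (if lev o x = k + 1 then v x ^ 2 else 0)) *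
        Real.sqrt (2 * k * N * ∑ x, u x ^ 2)) := by
  have h0 : ∑ x, v x * u x = 0 := Finset.sum_eq_zero fun x _ => by
    by_cases h1 : v x = 0
    · simp [h1]
    by_cases h2 : u x = 0
    · simp [h2]
    have := hv x h1
    have := hu x h2
    omega
  rw [PP, h0, zero_sub, abs_neg, abs_mul, abs_of_nonneg (by positivity)]
  refine mul_le_mul_of_nonneg_left ?_ (by positivity)
  let V : Fin N × Fin N → ℝ := fun z => if z.1 = z.2 then 0 else
    nrm fun x => if pl o (x z.1, x z.2) = 2 ∧ lev o x = k + 1 then v x else 0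
  let U : Fin N × Fin N → ℝ := fun z => if z.1 = z.2 then 0 else
    nrm fun x => if pl o (x z.1, x z.2) = 1 then u x else 0
  have h1 : |BB Q v u| ≤ ∑ z, V z * U z := by
    rw [Fintype.sum_prod_type]
    refine (Finset.abs_sum_le_sum_abs _ _).trans (Finset.sum_le_sum fun i _ =>
      (Finset.abs_sum_le_sum_abs _ _).trans (Finset.sum_le_sum fun j _ => ?_))
    simp only [V, U]
    split_ifs with h
    · simp
    · rw [Bij_cross hQ h hu hv]
      exact abs_Bij_le hQ h _ _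
  have h2 : ∑ z, V z ^ 2 = (k + 1) * k * ∑ x, (if lev o x = k + 1 then v x ^ 2 else 0) := by
    have e : ∀ i j, V (i, j) ^ 2 = ∑ x, (if i = j then 0 else if pl o (x i, x j) = 2 then 1 else 0) *
        if lev o x = k + 1 then v x ^ 2 else 0 := by
      intro i j
      simp only [V]
      split_ifs
      · simp
      · rw [nrm_sq]
        refine Finset.sum_congr rfl fun x _ => ?_
        by_cases a1 : pl o (x i, x j) = 2 <;> by_cases a2 : lev o x = k + 1 <;> simp [a1, a2]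
    rw [Fintype.sum_prod_type]
    simp only [e]
    rw [Finset.sum_congr rfl fun i _ => Finset.sum_comm, Finset.sum_comm, Finset.mul_sum]
    refine Finset.sum_congr rfl fun x _ => ?_
    simp only [← Finset.sum_mul]
    rw [cnt_two]
    split_ifs with h
    · rw [h]
      push_cast
      ring
    · simp
  have h3 : ∑ z, U z ^ 2 ≤ 2 * k * N * ∑ x, u x ^ 2 := by
    have e : ∀ i j, U (i, j) ^ 2 =
        ∑ x, (if i = j then 0 else if pl o (x i, x j) = 1 then 1 else 0) * u x ^ 2 := by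
      intro i j
      simp only [U]
      split_ifs
      · simp
      · rw [nrm_sq]
        refine Finset.sum_congr rfl fun x _ => ?_
        by_cases a1 : pl o (x i, x j) = 1 <;> simp [a1]
    rw [Fintype.sum_prod_type]
    simp only [e]
    rw [Finset.sum_congr rfl fun i _ => Finset.sum_comm, Finset.sum_comm, Finset.mul_sum]
    refine Finset.sum_le_sum fun x _ => ?_
    simp only [← Finset.sum_mul]
    by_cases h : u x = 0
    · simp [h]
    rw [cnt_one, hu x h]
    refine mul_le_mul_of_nonneg_right (mul_le_mul_of_nonneg_left ?_ (by positivity)) (sq_nonneg _)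
    exact sub_le_self _ (Nat.cast_nonneg k)
  refine h1.trans ((Real.sum_mul_le_sqrt_mul_sqrt _ _ _).trans ?_)
  rw [h2]
  exact mul_le_mul_of_nonneg_left (Real.sqrt_le_sqrt h3) (Real.sqrt_nonneg _)

theorem PP_cross_zero (hQ : QOK Q o γ) {k : ℕ} (hu : ∀ x, u x ≠ 0 → lev o x = k)
    (hv : ∀ x, v x ≠ 0 → k < lev o x) (hk : k = 0 ∨ ∀ x, v x ≠ 0 → k + 1 < lev o x) :
    PP Q v u = 0 := by
  have h := PP_cross hQ hu hv
  have e : ((k : ℝ) + 1) * k * ∑ x, (if lev o x = k + 1 then v x ^ 2 else 0) = 0 := by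
    rcases hk with rfl | hk
    · simp
    · rw [Finset.sum_eq_zero, mul_zero]
      intro x _
      split_ifs with h1
      · by_cases h2 : v x = 0
        · simp [h2]
        · have := hk x h2
          omega
      · rfl
  rw [e, Real.sqrt_zero, zero_mul, mul_zero] at h
  exact abs_nonpos_iff.1 h

theorem PP_cross_le (hQ : QOK Q o γ) {r : ℝ} (hr : 0 < r) (hrN : r ^ 2 = N) {k : ℕ} (hk : k ≤ 2)
    (hu : ∀ x, u x ≠ 0 → lev o x = k) (hv : ∀ x, v x ≠ 0 → k < lev o x) :
    |PP Q v u| ≤ 5 / r ^ 3 * nrm v * nrm u := by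
  refine (PP_cross hQ hu hv).trans ?_
  have hk' : (k : ℝ) ≤ 2 := by exact_mod_cast hk
  have hk0 : (0 : ℝ) ≤ k := Nat.cast_nonneg k
  have hv0 := nrm_nonneg v
  have hu0 := nrm_nonneg u
  have h1 : Real.sqrt ((k + 1) * k * ∑ x, (if lev o x = k + 1 then v x ^ 2 else 0)) ≤
      5 / 2 * nrm v := by
    refine Real.sqrt_le_iff.2 ⟨by positivity, ?_⟩
    rw [mul_pow, nrm_sq]
    refine mul_le_mul (by nlinarith) (Finset.sum_le_sum fun x _ => ?_)
      (Finset.sum_nonneg fun x _ => ?_) (by norm_num)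
    · split_ifs
      · exact le_rfl
      · exact sq_nonneg _
    · split_ifs
      · exact sq_nonneg _
      · exact le_rfl
  have h2 : Real.sqrt (2 * k * N * ∑ x, u x ^ 2) ≤ 2 * r * nrm u := by
    refine Real.sqrt_le_iff.2 ⟨by positivity, ?_⟩
    rw [mul_pow, nrm_sq, ← hrN]
    refine mul_le_mul_of_nonneg_right ?_ (Finset.sum_nonneg fun _ _ => sq_nonneg _)
    nlinarith [mul_le_mul_of_nonneg_right hk' (sq_nonneg r)]
  refine (mul_le_mul_of_nonneg_left (mul_le_mul h1 h2 (Real.sqrt_nonneg _) (by positivity))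
    (by positivity)).trans (le_of_eq ?_)
  rw [← hrN]
  field_simp

end Vale.Agent.P308
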