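import Vale.Agent.P308.PopA

/-! The recurrences for the norms of the sectors. -/

namespace Vale.Agent.P308

open Finset

theorem pop_rec (a1 a2 a3 : ℕ → ℝ) {θ β : ℝ} {T : ℕ} (p1 : ∀ t, 0 ≤ a1 t) (p2 : ∀ t, 0 ≤ a2 t)
    (p3 : ∀ t, 0 ≤ a3 t) (hθ0 : 0 < θ) (hθ1 : θ ≤ 1) (hβ0 : 0 ≤ β) (hβ1 : β ≤ 1 / 2)
    (h1 : ∀ t, a1 (t + 1) ≤ (1 - θ) * a1 t + β * θ * a2 t)
    (h2 : ∀ t, a2 (t + 1) ≤ (1 - θ) * a2 t + β * θ * a1 t + β * θ * a3 t)
    (h3 : ∀ t, a3 (t + 1) ≤ a3 t + β * θ * a2 t) (hT0 : 0 < T) (hT : 2 * β ^ 2 * θ * T ≤ 1 / 2) :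
    a1 T + a2 T + a3 T ≤
      2 / (θ * T) * (a1 0 + a2 0) + 7 / 2 * (a3 0 + 2 * β * a2 0 + 4 * β ^ 2 * a1 0) := by
  set y : ℝ := 2 * β ^ 2 * θ with hy
  have hy0 : 0 ≤ y := by positivity
  let Ψ : ℕ → ℝ := fun t => a3 t + 2 * β * a2 t + 4 * β ^ 2 * a1 t
  have hΨ0 : 0 ≤ Ψ 0 := by
    have := p1 0
    have := p2 0
    have := p3 0
    positivity
  have s1 : ∀ t, Ψ t ≤ (1 + y) ^ t * Ψ 0 := by
    intro t
    induction t with
    | zero => simp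
    | succ t ih =>
      rw [pow_succ', mul_assoc]
      refine le_trans ?_ (mul_le_mul_of_nonneg_left ih (by positivity))
      have b2 := mul_le_mul_of_nonneg_left (h2 t) (by positivity : 0 ≤ 2 * β)
      have b1 := mul_le_mul_of_nonneg_left (h1 t) (by positivity : 0 ≤ 4 * β ^ 2)
      have c1 : 0 ≤ β ^ 2 * θ * a1 t := by have := p1 t; positivity
      have c2 : 0 ≤ β * θ * a2 t := by have := p2 t; positivity
      have c3 : 0 ≤ β ^ 4 * θ * a1 t := by have := p1 t; positivity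
      simp only [Ψ, hy]
      nlinarith [h3 t]
  have s2 : ∀ t, t ≤ T → a3 t ≤ 7 / 4 * Ψ 0 := by
    intro t ht
    have b1 : (1 + y) ^ t ≤ Real.exp (t * y) := by
      rw [Real.exp_nat_mul]
      exact pow_le_pow_left₀ (by positivity) (by linarith [Real.add_one_le_exp y]) t
    have b2 : (t : ℝ) * y ≤ 1 / 2 := by
      have : (t : ℝ) ≤ T := by exact_mod_cast ht
      nlinarith
    have b3 : 0 ≤ (t : ℝ) * y := by positivity
    have b4 := (abs_le.1 (Real.abs_exp_sub_one_sub_id_le (x := t * y)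
      (by rw [abs_of_nonneg b3]; linarith))).2
    have b5 : (1 + y) ^ t ≤ 7 / 4 := by nlinarith
    have b6 : a3 t ≤ Ψ t := by
      have := p1 t
      have := p2 t
      simp only [Ψ]
      nlinarith [mul_nonneg hβ0 (p2 t), mul_nonneg (sq_nonneg β) (p1 t)]
    exact b6.trans ((s1 t).trans (mul_le_mul_of_nonneg_right b5 hΨ0))
  have s3 : ∀ t, t ≤ T →
      a1 t + a2 t ≤ (1 - θ / 2) ^ t * (a1 0 + a2 0) + 2 * β * (7 / 4 * Ψ 0) := by
    intro t ht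
    induction t with
    | zero =>
      have : 0 ≤ 2 * β * (7 / 4 * Ψ 0) := by positivity
      simpa using this
    | succ t ih =>
      have b1 := mul_le_mul_of_nonneg_left (ih (by omega)) (by linarith : 0 ≤ 1 - θ / 2)
      have b2 := mul_le_mul_of_nonneg_left (s2 t (by omega)) (by positivity : 0 ≤ β * θ)
      have b3 := mul_le_mul_of_nonneg_right hβ1
        (mul_nonneg hθ0.le (add_nonneg (p1 t) (p2 t)))
      rw [pow_succ', mul_assoc]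
      nlinarith [h1 t, h2 t]
  have s4 : (1 - θ / 2) ^ T ≤ 2 / (θ * T) := by
    have hT' : (0 : ℝ) < T := by exact_mod_cast hT0
    have b1 : (1 - θ / 2) ^ T ≤ Real.exp (T * -(θ / 2)) := by
      rw [Real.exp_nat_mul]
      exact pow_le_pow_left₀ (by linarith) (by linarith [Real.add_one_le_exp (-(θ / 2))]) T
    refine b1.trans ?_
    rw [mul_neg, Real.exp_neg, inv_le_comm₀ (Real.exp_pos _) (by positivity), inv_div]
    linarith [Real.add_one_le_exp (T * (θ / 2))]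
  have b1 := s3 T le_rfl
  have b2 := s2 T le_rfl
  have b3 := mul_le_mul_of_nonneg_right s4 (add_nonneg (p1 0) (p2 0))
  have b4 := mul_le_mul_of_nonneg_right hβ1 hΨ0
  change _ ≤ _ + 7 / 2 * Ψ 0
  nlinarith

theorem pop_fin {a1 a2 a3 σ β : ℝ} (n2 : 0 ≤ a2) (hσ0 : 0 ≤ σ) (hβ0 : 0 ≤ β) (hβ1 : β ≤ 1 / 2)
    (hσ : σ ≤ β ^ 2) (i1 : a1 ≤ 26 / 25 * σ) (i2 : a2 ≤ 33 / 25 * σ ^ 2)
    (i3 : a3 ≤ 33 / 25 * σ ^ 2) :
    a1 + a2 ≤ 2 * σ ∧ 7 / 2 * (a3 + 2 * β * a2 + 4 * β ^ 2 * a1) ≤ 24 * (β ^ 2 * σ) := by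
  have c0 : β ^ 2 ≤ 1 / 4 := by nlinarith
  have c1 : σ ^ 2 ≤ β ^ 2 * σ := by nlinarith
  have c2 : σ ^ 2 ≤ 1 / 4 * σ := by nlinarith
  have c3 := mul_le_mul_of_nonneg_left i1 (sq_nonneg β)
  have c4 := mul_le_mul_of_nonneg_right hβ1 n2
  have c5 := mul_nonneg (sq_nonneg β) hσ0
  constructor <;> linarith

theorem pop_num (a1 a2 a3 : ℕ → ℝ) {γ ε r n : ℝ} {T : ℕ} (p1 : ∀ t, 0 ≤ a1 t)
    (p2 : ∀ t, 0 ≤ a2 t) (p3 : ∀ t, 0 ≤ a3 t) (hγ0 : 0 < γ) (hγN : γ / n ≤ 1) (hr : 0 < r)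
    (hrN : r ^ 2 = n) (hβ : 10 ≤ γ * r) (hT0 : 0 < T)
    (hT : 100 * (T : ℝ) ≤ γ * r ^ 4) (hε0 : 0 ≤ ε) (hε : ε * r * (γ * r) ^ 2 ≤ 25)
    (h1 : ∀ t, a1 (t + 1) ≤ (1 - γ / n) * a1 t + 5 / r ^ 3 * a2 t)
    (h2 : ∀ t, a2 (t + 1) ≤ (1 - γ / n) * a2 t + 5 / r ^ 3 * a1 t + 5 / r ^ 3 * a3 t)
    (h3 : ∀ t, a3 (t + 1) ≤ a3 t + 5 / r ^ 3 * a2 t) (i1 : a1 0 ≤ 26 / 25 * (ε * r))
    (i2 : a2 0 ≤ 33 / 25 * (ε * r) ^ 2) (i3 : a3 0 ≤ 33 / 25 * (ε * r) ^ 2) :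
    a1 T + a2 T + a3 T ≤ ε * r * (4 * r ^ 2 / (γ * T) + 600 / (γ * r) ^ 2) := by
  subst hrN
  have hT' : (0 : ℝ) < T := by exact_mod_cast hT0
  have hβ0 : 0 < 5 / (γ * r) := by positivity
  have hβ1 : 5 / (γ * r) ≤ 1 / 2 := by rw [div_le_iff₀ (by positivity)]; linarith
  have hb : 5 / r ^ 3 = 5 / (γ * r) * (γ / r ^ 2) := by field_simp
  have hσ : ε * r ≤ (5 / (γ * r)) ^ 2 := by
    rw [div_pow, le_div_iff₀ (by positivity)]
    linarith
  have e : 2 * (5 / (γ * r)) ^ 2 * (γ / r ^ 2) * T = 50 * T / (γ * r ^ 4) := by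
    field_simp
    norm_num
  have e1 : ε * r * (4 * r ^ 2 / (γ * T) + 600 / (γ * r) ^ 2) =
      2 / (γ / r ^ 2 * T) * (2 * (ε * r)) + 24 * ((5 / (γ * r)) ^ 2 * (ε * r)) := by
    field_simp
    ring
  rw [hb] at h1 h2 h3
  have s3 := pop_rec a1 a2 a3 p1 p2 p3 (by positivity) hγN hβ0.le hβ1 h1 h2 h3 hT0 (by
    rw [e, div_le_iff₀ (by positivity)]
    linarith)
  obtain ⟨c1, c2⟩ := pop_fin (p2 0) (by positivity) hβ0.le hβ1 hσ i1 i2 i3
  rw [e1]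
  exact s3.trans (add_le_add (mul_le_mul_of_nonneg_left c1 (by positivity)) c2)

variable {Ω : Type} [Fintype Ω] [DecidableEq Ω] {N : ℕ}

/-- Projection to the sectors with excitation number in `P`. -/
def pr (o : Ω) (P : ℕ → Prop) [DecidablePred P] (u : (Fin N → Ω) → ℝ) (x : Fin N → Ω) : ℝ :=
  if P (lev o x) then u x else 0

variable {Q : Ω × Ω → Ω × Ω → ℝ} {o : Ω} {γ : ℝ}

omit [Fintype Ω] in
theorem pr_supp {P : ℕ → Prop} [DecidablePred P] {u : (Fin N → Ω) → ℝ} (x : Fin N → Ω)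
    (h : pr o P u x ≠ 0) : P (lev o x) := by
  by_contra h'
  exact h (if_neg h')

theorem nrm_pr_Ph (P : ℕ → Prop) [DecidablePred P] (u : (Fin N → Ω) → ℝ) {R : ℝ} (hR : 0 ≤ R)
    (h : PP Q (pr o P (Ph Q u)) (pr o (· = 0) u) + PP Q (pr o P (Ph Q u)) (pr o (· = 1) u) +
      PP Q (pr o P (Ph Q u)) (pr o (· = 2) u) + PP Q (pr o P (Ph Q u)) (pr o (3 ≤ ·) u) ≤
        R * nrm (pr o P (Ph Q u))) : nrm (pr o P (Ph Q u)) ≤ R := by
  have e1 : u = fun x =>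
      pr o (· = 0) u x + pr o (· = 1) u x + pr o (· = 2) u x + pr o (3 ≤ ·) u x := by
    funext x
    simp only [pr]
    split_ifs <;> first | omega | simp
  have e2 : nrm (pr o P (Ph Q u)) ^ 2 = PP Q (pr o P (Ph Q u)) u := by
    rw [nrm_sq, ← sum_mul_Ph]
    refine Finset.sum_congr rfl fun x _ => ?_
    simp only [pr]
    split_ifs <;> ring
  have e3 := congrArg (PP Q (pr o P (Ph Q u))) e1
  rw [PP_add_right, PP_add_right, PP_add_right] at e3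
  have h0 := nrm_nonneg (pr o P (Ph Q u))
  by_contra hlt
  rw [not_le] at hlt
  nlinarith

theorem pop_step (hQ : QOK Q o γ) (hγ : 0 ≤ γ) (hγN : γ / N ≤ 1) (hN : 4 ≤ N) {r : ℝ} (hr : 0 < r)
    (hrN : r ^ 2 = N) (u : (Fin N → Ω) → ℝ) :
    nrm (pr o (· = 1) (Ph Q u)) ≤
        (1 - γ / N) * nrm (pr o (· = 1) u) + 5 / r ^ 3 * nrm (pr o (· = 2) u) ∧
      nrm (pr o (· = 2) (Ph Q u)) ≤ (1 - γ / N) * nrm (pr o (· = 2) u) +
        5 / r ^ 3 * nrm (pr o (· = 1) u) + 5 / r ^ 3 * nrm (pr o (3 ≤ ·) u) ∧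
      nrm (pr o (3 ≤ ·) (Ph Q u)) ≤ nrm (pr o (3 ≤ ·) u) + 5 / r ^ 3 * nrm (pr o (· = 2) u) := by
  have n1 := nrm_nonneg (pr o (· = 1) u)
  have n2 := nrm_nonneg (pr o (· = 2) u)
  have n3 := nrm_nonneg (pr o (3 ≤ ·) u)
  have h0 : 0 ≤ 1 - γ / N := by linarith
  have u0 : ∀ x, pr o (· = 0) u x ≠ 0 → lev o x = 0 := pr_supp
  have u1 : ∀ x, pr o (· = 1) u x ≠ 0 → lev o x = 1 := pr_supp
  have u2 : ∀ x, pr o (· = 2) u x ≠ 0 → lev o x = 2 := pr_supp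
  have u3 : ∀ x, pr o (3 ≤ ·) u x ≠ 0 → 3 ≤ lev o x := pr_supp
  refine ⟨nrm_pr_Ph _ u (by positivity) ?_, nrm_pr_Ph _ u (by positivity) ?_,
    nrm_pr_Ph _ u (by positivity) ?_⟩
  · have hv : ∀ x, pr o (· = 1) (Ph Q u) x ≠ 0 → lev o x = 1 := pr_supp
    generalize pr o (· = 1) (Ph Q u) = v at hv
    have a0 := PP_cross_zero hQ u0 (fun x h => by have := hv x h; omega) (Or.inl rfl)
    have a1 := PP_gap hQ hγ hγN hN (Or.inl rfl) u1 hv
    have a2 := (abs_le.1 (PP_cross_le hQ hr hrN (by norm_num) hv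
      fun x h => by have := u2 x h; omega)).2
    have a3 := PP_cross_zero hQ hv (fun x h => by have := u3 x h; omega)
      (Or.inr fun x h => by have := u3 x h; omega)
    rw [PP_symm hQ] at a2 a3
    linarith
  · have hv : ∀ x, pr o (· = 2) (Ph Q u) x ≠ 0 → lev o x = 2 := pr_supp
    generalize pr o (· = 2) (Ph Q u) = v at hv
    have a0 := PP_cross_zero hQ u0 (fun x h => by have := hv x h; omega) (Or.inl rfl)
    have a1 := (abs_le.1 (PP_cross_le hQ hr hrN (by norm_num) u1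
      fun x h => by have := hv x h; omega)).2
    have a2 := PP_gap hQ hγ hγN hN (Or.inr rfl) u2 hv
    have a3 := (abs_le.1 (PP_cross_le hQ hr hrN le_rfl hv
      fun x h => by have := u3 x h; omega)).2
    rw [PP_symm hQ] at a3
    linarith
  · have hv : ∀ x, pr o (3 ≤ ·) (Ph Q u) x ≠ 0 → 3 ≤ lev o x := pr_supp
    generalize pr o (3 ≤ ·) (Ph Q u) = v at hv
    have a0 := PP_cross_zero hQ u0 (fun x h => by have := hv x h; omega) (Or.inl rfl)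
    have a1 := PP_cross_zero hQ u1 (fun x h => by have := hv x h; omega)
      (Or.inr fun x h => by have := hv x h; omega)
    have a2 := (abs_le.1 (PP_cross_le hQ hr hrN le_rfl u2
      fun x h => by have := hv x h; omega)).2
    have a3 := (abs_le.1 (PP_le hQ (by omega) v (pr o (3 ≤ ·) u))).2
    linarith

theorem Ph_base (hQ : QOK Q o γ) (u : (Fin N → Ω) → ℝ) : Ph Q u (fun _ => o) = u fun _ => o := by
  simp [Ph, hQ.zero]

theorem pop_gen {h : Ω → ℝ} (ho : h o = 1) {ε : ℝ} (hh : ∑ a, h a ^ 2 ≤ 1 + ε ^ 2) {t : ℝ}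
    (ht : 1 ≤ t) :
    1 + nrm (pr o (· = 1) fun x : Fin N → Ω => ∏ k, h (x k)) ^ 2 +
      t ^ 2 * (nrm (pr o (· = 2) fun x : Fin N → Ω => ∏ k, h (x k)) ^ 2 +
        nrm (pr o (3 ≤ ·) fun x : Fin N → Ω => ∏ k, h (x k)) ^ 2) ≤
      Real.exp (N * (t * ε ^ 2)) := by
  have h1 : ∑ a, t ^ ex o a * h a ^ 2 ≤ Real.exp (t * ε ^ 2) := by
    have e : ∀ a, t ^ ex o a * h a ^ 2 = t * h a ^ 2 + if a = o then 1 - t else 0 := by
      intro a
      by_cases ha : a = o <;> simp [ex, ha, ho]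
    simp only [e, Finset.sum_add_distrib, ← Finset.mul_sum, Finset.sum_ite_eq', Finset.mem_univ,
      if_true]
    nlinarith [Real.add_one_le_exp (t * ε ^ 2)]
  have h2 : ∏ _k : Fin N, ∑ a, t ^ ex o a * h a ^ 2 ≤ Real.exp (N * (t * ε ^ 2)) := by
    rw [Finset.prod_const, Finset.card_univ, Fintype.card_fin, Real.exp_nat_mul]
    exact pow_le_pow_left₀ (Finset.sum_nonneg fun a _ => by positivity) h1 N
  refine le_trans ?_ h2
  have e1 : (1 : ℝ) = ∑ x : Fin N → Ω, if x = fun _ => o then 1 else 0 := by simp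
  rw [Fintype.prod_sum, nrm_sq, nrm_sq, nrm_sq, ← Finset.sum_add_distrib, Finset.mul_sum]
  refine le_trans (le_of_eq (congrArg (· + _ + _) e1)) ?_
  rw [← Finset.sum_add_distrib, ← Finset.sum_add_distrib]
  refine Finset.sum_le_sum fun x _ => ?_
  rw [Finset.prod_mul_distrib, Finset.prod_pow_eq_pow_sum, Finset.prod_pow]
  change _ ≤ t ^ lev o x * _
  by_cases hx : x = fun _ => o
  · have : lev o x = 0 := lev_eq_zero.2 hx
    simp only [pr, this]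
    simp [hx, ho]
  · have h3 : lev o x ≠ 0 := fun h => hx (lev_eq_zero.1 h)
    have h4 := sq_nonneg (∏ k, h (x k))
    simp only [pr, if_neg hx]
    by_cases h5 : lev o x = 1
    · simp only [h5]
      norm_num
      nlinarith
    · have h6 : t ^ 2 ≤ t ^ lev o x := pow_le_pow_right₀ ht (by omega)
      have h7 := mul_le_mul_of_nonneg_right h6 h4
      split_ifs <;> first | omega | simpa using h7

theorem pop_init {h : Ω → ℝ} (ho : h o = 1) {ε r : ℝ} (hh : ∑ a, h a ^ 2 ≤ 1 + ε ^ 2)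
    (hrN : r ^ 2 = N) (h0 : 0 ≤ ε * r) (h1 : ε * r ≤ 1 / 4) :
    nrm (pr o (· = 1) fun x : Fin N → Ω => ∏ k, h (x k)) ≤ 26 / 25 * (ε * r) ∧
      nrm (pr o (· = 2) fun x : Fin N → Ω => ∏ k, h (x k)) ≤ 33 / 25 * (ε * r) ^ 2 ∧
      nrm (pr o (3 ≤ ·) fun x : Fin N → Ω => ∏ k, h (x k)) ≤ 33 / 25 * (ε * r) ^ 2 := by
  have g : ∀ t : ℝ, 1 ≤ t → _ := fun t ht => pop_gen (N := N) ho hh ht
  have e : ∀ t : ℝ, N * (t * ε ^ 2) = t * (ε * r) ^ 2 := fun t => by rw [← hrN]; ring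
  simp only [e] at g
  generalize ε * r = σ at h0 h1 g
  have n1 := nrm_nonneg (pr o (· = 1) fun x : Fin N → Ω => ∏ k, h (x k))
  have n2 := nrm_nonneg (pr o (· = 2) fun x : Fin N → Ω => ∏ k, h (x k))
  have n3 := nrm_nonneg (pr o (3 ≤ ·) fun x : Fin N → Ω => ∏ k, h (x k))
  generalize nrm (pr o (· = 1) fun x : Fin N → Ω => ∏ k, h (x k)) = a1 at n1 g
  generalize nrm (pr o (· = 2) fun x : Fin N → Ω => ∏ k, h (x k)) = a2 at n2 g
  generalize nrm (pr o (3 ≤ ·) fun x : Fin N → Ω => ∏ k, h (x k)) = a3 at n3 g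
  have b0 : σ ^ 2 ≤ 1 / 16 := by nlinarith
  have b1 := g 1 le_rfl
  rw [one_mul] at b1
  have b2 := (abs_le.1 (Real.abs_exp_sub_one_sub_id_le (x := σ ^ 2)
    (by rw [abs_of_nonneg (sq_nonneg σ)]; linarith))).2
  have b3 : a2 ^ 2 + a3 ^ 2 ≤ (33 / 25 * σ ^ 2) ^ 2 := by
    rcases h0.eq_or_lt with rfl | hσ
    · nlinarith [sq_nonneg a1]
    · have c0 : 0 < σ ^ 2 := by positivity
      have c1 := g (1 / σ ^ 2) (by rw [le_div_iff₀ c0]; linarith)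
      rw [one_div_mul_cancel c0.ne'] at c1
      have c2 : (1 / σ ^ 2) ^ 2 * (a2 ^ 2 + a3 ^ 2) ≤ (33 / 25) ^ 2 := by
        linarith [Real.exp_one_lt_d9, sq_nonneg a1]
      rw [div_pow, one_pow, one_div_mul_eq_div, div_le_iff₀ (by positivity)] at c2
      rwa [mul_pow]
  refine ⟨(pow_le_pow_iff_left₀ n1 (by positivity) two_ne_zero).1 ?_,
    (pow_le_pow_iff_left₀ n2 (by positivity) two_ne_zero).1 ?_,
    (pow_le_pow_iff_left₀ n3 (by positivity) two_ne_zero).1 ?_⟩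
  · nlinarith [sq_nonneg a2, sq_nonneg a3, mul_le_mul_of_nonneg_left b0 (sq_nonneg σ)]
  · linarith [sq_nonneg a3]
  · linarith [sq_nonneg a2]

theorem pop_abs (hQ : QOK Q o γ) {ε r : ℝ} {T : ℕ} (hγ0 : 0 < γ) (hγ1 : γ ≤ 1) (hr : 0 < r)
    (hrN : r ^ 2 = N) (hN : 4 ≤ N) (hβ : 10 ≤ γ * r) (hT0 : 0 < T)
    (hT : 100 * (T : ℝ) ≤ γ * r ^ 4) (hε0 : 0 ≤ ε) (hε : ε * r * (γ * r) ^ 2 ≤ 25)
    {h : Ω → ℝ} (ho : h o = 1) (hh : ∑ a, h a ^ 2 ≤ 1 + ε ^ 2) {g : (Fin N → Ω) → ℝ}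
    (hg : ∑ x, g x ^ 2 ≤ 1) :
    |∑ x : Fin N → Ω, (∏ k, h (x k)) * (Ph Q)^[T] g x - g fun _ => o|
      ≤ ε * r * (4 * r ^ 2 / (γ * T) + 600 / (γ * r) ^ 2) := by
  have hN' : (4 : ℝ) ≤ N := by exact_mod_cast hN
  have hγN : γ / N ≤ 1 := by rw [div_le_one (by linarith)]; linarith
  set w : (Fin N → Ω) → ℝ := fun x => ∏ k, h (x k) with hw
  have s1 : ∀ (t : ℕ) (v : (Fin N → Ω) → ℝ),
      ∑ x, v x * (Ph Q)^[t] g x = ∑ x, (Ph Q)^[t] v x * g x := by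
    intro t
    induction t with
    | zero => exact fun v => rfl
    | succ t ih =>
      intro v
      rw [Function.iterate_succ_apply', sum_mul_Ph, PP_symm hQ, ← sum_mul_Ph,
        Function.iterate_succ_apply, ← ih]
      simp only [mul_comm]
  have s2 : ∀ t : ℕ, (Ph Q)^[t] w (fun _ => o) = 1 := by
    intro t
    induction t with
    | zero => simp [hw, ho]
    | succ t ih => rw [Function.iterate_succ_apply', Ph_base hQ, ih]
  have st := fun t => pop_step hQ hγ0.le hγN hN hr hrN ((Ph Q)^[t] w)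
  simp only [← Function.iterate_succ_apply' (Ph Q)] at st
  obtain ⟨i1, i2, i3⟩ := pop_init (N := N) ho hh hrN (by positivity) (by
    have h1 : 10 ^ 2 ≤ (γ * r) ^ 2 := pow_le_pow_left₀ (by norm_num) hβ 2
    have h2 := mul_le_mul_of_nonneg_left h1 (by positivity : 0 ≤ ε * r)
    linarith)
  have s3 := pop_num (fun t => nrm (pr o (· = 1) ((Ph Q)^[t] w)))
    (fun t => nrm (pr o (· = 2) ((Ph Q)^[t] w))) (fun t => nrm (pr o (3 ≤ ·) ((Ph Q)^[t] w)))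
    (fun _ => nrm_nonneg _) (fun _ => nrm_nonneg _) (fun _ => nrm_nonneg _) hγ0 hγN hr hrN hβ hT0
    hT hε0 hε (fun t => (st t).1) (fun t => (st t).2.1) (fun t => (st t).2.2) i1 i2 i3
  have s4 : ∑ x, (Ph Q)^[T] w x * g x - g (fun _ => o) =
      ∑ x, pr o (· = 1) ((Ph Q)^[T] w) x * g x + ∑ x, pr o (· = 2) ((Ph Q)^[T] w) x * g x +
        ∑ x, pr o (3 ≤ ·) ((Ph Q)^[T] w) x * g x := by
    have e1 : g (fun _ => o) = ∑ x : Fin N → Ω, if x = fun _ => o then g x else 0 := by simp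
    rw [e1, ← Finset.sum_sub_distrib, ← Finset.sum_add_distrib, ← Finset.sum_add_distrib]
    refine Finset.sum_congr rfl fun x _ => ?_
    by_cases hx : x = fun _ => o
    · have : lev o x = 0 := lev_eq_zero.2 hx
      simp only [pr, this]
      simp [hx, s2]
    · have h3 : lev o x ≠ 0 := fun h => hx (lev_eq_zero.1 h)
      simp only [pr, if_neg hx]
      split_ifs <;> first | omega | simp
  have s5 : ∀ v : (Fin N → Ω) → ℝ, |∑ x, v x * g x| ≤ nrm v := by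
    intro v
    refine Real.abs_le_sqrt ((Finset.sum_mul_sq_le_sq_mul_sq _ _ _).trans ?_)
    exact mul_le_of_le_one_right (Finset.sum_nonneg fun _ _ => sq_nonneg _) hg
  rw [s1, s4]
  exact (abs_add_three _ _ _).trans ((add_le_add (add_le_add (s5 _) (s5 _)) (s5 _)).trans s3)

end Vale.Agent.P308
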