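import Vale.Agent.P308.Tape

/-! The algorithm on lists of numbers. -/

namespace Vale.Agent.P308

open Vale.Agent.P317

/-- Context: rows of the adjacency matrix and a list whose length fixes the scale. -/
abbrev Ctx : Type := List (List Bool) × List ℕ

def cn (c : Ctx) : ℕ := c.1.length

def cl (c : Ctx) : ℕ := c.2.length.size

def rn (c : Ctx) : List ℕ := List.range c.1.length

def vw (x : List ℕ) (i : ℕ) : ℕ := x.getD i 0

def gm (M : List (List ℕ)) (u v : ℕ) : ℕ := (M.getD u []).getD v 0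

def ga (c : Ctx) (u v : ℕ) : Bool := (c.1.getD u []).getD v false

def tabN (c : Ctx) (g : ℕ → ℕ) : List ℕ := (rn c).map fun v => min (g v) (cn c)

def tabM (c : Ctx) (g : ℕ → ℕ → ℕ) : List (List ℕ) := (rn c).map fun u => (rn c).map fun v => g u v

def walkP (c : Ctx) (X Y : List ℕ) (a b : ℕ) : List ℕ :=
  (((rn c).filter fun i => Nat.ble i b).foldl
    (fun (s : ℕ × List ℕ) i => (vw (bif Nat.beq (i % 2) 0 then X else Y) s.1, s.1 :: s.2))
    (a, [])).2.reverse

def idxP (Q : List ℕ) (v : ℕ) : ℕ :=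
  ((List.range Q.length).filter fun i => Nat.beq (vw Q i) v).headD Q.length

def nxtP (Q : List ℕ) (v : ℕ) : ℕ :=
  bif Nat.blt (idxP Q v) Q.length then vw Q ((idxP Q v + 1) % Q.length) else v

def ndpP (c : Ctx) (Q : List ℕ) : Bool :=
  ((rn c).filter fun v => Nat.blt 1 (Q.filter fun w => Nat.beq w v).length).isEmpty

def arcQ (c : Ctx) (a : ℕ) (Q X Y : List ℕ) : List ℕ × List ℕ :=
  bif ndpP c Q && (Nat.beq (Q.length % 2) 1 || Nat.beq (vw Y a) (Q.reverse.headD 0)) then
    (tabN c fun v => nxtP Q.reverse (vw Y (nxtP Q v)),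
      tabN c fun v => nxtP Q (vw X (nxtP Q.reverse v)))
  else (X, Y)

def spP (u v w : ℕ) : ℕ := bif Nat.beq w u then v else bif Nat.beq w v then u else w

def swapP (c : Ctx) (u v : ℕ) (X : List ℕ) : List ℕ :=
  tabN c fun w => spP u v (vw X (spP u v w))

def mvP (c : Ctx) (t a b : ℕ) (X Y : List ℕ) : List ℕ × List ℕ :=
  bif Nat.blt t 2 && (Nat.blt a (cn c) && Nat.blt b (cn c)) then
    (bif Nat.beq t 0 then arcQ c a (walkP c X Y a b) X Y else (swapP c a b X, Y))
  else (X, Y)

def enP (c : Ctx) (K : List (List ℕ)) (X : List ℕ) : ℕ :=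
  ((rn c).map fun v => gm K v (vw X v)).sum

def setP (c : Ctx) (x : List (List ℕ)) (i : ℕ) (X : List ℕ) : List (List ℕ) :=
  (List.range (pN (cl c))).map fun s => tabN c (vw (bif Nat.beq s i then X else x.getD s []))

def accQ (c : Ctx) (K x : List (List ℕ)) (i j u : ℕ) (p : List ℕ × List ℕ) : List (List ℕ) :=
  bif Nat.blt u (pw (cl c) (enP c K p.1 + enP c K p.2 -
      (enP c K (x.getD i []) + enP c K (x.getD j [])))) then
    setP c (setP c x i p.1) j p.2
  else x

def stepFP (c : Ctx) (K x : List (List ℕ)) (i j t a b u : ℕ) : List (List ℕ) :=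
  bif Nat.blt i (pN (cl c)) && (Nat.blt j (pN (cl c)) && !Nat.beq i j) then
    accQ c K x i j u (mvP c t a b (x.getD i []) (x.getD j []))
  else x

def stepP (c : Ctx) (K x : List (List ℕ)) : Rand (List (List ℕ)) :=
  (bits (pK (cl c))).bind fun i => (bits (pK (cl c))).bind fun j => (bits 2).bind fun t =>
    (bits (cl c)).bind fun a => (bits (cl c)).bind fun b =>
      (bits (pM (cl c) * pD (cl c))).bind fun u => .ret (stepFP c K x i j t a b u)

def x0P (c : Ctx) : List ℕ := tabN c fun v => bif Nat.beq (v % 2) 0 then v + 1 else v - 1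

def initP (c : Ctx) : Rand (List ℕ) :=
  iterIdx (fun i X => (bits (pB (cl c))).bind fun u =>
    .ret (swapP c (2 * i) (u % (2 * i + 1)) X)) (cn c / 2) (x0P c)

def popP (c : Ctx) : Rand (List (List ℕ)) :=
  iterIdx (fun t x => (initP c).bind fun X => .ret (setP c x t X)) (pN (cl c))
    ((List.range (pN (cl c))).map fun _ => x0P c)

def KKP (H : List (List (List ℕ))) (j u v : ℕ) : ℕ :=
  (((List.range H.length).filter fun i => Nat.blt i j).map fun i => gm (H.getD i []) u v).sum

def kkP (c : Ctx) (H : List (List (List ℕ))) (s : ℕ) : List (List ℕ) :=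
  tabM c fun u v => pU (cl c) * KKP H (s / pU (cl c)) u v +
    s % pU (cl c) * gm (H.getD (s / pU (cl c)) []) u v

def sampleP (c : Ctx) (H : List (List (List ℕ))) (j : ℕ) : Rand (List ℕ) :=
  (popP c).bind fun x =>
    (iterIdx (fun s y => iter (stepP c (kkP c H (s + 1))) (pT (cl c)) y)
      (min j (pJ (cl c)) * pU (cl c)) x).bind fun y => .ret (tabN c (vw (y.getD 0 [])))

def cntP (L : List (List ℕ)) (u v : ℕ) : ℕ := (L.filter fun X => Nat.beq (vw X u) v).length

def e1P (c : Ctx) (H : List (List (List ℕ))) (j : ℕ) (X : List ℕ) : ℕ :=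
  pU (cl c) * ((rn c).map fun v => cn c + 1 - gm (H.getD j []) v (vw X v)).sum

def e2P (c : Ctx) (H : List (List (List ℕ))) (j : ℕ) (X : List ℕ) : ℕ :=
  pU (cl c) * ((rn c).map fun v => cn c * (j + 1) - KKP H (j + 1) v (vw X v)).sum

def sum1P (c : Ctx) (H : List (List (List ℕ))) (j : ℕ) (L : List (List ℕ)) : ℕ :=
  (L.map fun X => pw (cl c) (e1P c H j X)).sum

def sum2P (c : Ctx) (H : List (List (List ℕ))) (j : ℕ) (L : List (List ℕ)) : ℕ :=
  (L.map fun X => bif ((rn c).filter fun v => !ga c v (vw X v)).isEmpty then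
    pw (cl c) (e2P c H j X) else 0).sum

def nextP (c : Ctx) (H : List (List (List ℕ))) (j : ℕ) (L : List (List ℕ)) : List (List ℕ) :=
  tabM c fun u v =>
    bif Nat.blt (2 * pI (cl c) * cntP L u v) (pS (cl c)) then 0
    else bif (!ga c u v || Nat.blt (KKP H (j + 1) u v) (cn c * (j + 1))) &&
        Nat.ble (5 * pS (cl c)) (2 * pI (cl c) * cntP L u v) then cn c + 1 else cn c

abbrev AccP : Type := List (List (List ℕ)) × ℕ × ℕ × Bool × ℕ

def roundFP (c : Ctx) (j : ℕ) (A : AccP) (L : List (List ℕ)) : AccP :=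
  (A.1 ++ [nextP c A.1 j L], A.2.1 * (pS (cl c) * pw (cl c) (pU (cl c) * cn c)),
    A.2.2.1 * sum1P c A.1 j L,
    A.2.2.2.1 || Nat.ble (pS (cl c) * sc (cl c)) (4 * sum2P c A.1 j L),
    bif !A.2.2.2.1 && Nat.ble (pS (cl c) * sc (cl c)) (4 * sum2P c A.1 j L) then
      rnd (A.2.1 * (pS (cl c) * pw (cl c) (pU (cl c) * cn c)) * sum2P c A.1 j L)
        (A.2.2.1 * sum1P c A.1 j L * (pS (cl c) * sc (cl c)))
    else A.2.2.2.2)

def samplesP (c : Ctx) (H : List (List (List ℕ))) (j : ℕ) : Rand (List (List ℕ)) :=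
  iter (fun L => (sampleP c H j).bind fun X => .ret (X :: L)) (pS (cl c)) []

def roundP (c : Ctx) (j : ℕ) (A : AccP) : Rand AccP :=
  (samplesP c A.1 (j + 1)).bind fun L => .ret (roundFP c j A L)

def acc0P (c : Ctx) : AccP := ([tabM c fun _ _ => cn c], dfact (cn c / 2), 1, false, 0)

def algP (c : Ctx) : Rand ℕ :=
  (iterIdx (roundP c) (pJ (cl c)) (acc0P c)).bind fun A => .ret A.2.2.2.2

def topP (c : Ctx) : Rand ℕ :=
  bif Nat.beq (cn c % 2) 1 then .ret 0 else bif Nat.beq (cn c) 0 then .ret 1 else algP c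

/-- Raw input: rows, then numerator and denominator of the two rationals. -/
abbrev Raw : Type := List (List Bool) × (ℕ × ℕ) × (ℕ × ℕ)

/-- The scale asked for by the input. -/
def parP (q : Raw) : ℕ :=
  q.1.length + (q.2.1.2 / q.2.1.1 + 1) + (Nat.size (q.2.2.2 / q.2.2.1) + 16)

/-- The whole algorithm as a function of input and tape. -/
def fullP (p : Raw × List Bool) : ℕ :=
  (runT (topP (p.1.1, List.range (min (parP p.1) p.2.length))) p.2).1

end Vale.Agent.P308
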