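import Vale.Agent.P308.Prog
import Vale.Agent.P308.Levels

/-! Running time of the deterministic parts of the program on lists. -/

namespace Vale.Agent.P308

open Vale.Agent.P317 Vale.Agent.Lib.TM

variable {α : Type} [Enc α]

@[fun_prop] theorem ct_cn {c : α → Ctx} (hc : CT 0 c) : CT 0 fun a => cn (c a) := by
  unfold cn; fun_prop

@[fun_prop] theorem ct_cl {c : α → Ctx} (hc : CT 0 c) : CT 0 fun a => cl (c a) := by
  unfold cl; fun_prop

@[fun_prop] theorem ct_rn {c : α → Ctx} (hc : CT 0 c) : CT 0 fun a => rn (c a) := by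
  unfold rn; fun_prop

@[fun_prop] theorem ct_vw {x : α → List ℕ} {i : α → ℕ} (hx : CT 0 x) (hi : CT 0 i) :
    CT 0 fun a => vw (x a) (i a) := by unfold vw; fun_prop

@[fun_prop] theorem ct_gm {x : α → List (List ℕ)} {i j : α → ℕ} (hx : CT 0 x) (hi : CT 0 i)
    (hj : CT 0 j) : CT 0 fun a => gm (x a) (i a) (j a) := by unfold gm; fun_prop

@[fun_prop] theorem ct_ga {c : α → Ctx} {i j : α → ℕ} (hc : CT 0 c) (hi : CT 0 i)
    (hj : CT 0 j) : CT 0 fun a => ga (c a) (i a) (j a) := by unfold ga; fun_prop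

@[fun_prop] theorem ct_tabN {c : α → Ctx} {g : α → ℕ → ℕ} (hc : CT 0 c)
    (hg : CT 0 fun p : α × ℕ => g p.1 p.2) : CT 0 fun a => tabN (c a) (g a) :=
  CT.map (f := fun a v => min (g a v) (cn (c a))) (hg.min (by fun_prop)) (ct_rn hc)

theorem ct_tabM {c : α → Ctx} {g : α → ℕ → ℕ → ℕ} (hc : CT 0 c)
    (hg : CT 0 fun p : (α × ℕ) × ℕ => g p.1.1 p.1.2 p.2) : CT 0 fun a => tabM (c a) (g a) :=
  CT.map (f := fun a u => (rn (c a)).map fun v => g a u v)
    (CT.map (f := fun (p : α × ℕ) v => g p.1 p.2 v) hg (by fun_prop)) (ct_rn hc)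

theorem bd_cn {c : α → Ctx} (hc : CT 0 c) : Bd 0 fun a => cn (c a) := hc.fst.bd_length

theorem bd_cl {c : α → Ctx} (hc : CT 0 c) : Bd 0 fun a => cl (c a) := hc.snd.length.bd_size

theorem two_pow_size_le (m : ℕ) : 2 ^ m.size ≤ 2 * m + 1 := by
  rcases Nat.eq_zero_or_pos m with rfl | hm
  · simp
  · have h2 := Nat.size_pos.mpr hm
    have h3 := Nat.lt_size.mp (show m.size - 1 < m.size by omega)
    rw [show m.size = m.size - 1 + 1 by omega, pow_succ]
    omega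

theorem bd_W {c : α → Ctx} (hc : CT 0 c) (k : ℕ) : Bd 0 fun a => 2 ^ (k * cl (c a)) := by
  have h : Bd 0 fun a => 2 ^ cl (c a) :=
    (((Bd.const 2).mul hc.snd.bd_length).add (Bd.const 1)).of_le fun a => two_pow_size_le _
  induction k with
  | zero => exact (Bd.const 1).of_le fun a => by simp
  | succ k ih => exact (ih.mul h).of_le fun a => by rw [add_mul, one_mul, pow_add]

theorem ct_W {c : α → Ctx} (hc : CT 0 c) (k : ℕ) : CT 0 fun a => 2 ^ (k * cl (c a)) :=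
  CT.pow (CT.const 2) (by fun_prop) ((Bd.const k).mul (bd_cl hc))

@[fun_prop] theorem ct_pN {c : α → Ctx} (hc : CT 0 c) : CT 0 fun a => pN (cl (c a)) := ct_W hc 556
@[fun_prop] theorem ct_pD {c : α → Ctx} (hc : CT 0 c) : CT 0 fun a => pD (cl (c a)) := ct_W hc 587
@[fun_prop] theorem ct_pU {c : α → Ctx} (hc : CT 0 c) : CT 0 fun a => pU (cl (c a)) := ct_W hc 577
@[fun_prop] theorem ct_pT {c : α → Ctx} (hc : CT 0 c) : CT 0 fun a => pT (cl (c a)) := ct_W hc 982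
@[fun_prop] theorem ct_pS {c : α → Ctx} (hc : CT 0 c) : CT 0 fun a => pS (cl (c a)) := ct_W hc 24
@[fun_prop] theorem ct_pJ {c : α → Ctx} (hc : CT 0 c) : CT 0 fun a => pJ (cl (c a)) := ct_W hc 7
@[fun_prop] theorem ct_pI {c : α → Ctx} (hc : CT 0 c) : CT 0 fun a => pI (cl (c a)) := ct_W hc 3
@[fun_prop] theorem ct_pK {c : α → Ctx} (hc : CT 0 c) : CT 0 fun a => pK (cl (c a)) :=
  (CT.const 556).mul (ct_cl hc)
@[fun_prop] theorem ct_pM {c : α → Ctx} (hc : CT 0 c) : CT 0 fun a => pM (cl (c a)) :=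
  (CT.const 580).mul (ct_cl hc)
@[fun_prop] theorem ct_pB {c : α → Ctx} (hc : CT 0 c) : CT 0 fun a => pB (cl (c a)) :=
  (CT.const 570).mul (ct_cl hc)

theorem bd_pN {c : α → Ctx} (hc : CT 0 c) : Bd 0 fun a => pN (cl (c a)) := bd_W hc 556
theorem bd_pD {c : α → Ctx} (hc : CT 0 c) : Bd 0 fun a => pD (cl (c a)) := bd_W hc 587
theorem bd_pU {c : α → Ctx} (hc : CT 0 c) : Bd 0 fun a => pU (cl (c a)) := bd_W hc 577
theorem bd_pT {c : α → Ctx} (hc : CT 0 c) : Bd 0 fun a => pT (cl (c a)) := bd_W hc 982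
theorem bd_pS {c : α → Ctx} (hc : CT 0 c) : Bd 0 fun a => pS (cl (c a)) := bd_W hc 24
theorem bd_pJ {c : α → Ctx} (hc : CT 0 c) : Bd 0 fun a => pJ (cl (c a)) := bd_W hc 7
theorem bd_pK {c : α → Ctx} (hc : CT 0 c) : Bd 0 fun a => pK (cl (c a)) :=
  (Bd.const 556).mul (bd_cl hc)
theorem bd_pM {c : α → Ctx} (hc : CT 0 c) : Bd 0 fun a => pM (cl (c a)) :=
  (Bd.const 580).mul (bd_cl hc)
theorem bd_pB {c : α → Ctx} (hc : CT 0 c) : Bd 0 fun a => pB (cl (c a)) :=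
  (Bd.const 570).mul (bd_cl hc)

@[fun_prop] theorem ct_sc {c : α → Ctx} (hc : CT 0 c) : CT 0 fun a => sc (cl (c a)) :=
  CT.pow (CT.const 2) ((ct_pM hc).mul (ct_pD hc)) ((bd_pM hc).mul (bd_pD hc))

@[fun_prop] theorem ct_pw {c : α → Ctx} {e : α → ℕ} (hc : CT 0 c) (he : CT 0 e) :
    CT 0 fun a => pw (cl (c a)) (e a) :=
  (CT.pow ((CT.pow (CT.const 2) (ct_pM hc) (bd_pM hc)).sub (CT.const 1)) (he.min (ct_pD hc))
    ((bd_pD hc).of_le fun _ => min_le_right _ _)).mul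
    (CT.pow (CT.const 2) ((ct_pM hc).mul ((ct_pD hc).sub he))
      (((bd_pM hc).mul (bd_pD hc)).of_le fun _ => Nat.mul_le_mul_left _ (Nat.sub_le _ _)))

theorem sz_vw (x : List ℕ) (i : ℕ) : sz (vw x i) ≤ sz x := by
  unfold vw
  by_cases h : i < x.length
  · rw [List.getD_eq_getElem _ _ h]
    exact (sz_mem (List.getElem_mem h)).le
  · rw [List.getD_eq_default _ _ (not_lt.1 h), sz_zero]
    exact sz_pos x

@[fun_prop] theorem ct_walkP {c : α → Ctx} {X Y : α → List ℕ} {a b : α → ℕ} (hc : CT 0 c)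
    (hX : CT 0 X) (hY : CT 0 Y) (ha : CT 0 a) (hb : CT 0 b) :
    CT 0 fun z => walkP (c z) (X z) (Y z) (a z) (b z) := by
  have hf : CT 0 fun p : α × ℕ => p.1 := CT.id.fst
  refine (CT.foldl (g := fun z (s : ℕ × List ℕ) (i : ℕ) =>
    (vw (bif Nat.beq (i % 2) 0 then X z else Y z) s.1, s.1 :: s.2)) (by fun_prop) (by fun_prop)
    (by fun_prop) (G := fun p => sz (X p.1) + sz (Y p.1) + 1)
    (((hX.comp hf).size.add (hY.comp hf).size).add (Bd.const 1)) fun z s i => ?_).snd.reverse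
  have h1 := sz_vw (X z) s.1
  have h2 := sz_vw (Y z) s.1
  rw [sz_prod s]
  cases Nat.beq (i % 2) 0 <;> simp only [cond_true, cond_false, sz_pair, sz_cons] <;> omega

@[fun_prop] theorem ct_idxP {Q : α → List ℕ} {v : α → ℕ} (hQ : CT 0 Q) (hv : CT 0 v) :
    CT 0 fun a => idxP (Q a) (v a) := by unfold idxP; fun_prop

@[fun_prop] theorem ct_nxtP {Q : α → List ℕ} {v : α → ℕ} (hQ : CT 0 Q) (hv : CT 0 v) :
    CT 0 fun a => nxtP (Q a) (v a) := by unfold nxtP; fun_prop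

@[fun_prop] theorem ct_ndpP {c : α → Ctx} {Q : α → List ℕ} (hc : CT 0 c) (hQ : CT 0 Q) :
    CT 0 fun a => ndpP (c a) (Q a) := by unfold ndpP; fun_prop

@[fun_prop] theorem ct_arcQ {c : α → Ctx} {a : α → ℕ} {Q X Y : α → List ℕ} (hc : CT 0 c)
    (ha : CT 0 a) (hQ : CT 0 Q) (hX : CT 0 X) (hY : CT 0 Y) :
    CT 0 fun z => arcQ (c z) (a z) (Q z) (X z) (Y z) := by unfold arcQ; fun_prop

@[fun_prop] theorem ct_spP {u v w : α → ℕ} (hu : CT 0 u) (hv : CT 0 v) (hw : CT 0 w) :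
    CT 0 fun a => spP (u a) (v a) (w a) := by unfold spP; fun_prop

@[fun_prop] theorem ct_swapP {c : α → Ctx} {u v : α → ℕ} {X : α → List ℕ} (hc : CT 0 c)
    (hu : CT 0 u) (hv : CT 0 v) (hX : CT 0 X) :
    CT 0 fun z => swapP (c z) (u z) (v z) (X z) := by unfold swapP; fun_prop

@[fun_prop] theorem ct_mvP {c : α → Ctx} {t a b : α → ℕ} {X Y : α → List ℕ} (hc : CT 0 c)
    (ht : CT 0 t) (ha : CT 0 a) (hb : CT 0 b) (hX : CT 0 X) (hY : CT 0 Y) :
    CT 0 fun z => mvP (c z) (t z) (a z) (b z) (X z) (Y z) := by unfold mvP; fun_prop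

@[fun_prop] theorem ct_enP {c : α → Ctx} {K : α → List (List ℕ)} {X : α → List ℕ} (hc : CT 0 c)
    (hK : CT 0 K) (hX : CT 0 X) : CT 0 fun z => enP (c z) (K z) (X z) := by unfold enP; fun_prop

theorem ct_rangeN {c : α → Ctx} (hc : CT 0 c) : CT 0 fun z => List.range (pN (cl (c z))) :=
  CT.range (ct_pN hc) (bd_pN hc)

@[fun_prop] theorem ct_setP {c : α → Ctx} {x : α → List (List ℕ)} {i : α → ℕ} {X : α → List ℕ}
    (hc : CT 0 c) (hx : CT 0 x) (hi : CT 0 i) (hX : CT 0 X) :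
    CT 0 fun z => setP (c z) (x z) (i z) (X z) :=
  CT.map (f := fun z s => tabN (c z) (vw (bif Nat.beq s (i z) then X z else (x z).getD s [])))
    (ct_tabN (g := fun (p : α × ℕ) v => vw (bif Nat.beq p.2 (i p.1) then X p.1
      else (x p.1).getD p.2 []) v) (by fun_prop) (by fun_prop)) (ct_rangeN hc)

@[fun_prop] theorem ct_accQ {c : α → Ctx} {K x : α → List (List ℕ)} {i j u : α → ℕ}
    {p : α → List ℕ × List ℕ} (hc : CT 0 c) (hK : CT 0 K) (hx : CT 0 x) (hi : CT 0 i)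
    (hj : CT 0 j) (hu : CT 0 u) (hp : CT 0 p) :
    CT 0 fun z => accQ (c z) (K z) (x z) (i z) (j z) (u z) (p z) := by unfold accQ; fun_prop

theorem ct_stepFP {c : α → Ctx} {K x : α → List (List ℕ)} {i j t a b u : α → ℕ}
    (hc : CT 0 c) (hK : CT 0 K) (hx : CT 0 x) (hi : CT 0 i) (hj : CT 0 j) (ht : CT 0 t)
    (ha : CT 0 a) (hb : CT 0 b) (hu : CT 0 u) :
    CT 0 fun z => stepFP (c z) (K z) (x z) (i z) (j z) (t z) (a z) (b z) (u z) := by
  unfold stepFP; fun_prop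

@[fun_prop] theorem ct_x0P {c : α → Ctx} (hc : CT 0 c) : CT 0 fun z => x0P (c z) := by
  unfold x0P; fun_prop

@[fun_prop] theorem ct_KKP {H : α → List (List (List ℕ))} {j u v : α → ℕ} (hH : CT 0 H)
    (hj : CT 0 j) (hu : CT 0 u) (hv : CT 0 v) :
    CT 0 fun z => KKP (H z) (j z) (u z) (v z) := by unfold KKP; fun_prop

@[fun_prop] theorem ct_kkP {c : α → Ctx} {H : α → List (List (List ℕ))} {s : α → ℕ} (hc : CT 0 c)
    (hH : CT 0 H) (hs : CT 0 s) : CT 0 fun z => kkP (c z) (H z) (s z) :=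
  ct_tabM hc (by fun_prop)

@[fun_prop] theorem ct_cntP {L : α → List (List ℕ)} {u v : α → ℕ} (hL : CT 0 L)
    (hu : CT 0 u) (hv : CT 0 v) : CT 0 fun z => cntP (L z) (u z) (v z) := by
  unfold cntP; fun_prop

@[fun_prop] theorem ct_e1P {c : α → Ctx} {H : α → List (List (List ℕ))} {j : α → ℕ}
    {X : α → List ℕ} (hc : CT 0 c) (hH : CT 0 H) (hj : CT 0 j) (hX : CT 0 X) :
    CT 0 fun z => e1P (c z) (H z) (j z) (X z) := by unfold e1P; fun_prop

@[fun_prop] theorem ct_e2P {c : α → Ctx} {H : α → List (List (List ℕ))} {j : α → ℕ}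
    {X : α → List ℕ} (hc : CT 0 c) (hH : CT 0 H) (hj : CT 0 j) (hX : CT 0 X) :
    CT 0 fun z => e2P (c z) (H z) (j z) (X z) := by unfold e2P; fun_prop

@[fun_prop] theorem ct_sum1P {c : α → Ctx} {H : α → List (List (List ℕ))} {j : α → ℕ}
    {L : α → List (List ℕ)} (hc : CT 0 c) (hH : CT 0 H) (hj : CT 0 j) (hL : CT 0 L) :
    CT 0 fun z => sum1P (c z) (H z) (j z) (L z) := by unfold sum1P; fun_prop

@[fun_prop] theorem ct_sum2P {c : α → Ctx} {H : α → List (List (List ℕ))} {j : α → ℕ}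
    {L : α → List (List ℕ)} (hc : CT 0 c) (hH : CT 0 H) (hj : CT 0 j) (hL : CT 0 L) :
    CT 0 fun z => sum2P (c z) (H z) (j z) (L z) := by unfold sum2P; fun_prop

@[fun_prop] theorem ct_nextP {c : α → Ctx} {H : α → List (List (List ℕ))} {j : α → ℕ}
    {L : α → List (List ℕ)} (hc : CT 0 c) (hH : CT 0 H) (hj : CT 0 j) (hL : CT 0 L) :
    CT 0 fun z => nextP (c z) (H z) (j z) (L z) :=
  ct_tabM hc (by fun_prop)

@[fun_prop] theorem ct_rnd {x y : α → ℕ} (hx : CT 0 x) (hy : CT 0 y) :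
    CT 0 fun z => rnd (x z) (y z) := by unfold rnd; fun_prop

theorem ct_roundFP {c : α → Ctx} {j : α → ℕ} {A : α → AccP} {L : α → List (List ℕ)}
    (hc : CT 0 c) (hj : CT 0 j) (hA : CT 0 A) (hL : CT 0 L) :
    CT 0 fun z => roundFP (c z) (j z) (A z) (L z) := by unfold roundFP; fun_prop

theorem ct_dfact {c : α → Ctx} (hc : CT 0 c) : CT 0 fun z => dfact (cn (c z) / 2) :=
  (CT.map (f := fun _ i => 2 * i + 1) (by fun_prop) (CT.range (by fun_prop)
    ((bd_cn hc).of_le fun _ => Nat.div_le_self _ _))).prod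

theorem ct_acc0P {c : α → Ctx} (hc : CT 0 c) : CT 0 fun z => acc0P (c z) := by
  have h1 : CT 0 fun z => tabM (c z) fun _ _ => cn (c z) := ct_tabM hc (by fun_prop)
  have h2 := ct_dfact hc
  unfold acc0P
  fun_prop

end Vale.Agent.P308
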