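import Vale.Agent.P308.PM
import Vale.Agent.P317.RandE

/-! Functional description of the algorithm on coin trees. All sizes are powers of `W = 2 ^ l`. -/

namespace Vale.Agent.P308

export Vale.Agent.P317 (Rand)

open Finset Equiv Vale.Agent.P317

def coin : Rand ℕ := .flip (.ret 0) (.ret 1)

/-- A uniform number below `2 ^ k`. -/
def bits (k : ℕ) : Rand ℕ := iter (fun r => coin.bind fun c => .ret (r + r + c)) k 0

/-- Bits of a particle index. -/
def pK (l : ℕ) : ℕ := 556 * l
/-- Number of particles. -/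
def pN (l : ℕ) : ℕ := 2 ^ pK l
/-- The base of all weights is `1 - 2 ^ (-pM)`. -/
def pM (l : ℕ) : ℕ := 580 * l
/-- Largest exponent. -/
def pD (l : ℕ) : ℕ := 2 ^ (587 * l)
/-- Substages in a round. -/
def pU (l : ℕ) : ℕ := 2 ^ (577 * l)
/-- Chain steps in a substage. -/
def pT (l : ℕ) : ℕ := 2 ^ (982 * l)
/-- Samples in a round. -/
def pS (l : ℕ) : ℕ := 2 ^ (24 * l)
/-- Rounds. -/
def pJ (l : ℕ) : ℕ := 2 ^ (7 * l)
/-- Bits used for one draw of the initial sampler. -/
def pB (l : ℕ) : ℕ := 570 * l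
/-- Inverse of the target marginal. -/
def pI (l : ℕ) : ℕ := 2 ^ (3 * l)

/-- The base of all weights. -/
noncomputable def qq (l : ℕ) : ℝ := 1 - 1 / 2 ^ pM l

/-- `q ^ e` scaled by `2 ^ (pM * pD)`. -/
def pw (l e : ℕ) : ℕ := (2 ^ pM l - 1) ^ min e (pD l) * 2 ^ (pM l * (pD l - e))

/-- The scale of `pw`. -/
def sc (l : ℕ) : ℕ := 2 ^ (pM l * pD l)

/-- The product `1 * 3 * 5 * ⋯` with `h` factors. -/
def dfact (h : ℕ) : ℕ := ((List.range h).map fun i => 2 * i + 1).prod

section
variable {V : Type} [DecidableEq V]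

open Classical in
/-- Arc move with start `a` and `k` vertices. -/
noncomputable def arcMv (a : V) (k : ℕ) (p : PM V × PM V) : PM V × PM V :=
  if Inst (walkL p.1 p.2 a k) p.1 p.2 then
    ((tau (walkL p.1 p.2 a k))⁻¹ • p.2, tau (walkL p.1 p.2 a k) • p.1) else p

/-- Switch move. -/
def swMv (u v : V) (p : PM V × PM V) : PM V × PM V := (swap u v • p.1, p.2)

end

variable {n : ℕ}

/-- Exponent matrices. -/
abbrev Mat (n : ℕ) : Type := Fin n → Fin n → ℕ

/-- Weights given by exponents. -/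
noncomputable def aw (l : ℕ) (k : Mat n) (u v : Fin n) : ℝ := qq l ^ k u v

/-- Exponent of a matching. -/
def en (k : Mat n) (X : PM (Fin n)) : ℕ := ∑ v, k v (X.1 v)

/-- The move with the given label. -/
noncomputable def mvN (t a b : ℕ) (p : PM (Fin n) × PM (Fin n)) : PM (Fin n) × PM (Fin n) :=
  if h : t < 2 ∧ a < n ∧ b < n then
    (if t = 0 then arcMv ⟨a, h.2.1⟩ (b + 1) p else swMv ⟨a, h.2.1⟩ ⟨b, h.2.2⟩ p)
  else p

/-- Populations. -/
abbrev Pop (n l : ℕ) : Type := Fin (pN l) → PM (Fin n)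

/-- One step of the chain, given the random numbers. -/
noncomputable def stepF (l : ℕ) (k : Mat n) (x : Pop n l) (i j t a b u : ℕ) : Pop n l :=
  if h : i < pN l ∧ j < pN l ∧ i ≠ j then
    if u < pw l (en k (mvN t a b (x ⟨i, h.1⟩, x ⟨j, h.2.1⟩)).1 +
        en k (mvN t a b (x ⟨i, h.1⟩, x ⟨j, h.2.1⟩)).2 -
        (en k (x ⟨i, h.1⟩) + en k (x ⟨j, h.2.1⟩))) then
      Function.update (Function.update x ⟨i, h.1⟩ (mvN t a b (x ⟨i, h.1⟩, x ⟨j, h.2.1⟩)).1)
        ⟨j, h.2.1⟩ (mvN t a b (x ⟨i, h.1⟩, x ⟨j, h.2.1⟩)).2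
    else x
  else x

/-- One step of the chain. -/
noncomputable def stepR (l : ℕ) (k : Mat n) (x : Pop n l) : Rand (Pop n l) :=
  (bits (pK l)).bind fun i => (bits (pK l)).bind fun j => (bits 2).bind fun t =>
    (bits l).bind fun a => (bits l).bind fun b => (bits (pM l * pD l)).bind fun u =>
      .ret (stepF l k x i j t a b u)

/-- The matching `{0,1}, {2,3}, …`. -/
def x0 (hn : Even n) : PM (Fin n) :=
  ⟨fun v => ⟨if v.val % 2 = 0 then v.val + 1 else v.val - 1, by
      obtain ⟨h, rfl⟩ := hn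
      have := v.isLt
      split_ifs <;> omega⟩,
    fun v => Fin.ext (by dsimp only; split_ifs <;> omega),
    fun v h => by
      have := congrArg Fin.val h
      dsimp only at this
      split_ifs at this <;> omega⟩

/-- Relabel by a transposition given by numbers. -/
def swapN (u v : ℕ) (X : PM (Fin n)) : PM (Fin n) :=
  if h : u < n ∧ v < n then swap (⟨u, h.1⟩ : Fin n) ⟨v, h.2⟩ • X else X

/-- An almost uniform matching. -/
def initR (l : ℕ) (hn : Even n) : Rand (PM (Fin n)) :=
  iterIdx (fun i X => (bits (pB l)).bind fun u => .ret (swapN (2 * i) (u % (2 * i + 1)) X))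
    (n / 2) (x0 hn)

/-- The initial population. -/
def popR (l : ℕ) (hn : Even n) : Rand (Pop n l) :=
  iterIdx (fun t x => (initR l hn).bind fun X =>
    .ret (if h : t < pN l then Function.update x ⟨t, h⟩ X else x)) (pN l) (fun _ => x0 hn)

/-- Exponents after `s` substages; `H` lists the increments of the rounds. -/
def kk (l : ℕ) (H : List (Mat n)) (s : ℕ) : Mat n :=
  fun u v => ∑ r ∈ range s, H.getD (r / pU l) 0 u v

/-- Sum of the first `j` increments. -/
def KK (H : List (Mat n)) (j : ℕ) : Mat n := fun u v => ∑ i ∈ range j, H.getD i 0 u v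

/-- Anneal a fresh population through `j` rounds and return one particle. -/
noncomputable def sampleR (l : ℕ) (hn : Even n) (H : List (Mat n)) (j : ℕ) : Rand (PM (Fin n)) :=
  (popR l hn).bind fun x =>
    (iterIdx (fun s y => iter (stepR l (kk l H (s + 1))) (pT l) y) (j * pU l) x).bind fun y =>
      .ret (y ⟨0, Nat.two_pow_pos _⟩)

/-- Number of samples that pair `u` with `v`. -/
def cnt (L : List (PM (Fin n))) (u v : Fin n) : ℕ := (L.filter fun X => X.1 u = v).length

/-- Exponent used to compare consecutive partition functions. -/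
def e1 (l : ℕ) (H : List (Mat n)) (j : ℕ) (X : PM (Fin n)) : ℕ :=
  pU l * ∑ v, (n + 1 - H.getD j 0 v (X.1 v))

/-- Exponent used to compare with the number of matchings of the graph. -/
def e2 (l : ℕ) (H : List (Mat n)) (j : ℕ) (X : PM (Fin n)) : ℕ :=
  pU l * ∑ v, (n * (j + 1) - KK H (j + 1) v (X.1 v))

def sum1 (l : ℕ) (H : List (Mat n)) (j : ℕ) (L : List (PM (Fin n))) : ℕ :=
  (L.map fun X => pw l (e1 l H j X)).sum

def sum2 (l : ℕ) (adj : Fin n → Fin n → Bool) (H : List (Mat n)) (j : ℕ)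
    (L : List (PM (Fin n))) : ℕ :=
  (L.map fun X => if ∀ v, adj v (X.1 v) = true then pw l (e2 l H j X) else 0).sum

/-- The next increment. -/
def nextM (l : ℕ) (adj : Fin n → Fin n → Bool) (H : List (Mat n)) (j : ℕ)
    (L : List (PM (Fin n))) : Mat n := fun u v =>
  if 2 * pI l * cnt L u v < pS l then 0
  else if (adj u v = false ∨ KK H (j + 1) u v < n * (j + 1)) ∧ 5 * pS l ≤ 2 * pI l * cnt L u v
    then n + 1 else n

/-- Increments, numerator, denominator, flag, output. -/
abbrev Acc (n : ℕ) : Type := List (Mat n) × ℕ × ℕ × Bool × ℕ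

/-- Nearest integer to `x / y`. -/
def rnd (x y : ℕ) : ℕ := (x + x + y) / (y + y)

def roundF (l : ℕ) (adj : Fin n → Fin n → Bool) (j : ℕ) (A : Acc n) (L : List (PM (Fin n))) :
    Acc n :=
  (A.1 ++ [nextM l adj A.1 j L], A.2.1 * (pS l * pw l (pU l * n)), A.2.2.1 * sum1 l A.1 j L,
    A.2.2.2.1 || decide (pS l * sc l ≤ 4 * sum2 l adj A.1 j L),
    if A.2.2.2.1 = false ∧ pS l * sc l ≤ 4 * sum2 l adj A.1 j L then
      rnd (A.2.1 * (pS l * pw l (pU l * n)) * sum2 l adj A.1 j L)
        (A.2.2.1 * sum1 l A.1 j L * (pS l * sc l))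
    else A.2.2.2.2)

noncomputable def samplesR (l : ℕ) (hn : Even n) (H : List (Mat n)) (j : ℕ) :
    Rand (List (PM (Fin n))) :=
  iter (fun L => (sampleR l hn H j).bind fun X => .ret (X :: L)) (pS l) []

noncomputable def roundR (l : ℕ) (hn : Even n) (adj : Fin n → Fin n → Bool) (j : ℕ) (A : Acc n) :
    Rand (Acc n) :=
  (samplesR l hn A.1 (j + 1)).bind fun L => .ret (roundF l adj j A L)

def acc0 (n : ℕ) : Acc n := ([fun _ _ => n], dfact (n / 2), 1, false, 0)

noncomputable def algR (l : ℕ) (hn : Even n) (adj : Fin n → Fin n → Bool) : Rand ℕ :=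
  (iterIdx (roundR l hn adj) (pJ l) (acc0 n)).bind fun A => .ret A.2.2.2.2

/-- Mean of `f` under the weights with exponents `k`. -/
noncomputable def mean (l : ℕ) (k : Mat n) (f : PM (Fin n) → ℝ) : ℝ :=
  (∑ X, wt (aw l k) X * f X) / Zf (aw l k)

/-- Every pair has marginal at least `d`. -/
def Marg (l : ℕ) (k : Mat n) (d : ℝ) : Prop :=
  ∀ u v, u ≠ v → d * Zf (aw l k) ≤ Zm (aw l k) u v

/-- Number of perfect matchings that use only marked pairs. -/
noncomputable def nAdj (adj : Fin n → Fin n → Bool) : ℕ :=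
  (univ.filter fun X : PM (Fin n) => ∀ v, adj v (X.1 v) = true).card

theorem sum_range_double (m : ℕ) (f : ℕ → ℝ) :
    ∑ r ∈ range (2 * m), f r = ∑ r ∈ range m, (f (r + r) + f (r + r + 1)) := by
  induction m with
  | zero => simp
  | succ m ih =>
    rw [show 2 * (m + 1) = 2 * m + 1 + 1 by ring, sum_range_succ, sum_range_succ, ih,
      sum_range_succ, two_mul]
    ring

theorem E_bits (k : ℕ) (f : ℕ → ℝ) : (bits k).E f = (∑ r ∈ range (2 ^ k), f r) / 2 ^ k := by
  induction k generalizing f with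
  | zero => simp [bits, iter]
  | succ k ih =>
    have h : bits (k + 1) = (bits k).bind fun r => coin.bind fun c => .ret (r + r + c) :=
      iter_succ' _ _ _
    rw [h, Rand.E_bind, ih, pow_succ' 2 k, sum_range_double]
    simp only [coin, Rand.flip_bind, Rand.ret_bind, Rand.E_flip, Rand.E_ret, add_zero]
    rw [← Finset.sum_div, pow_succ]
    field_simp

end Vale.Agent.P308
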