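import Vale.Agent.P308.Chain
import Vale.Agent.P308.Learn
import Vale.Agent.P317.Chernoff

/-! Correctness of the functional algorithm. -/

namespace Vale.Agent.P308

open Finset Equiv Vale.Agent.P317

variable {n : ℕ}

/-- The output is accurate. -/
def Accu (adj : Fin n → Fin n → Bool) (ε : ℝ) (out : ℕ) : Prop :=
  (1 - ε) * (nAdj adj : ℝ) ≤ out ∧ (out : ℝ) ≤ (1 + ε) * nAdj adj

/-- Invariant before round `j`. -/
def Good (l : ℕ) (adj : Fin n → Fin n → Bool) (ε : ℝ) (j : ℕ) (A : Acc n) : Prop :=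
  A.1.length = j + 1 ∧ HOK l A.1 (j + 1) ∧
    (∀ u v, adj u v = true → KK A.1 (j + 1) u v ≤ n * (j + 1)) ∧ 0 < A.2.2.1 ∧
    |(A.2.1 : ℝ) / A.2.2.1 - Zt l A.1 j| ≤ 8 * j / ((2 : ℝ) ^ l) ^ 10 * Zt l A.1 j ∧
    (A.2.2.2.1 = false → A.2.2.2.2 = 0 ∧
      -((2 : ℝ) ^ l) ^ 2 + j / (16 * ((2 : ℝ) ^ l) ^ 3) ≤ Pot l A.1 (j + 1)) ∧
    (A.2.2.2.1 = true → Accu adj ε A.2.2.2.2)

theorem good_zero (l : ℕ) (hl : 4 ≤ l) (hnl : n ≤ 2 ^ l) (hn : Even n)
    (adj : Fin n → Fin n → Bool) (ε : ℝ) : Good l adj ε 0 (acc0 n) := by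
  refine ⟨rfl, HOK_zero l hl hnl hn, fun u v _ => ?_, Nat.one_pos, ?_, fun _ => ⟨rfl, ?_⟩,
    fun h => absurd h (by simp [acc0])⟩
  · simp [acc0, KK]
  · simp [acc0, Zt_zero l hn]
  · simpa [acc0] using Pot_one l hl hnl hn

theorem st_mean_ind (l : ℕ) (hl : 4 ≤ l) (hn : Even n) (k : Mat n) (u v : Fin n) :
    mean l k (fun X => if X.1 u = v then 1 else 0) * Zf (aw l k) = Zm (aw l k) u v := by
  unfold mean Zm
  rw [div_mul_cancel₀ _ (Zf_pos hl hn k).ne']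
  exact Finset.sum_congr rfl fun X _ => by by_cases h : X.1 u = v <;> simp [h]

theorem st_mean_mono (l : ℕ) (hl : 4 ≤ l) (hn : Even n) (k : Mat n) {f g : PM (Fin n) → ℝ}
    (h : ∀ X, f X ≤ g X) : mean l k f ≤ mean l k g := by
  unfold mean
  refine div_le_div_of_nonneg_right (Finset.sum_le_sum fun X _ => ?_) (Zf_pos hl hn k).le
  refine mul_le_mul_of_nonneg_left (h X) ?_
  rw [wt_aw]; exact (pow_pos (qq_pos hl) _).le

theorem st_cnt_symm (L : List (PM (Fin n))) (u v : Fin n) : cnt L u v = cnt L v u := by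
  unfold cnt
  congr 1
  exact List.filter_congr fun X _ => by simp [X.eq_iff (u := u)]

theorem st_getD (H : List (Mat n)) (M : Mat n) (P : Mat n → Prop) (h0 : P 0) (hM : P M)
    (hH : ∀ i, P (H.getD i 0)) (i : ℕ) : P ((H ++ [M]).getD i 0) := by
  rcases lt_trichotomy i H.length with h | h | h
  · rw [getD_append_lt H M h]; exact hH i
  · rw [h, getD_append_eq]; exact hM
  · rw [List.getD_eq_default _ _ (by simp; omega)]; exact h0

theorem st_pow (l m : ℕ) : (((2 ^ (m * l) : ℕ)) : ℝ) = ((2 : ℝ) ^ l) ^ m := by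
  push_cast; exact pow_mul' _ _ _

/-- the four thresholds -/
theorem st_thr {W S c p : ℝ} (hW : 16 ≤ W) (hS : 0 < S) (h : |c - S * p| ≤ S / W ^ 10) :
    (2 * W ^ 3 * c < S → p ≤ 3 / (4 * W ^ 3)) ∧ (S ≤ 2 * W ^ 3 * c → 1 / (4 * W ^ 3) ≤ p) ∧
      (5 * S ≤ 2 * W ^ 3 * c → 2 / W ^ 3 ≤ p) ∧ (2 * W ^ 3 * c < 5 * S → p ≤ 3 / W ^ 3) := by
  have hW0 : 0 < W := by linarith
  have hW7 : 4 ≤ W ^ 7 := le_trans (by linarith) (le_self_pow₀ (by linarith) (by norm_num))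
  have hW3 : 0 < W ^ 3 := by positivity
  have h1 : W ^ 3 * (S / W ^ 10) ≤ S / 4 := by
    have e : W ^ 3 * (S / W ^ 10) = S / W ^ 7 := by field_simp
    rw [e]; gcongr
  obtain ⟨h2, h3⟩ := abs_le.1 h
  have h4 := mul_le_mul_of_nonneg_left h2 hW3.le
  have h5 := mul_le_mul_of_nonneg_left h3 hW3.le
  refine ⟨fun a => ?_, fun a => ?_, fun a => ?_, fun a => ?_⟩
  · rw [le_div_iff₀ (by positivity)]
    refine le_of_mul_le_mul_left ?_ hS
    nlinarith
  · rw [div_le_iff₀ (by positivity)]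
    refine le_of_mul_le_mul_left ?_ hS
    nlinarith
  · rw [div_le_iff₀ (by positivity)]
    refine le_of_mul_le_mul_left ?_ hS
    nlinarith
  · rw [le_div_iff₀ (by positivity)]
    refine le_of_mul_le_mul_left ?_ hS
    nlinarith

theorem st_ratio {x Z Z' c m m' ζ t : ℝ} (hZ : 0 < Z) (hc : 0 < c) (hm : 1 / 2 ≤ m)
    (hζ0 : 0 ≤ ζ) (hζ : ζ ≤ 1 / 4) (ht0 : 0 ≤ t) (ht : 8 * t * ζ ≤ 1) (hmm : |m' - m| ≤ ζ)
    (hx : |x - Z| ≤ 8 * t * ζ * Z) (hZ' : m * Z' = c * Z) :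
    |x * c / m' - Z'| ≤ 8 * (t + 1) * ζ * Z' := by
  obtain ⟨h1, h2⟩ := abs_le.1 hmm
  have hm0 : 0 < m := by linarith
  have hm' : 1 / 4 ≤ m' := by linarith
  have hm'0 : 0 < m' := by linarith
  have e : Z' = c * Z / m := by rw [← hZ']; field_simp
  have e1 : x * c / m' - Z' = c / (m * m') * (x * m - Z * m') := by rw [e]; field_simp
  have e2 : 8 * (t + 1) * ζ * Z' = c / (m * m') * (8 * (t + 1) * ζ * Z * m') := by
    rw [e]; field_simp
  rw [e1, e2, abs_mul, abs_of_pos (by positivity : 0 < c / (m * m'))]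
  refine mul_le_mul_of_nonneg_left ?_ (by positivity)
  have h3 : |x * m - Z * m'| ≤ |x - Z| * m + Z * |m' - m| := by
    have e3 : x * m - Z * m' = (x - Z) * m - Z * (m' - m) := by ring
    rw [e3]
    refine (abs_sub _ _).trans (le_of_eq ?_)
    rw [abs_mul, abs_mul, abs_of_pos hm0, abs_of_pos hZ]
  have h4 : |x - Z| * m ≤ 8 * t * ζ * Z * (m' + ζ) :=
    mul_le_mul hx (by linarith) hm0.le (by positivity)
  have h5 : Z * |m' - m| ≤ Z * ζ := mul_le_mul_of_nonneg_left hmm hZ.le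
  have h6 : 0 ≤ ζ * Z := by positivity
  have h7 := mul_le_mul_of_nonneg_left ht h6
  have h8 := mul_le_mul_of_nonneg_left hm' h6
  nlinarith

theorem st_round_aux (N o : ℕ) (x ε : ℝ) (hε0 : 0 < ε) (hε1 : ε < 1) (h1 : (o : ℝ) ≤ x + 1 / 2)
    (h2 : x + 1 / 2 < o + 1) (h3 : |x - N| ≤ ε / 16 * N) :
    (1 - ε) * (N : ℝ) ≤ o ∧ (o : ℝ) ≤ (1 + ε) * N := by
  have hN : (0 : ℝ) ≤ N := Nat.cast_nonneg N
  have hεN : 0 ≤ ε * N := mul_nonneg hε0.le hN
  obtain ⟨h4, h5⟩ := abs_le.1 h3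
  by_cases h : ε * N / 16 < 1 / 2
  · have e1 : (o : ℝ) < N + 1 := by linarith
    have e2 : (N : ℝ) < o + 1 := by linarith
    have e3 : o < N + 1 := by exact_mod_cast e1
    have e4 : N < o + 1 := by exact_mod_cast e2
    obtain rfl : o = N := by omega
    constructor <;> linarith
  · constructor <;> linarith

theorem st_rnd (X Y : ℕ) (hY : 0 < Y) :
    (rnd X Y : ℝ) ≤ (X : ℝ) / Y + 1 / 2 ∧ (X : ℝ) / Y + 1 / 2 < rnd X Y + 1 := by
  have hY' : (0 : ℝ) < Y := by exact_mod_cast hY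
  have d1 : (X + X + Y) / (Y + Y) * (Y + Y) ≤ X + X + Y := Nat.div_mul_le_self _ _
  have d2 : X + X + Y < (Y + Y) * ((X + X + Y) / (Y + Y) + 1) :=
    Nat.lt_mul_div_succ _ (by omega)
  unfold rnd
  generalize (X + X + Y) / (Y + Y) = o at d1 d2
  have d1' : (o : ℝ) * (Y + Y) ≤ X + X + Y := by exact_mod_cast d1
  have d2' : (X : ℝ) + X + Y < (Y + Y) * (o + 1) := by exact_mod_cast d2
  constructor
  · rw [← sub_le_iff_le_add, le_div_iff₀ hY']; linarith
  · rw [← lt_sub_iff_add_lt, div_lt_iff₀ hY']; linarith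

theorem st_out {x Z N m m' ζ η e : ℝ} (hZ : 0 < Z) (hζ0 : 0 ≤ ζ) (hζ : 10 * ζ ≤ η)
    (hη : η ≤ 1 / 8) (he : 9 * η ≤ e) (hm' : 1 / 4 ≤ m') (hmm : |m' - m| ≤ ζ)
    (hx : |x - Z| ≤ 8 * η * Z) (hN : m * Z = N) : |x * m' - N| ≤ e * N := by
  obtain ⟨h1, h2⟩ := abs_le.1 hmm
  have hm : 1 / 5 ≤ m := by linarith
  have hη0 : 0 ≤ η := by linarith
  have h3 : |x * m' - N| ≤ |x - Z| * m' + Z * |m' - m| := by
    have e3 : x * m' - N = (x - Z) * m' + Z * (m' - m) := by rw [← hN]; ring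
    rw [e3]
    refine (abs_add_le _ _).trans (le_of_eq ?_)
    rw [abs_mul, abs_mul, abs_of_pos (by linarith : 0 < m'), abs_of_pos hZ]
  have h4 : |x - Z| * m' ≤ 8 * η * Z * (m + ζ) :=
    mul_le_mul hx (by linarith) (by linarith) (by positivity)
  have h5 : Z * |m' - m| ≤ Z * ζ := mul_le_mul_of_nonneg_left hmm hZ.le
  have h6 : 0 ≤ ζ * Z := by positivity
  have h7 := mul_le_mul_of_nonneg_left hη h6
  have h8 := mul_le_mul_of_nonneg_left hm h6
  have h9 : 0 ≤ m * Z := by positivity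
  have h10 := mul_le_mul_of_nonneg_right hζ h9
  have h11 := mul_le_mul_of_nonneg_right he h9
  rw [← hN] at h3 ⊢
  nlinarith

theorem st_div {a S m ζ : ℝ} (hS : 0 < S) (h : |a - S * m| ≤ S * ζ) : |a / S - m| ≤ ζ := by
  have e : a / S - m = (a - S * m) / S := by field_simp
  rw [e, abs_div, abs_of_pos hS, div_le_iff₀ hS]
  linarith

/-- classification of the new increment -/
theorem st_class (l : ℕ) (hl : 4 ≤ l) (hn : Even n) (adj : Fin n → Fin n → Bool)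
    (H : List (Mat n)) (j : ℕ) (L : List (PM (Fin n))) (k : Mat n) (u v : Fin n)
    (h0 : |(cnt L u v : ℝ) - pS l * mean l k (fun X => if X.1 u = v then 1 else 0)|
      ≤ pS l / ((2 : ℝ) ^ l) ^ 10) :
    (nextM l adj H j L u v = 0 ∧ Zm (aw l k) u v ≤ 3 / (4 * ((2 : ℝ) ^ l) ^ 3) * Zf (aw l k)) ∨
    (1 / (4 * ((2 : ℝ) ^ l) ^ 3) * Zf (aw l k) ≤ Zm (aw l k) u v ∧
      ((nextM l adj H j L u v = n + 1 ∧ (adj u v = false ∨ KK H (j + 1) u v < n * (j + 1)) ∧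
        2 / ((2 : ℝ) ^ l) ^ 3 * Zf (aw l k) ≤ Zm (aw l k) u v) ∨
      (nextM l adj H j L u v = n ∧ ((adj u v = false ∨ KK H (j + 1) u v < n * (j + 1)) →
        Zm (aw l k) u v ≤ 3 / ((2 : ℝ) ^ l) ^ 3 * Zf (aw l k))))) := by
  have hZ := Zf_pos hl hn k
  have hS : (0 : ℝ) < pS l := by exact_mod_cast Nat.two_pow_pos _
  obtain ⟨t1, t2, t3, t4⟩ := st_thr (ch_W hl) hS h0
  have hI : ((pI l : ℕ) : ℝ) = ((2 : ℝ) ^ l) ^ 3 := st_pow l 3
  rw [← hI] at t1 t2 t3 t4 ⊢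
  rw [← st_mean_ind l hl hn k u v]
  unfold nextM
  by_cases c1 : 2 * pI l * cnt L u v < pS l
  · rw [if_pos c1]
    exact Or.inl ⟨rfl, mul_le_mul_of_nonneg_right (t1 (by exact_mod_cast c1)) hZ.le⟩
  · rw [if_neg c1]
    refine Or.inr ⟨mul_le_mul_of_nonneg_right (t2 (by exact_mod_cast not_lt.1 c1)) hZ.le, ?_⟩
    by_cases c2 : (adj u v = false ∨ KK H (j + 1) u v < n * (j + 1)) ∧
        5 * pS l ≤ 2 * pI l * cnt L u v
    · rw [if_pos c2]
      exact Or.inl ⟨rfl, c2.1, mul_le_mul_of_nonneg_right (t3 (by exact_mod_cast c2.2)) hZ.le⟩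
    · rw [if_neg c2]
      refine Or.inr ⟨rfl, fun ha => mul_le_mul_of_nonneg_right (t4 ?_) hZ.le⟩
      exact_mod_cast not_le.1 fun h => c2 ⟨ha, h⟩

theorem st_small {l j : ℕ} (hl : 4 ≤ l) (hj : j < pJ l) :
    ((j : ℝ) + 1) * (1 / ((2 : ℝ) ^ l) ^ 10) ≤ 1 / ((2 : ℝ) ^ l) ^ 3 ∧
      10 * (1 / ((2 : ℝ) ^ l) ^ 10) ≤ 1 / ((2 : ℝ) ^ l) ^ 3 ∧ 1 / ((2 : ℝ) ^ l) ^ 3 ≤ 1 / 8 ∧
      9 * (1 / ((2 : ℝ) ^ l) ^ 3) ≤ 1 / (2 : ℝ) ^ l / 16 := by
  have h1 : ((j + 1 : ℕ) : ℝ) ≤ ((2 : ℝ) ^ l) ^ 7 := by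
    rw [← st_pow]; exact_mod_cast hj
  have hW := ch_W hl
  generalize (2 : ℝ) ^ l = W at hW h1
  have hW0 : 0 < W := by linarith
  have hW7 : 10 ≤ W ^ 7 := le_trans (by linarith) (le_self_pow₀ (by linarith) (by norm_num))
  have hW3 : 8 ≤ W ^ 3 := le_trans (by linarith) (le_self_pow₀ (by linarith) (by norm_num))
  have e : 1 / W ^ 3 = W ^ 7 * (1 / W ^ 10) := by field_simp
  push_cast at h1
  refine ⟨?_, ?_, ?_, ?_⟩
  · rw [e]; gcongr
  · rw [e]; gcongr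
  · gcongr
  · have e2 : 1 / W / 16 = W ^ 2 / 16 * (1 / W ^ 3) := by field_simp
    rw [e2]
    exact mul_le_mul_of_nonneg_right (by nlinarith) (by positivity)

theorem good_step (l : ℕ) (hl : 4 ≤ l) (hnl : n ≤ 2 ^ l) (hn : Even n)
    (adj : Fin n → Fin n → Bool) (hadj : ∀ u v, adj u v = adj v u) (ε : ℝ) (hε1 : ε < 1)
    (hε : 1 ≤ ε * 2 ^ l) (j : ℕ) (hj : j < pJ l) (A : Acc n) (hA : Good l adj ε j A)
    (L : List (PM (Fin n)))
    (h0 : ∀ u v, |(cnt L u v : ℝ) - pS l * mean l (kk l A.1 ((j + 1) * pU l))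
      (fun X => if X.1 u = v then 1 else 0)| ≤ pS l / ((2 : ℝ) ^ l) ^ 10)
    (h1 : |(sum1 l A.1 j L : ℝ) / sc l - pS l * mean l (kk l A.1 ((j + 1) * pU l))
      (fun X => qq l ^ e1 l A.1 j X)| ≤ pS l / ((2 : ℝ) ^ l) ^ 10)
    (h2 : |(sum2 l adj A.1 j L : ℝ) / sc l - pS l * mean l (kk l A.1 ((j + 1) * pU l))
      (fun X => if ∀ v, adj v (X.1 v) = true then qq l ^ e2 l A.1 j X else 0)|
        ≤ pS l / ((2 : ℝ) ^ l) ^ 10) :
    Good l adj ε (j + 1) (roundF l adj j A L) := by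
  classical
  obtain ⟨H, num, den, flag, out⟩ := A
  obtain ⟨G1, ⟨G2s, G2b, G2m⟩, G3, G4, G5, G6, G7⟩ := hA
  simp only at G1 G2s G2b G2m G3 G4 G5 G6 G7 h0 h1 h2
  have hcl := fun u v => st_class l hl hn adj H j L _ u v (h0 u v)
  set M := nextM l adj H j L with hM
  have hMb : ∀ u v, M u v ≤ n + 1 := fun u v => by
    rcases hcl u v with ⟨h, -⟩ | ⟨-, ⟨h, -⟩ | ⟨h, -⟩⟩ <;> omega
  have hMs : ∀ u v, M u v = M v u := fun u v => by
    have hK : KK H (j + 1) u v = KK H (j + 1) v u := Finset.sum_congr rfl fun i _ => G2s i u v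
    simp only [hM, nextM, st_cnt_symm L u v, hadj u v, hK]
  have hget : (H ++ [M]).getD (j + 1) 0 = M := by rw [← G1]; exact getD_append_eq H M
  have hKK : KK (H ++ [M]) (j + 1) = KK H (j + 1) := KK_append H M G1.ge
  have hkk : kk l (H ++ [M]) ((j + 1) * pU l) = kk l H ((j + 1) * pU l) :=
    kk_append l H M (by rw [G1])
  have hZt : Zt l (H ++ [M]) (j + 1) = Zt l H (j + 1) := by unfold Zt; rw [hkk]
  have hS : (0 : ℝ) < pS l := by exact_mod_cast Nat.two_pow_pos _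
  have hsc : (0 : ℝ) < sc l := by exact_mod_cast sc_pos l
  have hden : (0 : ℝ) < den := by exact_mod_cast G4
  obtain ⟨s1, s2, s3, s4⟩ := st_small hl hj
  have hW := ch_W hl
  have hζ0 : (0 : ℝ) ≤ 1 / ((2 : ℝ) ^ l) ^ 10 := by positivity
  rw [div_eq_mul_one_div (pS l : ℝ)] at h1 h2
  have h1' := st_div hS h1
  have h2' := st_div hS h2
  have hm1 := half_le_mean_e1 l hl hnl hn H j
  have hsum1 : (0 : ℝ) < sum1 l H j L := by
    have h3 : 0 < (sum1 l H j L : ℝ) / sc l / pS l := by linarith [(abs_le.1 h1').1]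
    rw [div_div] at h3
    exact (div_pos_iff_of_pos_right (by positivity)).1 h3
  have hUn : pU l * n ≤ pD l := by
    calc pU l * n ≤ pU l * 2 ^ l := Nat.mul_le_mul_left _ hnl
      _ = 2 ^ (578 * l) := by unfold pU; rw [← pow_add]; congr 1; ring
      _ ≤ pD l := Nat.pow_le_pow_right (by norm_num) (by omega)
  have hrat : |((num * (pS l * pw l (pU l * n)) : ℕ) : ℝ) / ((den * sum1 l H j L : ℕ) : ℝ) -
      Zt l H (j + 1)| ≤ 8 * ((j : ℝ) + 1) * (1 / ((2 : ℝ) ^ l) ^ 10) * Zt l H (j + 1) := by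
    have h3 := st_ratio (x := (num : ℝ) / den) (t := j) (Zt_pos l hl hn H j)
      (pow_pos (qq_pos hl) (pU l * n)) hm1 hζ0 (by linarith) (Nat.cast_nonneg j) (by nlinarith) h1'
      (by rw [mul_one_div]; exact G5) (mean_e1 l hl hn H j (G2b j))
    refine le_trans (le_of_eq ?_) h3
    congr 2
    push_cast
    rw [pw_eq hUn]
    field_simp
  refine ⟨by simp [roundF, G1], ⟨?_, ?_, ?_⟩, ?_, ?_, ?_, ?_, ?_⟩
  · exact st_getD H M (fun N => ∀ u v, N u v = N v u) (fun _ _ => rfl) hMs G2s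
  · exact st_getD H M (fun N => ∀ u v, N u v ≤ n + 1) (fun _ _ => Nat.zero_le _) hMb G2b
  · intro s hs
    change Marg l (kk l (H ++ [M]) s) _
    rcases le_total s ((j + 1) * pU l) with h | h
    · rw [kk_append l H M (by rw [G1]; exact h)]; exact G2m s h
    · obtain ⟨t, rfl⟩ := Nat.exists_eq_add_of_le h
      have ht : t ≤ pU l := by rw [add_mul (j + 1) 1] at hs; omega
      have e : kk l (H ++ [M]) ((j + 1) * pU l + t) =
          fun u v => kk l H ((j + 1) * pU l) u v + t * M u v := by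
        funext u v
        rw [kk_add l _ _ _ ht, hget, hKK, kk_mul]
      rw [e]
      refine marg_step l hl hnl hn _ M hMb hMs (fun u v _ => ?_) (G2m _ le_rfl) t ht
      rcases hcl u v with h | ⟨h, ⟨h', -⟩ | ⟨h', -⟩⟩
      · exact Or.inl h
      · exact Or.inr ⟨by omega, h⟩
      · exact Or.inr ⟨by omega, h⟩
  · intro u v huv
    change KK (H ++ [M]) (j + 1 + 1) u v ≤ _
    rw [KK_succ, hKK, hget, mul_add n (j + 1) 1]
    have := G3 u v huv
    rcases hcl u v with ⟨h, -⟩ | ⟨-, ⟨h, h' | h', -⟩ | ⟨h, -⟩⟩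
    · omega
    · rw [huv] at h'; exact absurd h' (by simp)
    · omega
    · omega
  · exact Nat.mul_pos G4 (by exact_mod_cast hsum1)
  · change |((num * (pS l * pw l (pU l * n)) : ℕ) : ℝ) / ((den * sum1 l H j L : ℕ) : ℝ) -
      Zt l (H ++ [M]) (j + 1)| ≤ 8 * ((j + 1 : ℕ) : ℝ) / ((2 : ℝ) ^ l) ^ 10 * Zt l (H ++ [M]) (j + 1)
    rw [hZt, div_eq_mul_one_div (8 * _), Nat.cast_add, Nat.cast_one]
    exact hrat
  · intro hf
    simp only [roundF, Bool.or_eq_false_iff, decide_eq_false_iff_not] at hf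
    obtain ⟨g1, g2⟩ := G6 hf.1
    refine ⟨by simp only [roundF]; rw [if_neg fun h => hf.2 h.2]; exact g1, ?_⟩
    change _ ≤ Pot l (H ++ [M]) (j + 1 + 1)
    have hP : Pot l (H ++ [M]) (j + 1) = Pot l H (j + 1) := by unfold Pot; rw [hKK, hZt]
    have h3 := pot_step l hl hnl hn (H ++ [M]) (j + 1)
      (fun u v => adj u v = false ∨ KK H (j + 1) u v < n * (j + 1))
      (fun u v _ => by
        rw [hget, hkk]
        rcases hcl u v with h | ⟨-, ⟨h, -, h'⟩ | h⟩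
        · exact Or.inl h
        · exact Or.inr (Or.inl ⟨h, h'⟩)
        · exact Or.inr (Or.inr h))
      (by
        rw [hkk]
        have h4 : (sum2 l adj H j L : ℝ) / sc l / pS l ≤ 1 / 4 := by
          have h5 : ((4 * sum2 l adj H j L : ℕ) : ℝ) ≤ ((pS l * sc l : ℕ) : ℝ) :=
            Nat.cast_le.2 (not_le.1 hf.2).le
          push_cast at h5
          rw [div_div, div_le_iff₀ (by positivity)]
          linarith
        refine le_trans (st_mean_mono l hl hn _ (g := fun X =>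
          if ∀ v, adj v (X.1 v) = true then qq l ^ e2 l H j X else 0) fun X => ?_)
          (by linarith [(abs_le.1 h2').1])
        by_cases hX : ∀ v, ¬ (adj v (X.1 v) = false ∨ KK H (j + 1) v (X.1 v) < n * (j + 1))
        · have a1 : ∀ v, adj v (X.1 v) = true := fun v => by
            have := hX v; simp only [not_or, Bool.not_eq_false] at this; exact this.1
          have a2 : e2 l H j X = 0 := by
            unfold e2
            rw [Finset.sum_eq_zero fun v _ => Nat.sub_eq_zero_of_le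
              (not_lt.1 fun h => hX v (Or.inr h)), mul_zero]
          rw [if_pos hX, if_pos a1, a2, pow_zero]
        · rw [if_neg hX]
          split_ifs
          · exact (pow_pos (qq_pos hl) _).le
          · exact le_rfl)
    rw [hP] at h3
    push_cast
    rw [add_div]
    linarith
  · intro hf
    by_cases hc : flag = false ∧ pS l * sc l ≤ 4 * sum2 l adj H j L
    · simp only [roundF]
      rw [if_pos hc]
      have hε0 : 0 < ε := by
        by_contra h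
        nlinarith
      obtain ⟨r1, r2⟩ := st_rnd (num * (pS l * pw l (pU l * n)) * sum2 l adj H j L)
        (den * sum1 l H j L * (pS l * sc l))
        (Nat.mul_pos (Nat.mul_pos G4 (by exact_mod_cast hsum1))
          (Nat.mul_pos (Nat.two_pow_pos _) (sc_pos l)))
      refine st_round_aux _ _ _ ε hε0 hε1 r1 r2 ?_
      have h4 : 1 / 4 ≤ (sum2 l adj H j L : ℝ) / sc l / pS l := by
        have h5 : ((pS l * sc l : ℕ) : ℝ) ≤ ((4 * sum2 l adj H j L : ℕ) : ℝ) := Nat.cast_le.2 hc.2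
        push_cast at h5
        rw [div_div, le_div_iff₀ (by positivity)]
        linarith
      have h5 : 1 / (2 : ℝ) ^ l ≤ ε := by rw [div_le_iff₀ (by positivity)]; exact hε
      have hZ1 := Zt_pos l hl hn H (j + 1)
      have h6 := st_out (e := ε / 16) hZ1 hζ0 s2 s3 (by linarith) h4 h2'
        (hrat.trans (mul_le_mul_of_nonneg_right (by linarith) hZ1.le))
        (mean_e2 l hl hn adj H j G3)
      refine le_trans (le_of_eq ?_) h6
      congr 2
      push_cast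
      field_simp
    · simp only [roundF] at hf ⊢
      rw [if_neg hc]
      refine G7 ?_
      cases flag
      · simp only [Bool.false_or, decide_eq_true_eq] at hf
        exact absurd ⟨rfl, hf⟩ hc
      · rfl

theorem good_final (l : ℕ) (hl : 4 ≤ l) (hnl : n ≤ 2 ^ l) (hn : Even n) (hn0 : 0 < n)
    (adj : Fin n → Fin n → Bool) (ε : ℝ) (A : Acc n) (hA : Good l adj ε (pJ l) A) :
    Accu adj ε A.2.2.2.2 := by
  obtain ⟨-, -, G3, -, -, G6, G7⟩ := hA
  cases hf : A.2.2.2.1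
  · obtain ⟨g1, g2⟩ := G6 hf
    have h0 : nAdj adj = 0 := by
      by_contra hne
      have h1 := pot_le l hl hnl hn hn0 adj A.1 _ G3 (Nat.pos_of_ne_zero hne)
      have h2 : ((pJ l : ℕ) : ℝ) = ((2 : ℝ) ^ l) ^ 7 := st_pow l 7
      rw [h2] at g2
      have hW := ch_W hl
      generalize (2 : ℝ) ^ l = W at hW g2
      have hW0 : 0 < W := by linarith
      have e : W ^ 7 / (16 * W ^ 3) = W ^ 2 * W ^ 2 / 16 := by field_simp
      have hW2 : 256 ≤ W ^ 2 := by nlinarith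
      rw [e] at g2
      nlinarith
    simp [Accu, g1, h0]
  · exact G7 hf

theorem st_fail {l : ℕ} (hl : 4 ≤ l) (hnl : n ≤ 2 ^ l) :
    ((n : ℝ) * n + 1 + 1) * (2 * Real.exp (-((pS l : ℝ) * (1 / (2 * ((2 : ℝ) ^ l) ^ 10)) ^ 2 / 4)))
      ≤ (1 / 2 : ℝ) ^ (2 ^ l) / ((2 : ℝ) ^ l) ^ 7 := by
  have hS : ((pS l : ℕ) : ℝ) = ((2 : ℝ) ^ l) ^ 24 := st_pow l 24
  have hW := ch_W hl
  have hnW : (n : ℝ) ≤ 2 ^ l := by exact_mod_cast hnl
  have hP : ((2 ^ l : ℕ) : ℝ) = 2 ^ l := by push_cast; rfl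
  rw [hS]
  generalize 2 ^ l = P at hP
  generalize (2 : ℝ) ^ l = W at hW hnW hP
  subst hP
  have hP0 : (0 : ℝ) < P := by linarith
  have h1 : (P : ℝ) ^ 24 * (1 / (2 * (P : ℝ) ^ 10)) ^ 2 / 4 = (P : ℝ) ^ 4 / 16 := by
    field_simp; norm_num
  have hP3 : (4096 : ℝ) ≤ (P : ℝ) ^ 3 := le_trans (by norm_num) (pow_le_pow_left₀ (by norm_num) hW 3)
  have h2 : 11 * (P : ℝ) ≤ (P : ℝ) ^ 4 / 16 := by
    have h3 := mul_le_mul_of_nonneg_left hP3 hP0.le
    have : (P : ℝ) * (P : ℝ) ^ 3 = (P : ℝ) ^ 4 := by ring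
    linarith
  have h3 : (P : ℝ) ≤ Real.exp P := by linarith [Real.add_one_le_exp (P : ℝ)]
  have h4 : (2 : ℝ) ^ P ≤ Real.exp P := by
    have : (2 : ℝ) ≤ Real.exp 1 := by linarith [Real.add_one_le_exp (1 : ℝ)]
    calc (2 : ℝ) ^ P ≤ Real.exp 1 ^ P := pow_le_pow_left₀ (by norm_num) this P
      _ = Real.exp P := by rw [← Real.exp_nat_mul, mul_one]
  have h5 : (P : ℝ) ^ 10 * 2 ^ P ≤ Real.exp (11 * P) := by
    calc (P : ℝ) ^ 10 * 2 ^ P ≤ Real.exp P ^ 10 * Real.exp P :=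
          mul_le_mul (pow_le_pow_left₀ hP0.le h3 10) h4 (by positivity) (by positivity)
      _ = Real.exp (11 * P) := by
          rw [← Real.exp_nat_mul, ← Real.exp_add]; congr 1; push_cast; ring
  have h6 : (P : ℝ) ^ 10 * 2 ^ P ≤ Real.exp ((P : ℝ) ^ 4 / 16) := h5.trans (Real.exp_le_exp.2 h2)
  rw [h1, Real.exp_neg, one_div, inv_pow]
  have h7 : 0 < Real.exp ((P : ℝ) ^ 4 / 16) := Real.exp_pos _
  generalize Real.exp ((P : ℝ) ^ 4 / 16) = E at h6 h7
  have h8 : E⁻¹ ≤ ((P : ℝ) ^ 10 * 2 ^ P)⁻¹ := inv_anti₀ (by positivity) h6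
  have h9 : ((n : ℝ) * n + 1 + 1) * 2 ≤ (P : ℝ) ^ 3 := by
    have h10 : (n : ℝ) * n ≤ P * P := mul_le_mul hnW hnW (Nat.cast_nonneg _) hP0.le
    have h11 : 16 * ((P : ℝ) * P) ≤ P * (P * P) :=
      mul_le_mul_of_nonneg_right hW (by positivity)
    have h12 : (P : ℝ) * (P * P) = P ^ 3 := by ring
    nlinarith
  calc ((n : ℝ) * n + 1 + 1) * (2 * E⁻¹) = ((n : ℝ) * n + 1 + 1) * 2 * E⁻¹ := by ring
    _ ≤ (P : ℝ) ^ 3 * ((P : ℝ) ^ 10 * 2 ^ P)⁻¹ := mul_le_mul h9 h8 (by positivity) (by positivity)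
    _ = _ := by field_simp

theorem round_good (l : ℕ) (hl : 4 ≤ l) (hnl : n ≤ 2 ^ l) (hn : Even n) (hn0 : 0 < n)
    (adj : Fin n → Fin n → Bool) (hadj : ∀ u v, adj u v = adj v u) (ε : ℝ) (hε1 : ε < 1)
    (hε : 1 ≤ ε * 2 ^ l) (j : ℕ) (hj : j < pJ l) (A : Acc n) (hA : Good l adj ε j A) :
    1 - (1 / 2 : ℝ) ^ (2 ^ l) / ((2 : ℝ) ^ l) ^ 7
      ≤ (roundR l hn adj j A).prob (Good l adj ε (j + 1)) := by
  have hq := qq_pos hl
  have hsc : (0 : ℝ) < sc l := by exact_mod_cast sc_pos l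
  have hη0 : (0 : ℝ) ≤ 1 / (2 * ((2 : ℝ) ^ l) ^ 10) := by positivity
  have hη1 : 1 / (2 * ((2 : ℝ) ^ l) ^ 10) ≤ 1 := by
    rw [div_le_one (by positivity)]
    have : (1 : ℝ) ≤ ((2 : ℝ) ^ l) ^ 10 := one_le_pow₀ (by linarith [ch_W hl])
    linarith
  let φ : Option (Option (Fin n × Fin n)) → PM (Fin n) → ℝ := fun i X =>
    match i with
    | none => qq l ^ e1 l A.1 j X
    | some none => if ∀ v, adj v (X.1 v) = true then qq l ^ e2 l A.1 j X else 0
    | some (some uv) => if X.1 uv.1 = uv.2 then 1 else 0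
  let stat : Option (Option (Fin n × Fin n)) → List (PM (Fin n)) → ℝ := fun i L =>
    match i with
    | none => (sum1 l A.1 j L : ℝ) / sc l
    | some none => (sum2 l adj A.1 j L : ℝ) / sc l
    | some (some uv) => cnt L uv.1 uv.2
  have hφ0 : ∀ i X, 0 ≤ φ i X := by
    rintro (_ | _ | uv) X <;> simp only [φ]
    · positivity
    · split_ifs <;> positivity
    · split_ifs <;> norm_num
  have hφ1 : ∀ i X, φ i X ≤ 1 := by
    rintro (_ | _ | uv) X <;> simp only [φ]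
    · exact pow_le_one₀ hq.le (qq_le_one l)
    · split_ifs
      · exact pow_le_one₀ hq.le (qq_le_one l)
      · norm_num
    · split_ifs <;> norm_num
  have hstat : ∀ i L X, stat i (X :: L) = stat i L + φ i X := by
    rintro (_ | _ | uv) L X <;> simp only [φ, stat]
    · simp only [sum1, List.map_cons, List.sum_cons]
      push_cast
      rw [pw_eq (e1_le l hl hnl A.1 j X)]
      field_simp
      ring
    · simp only [sum2, List.map_cons, List.sum_cons]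
      split_ifs
      · push_cast
        rw [pw_eq (e2_le l hl hnl A.1 j hj X)]
        field_simp
        ring
      · simp
    · simp only [cnt, List.filter_cons]
      by_cases h : X.1 uv.1 = uv.2 <;> simp [h]
  have hstat0 : ∀ i, stat i [] = 0 := by
    rintro (_ | _ | uv) <;> simp [stat, sum1, sum2, cnt]
  unfold roundR
  rw [prob_bind_ret]
  have hu := prob_union (samplesR l hn A.1 (j + 1))
    (fun i L => 1 / (2 * ((2 : ℝ) ^ l) ^ 10) * pS l <
      |stat i L - (sampleR l hn A.1 (j + 1)).E (φ i) * pS l|)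
    (fun L => Good l adj ε (j + 1) (roundF l adj j A L)) (fun _ => True)
    (Rand.All_of_forall (fun _ => trivial) _) _
    (fun i => chernoff (sampleR l hn A.1 (j + 1)) (fun L X => X :: L) (stat i) (φ i) (hφ0 i)
      (hφ1 i) (hstat i) [] (hstat0 i) (pS l) _ hη0 hη1)
    (fun L _ hb => by
      have key : ∀ i, |stat i L - pS l * mean l (kk l A.1 ((j + 1) * pU l)) (φ i)| ≤
          pS l / ((2 : ℝ) ^ l) ^ 10 := fun i => by
        have a1 := abs_le.1 (not_lt.1 (hb i))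
        have a2 := abs_le.1 (sample_tv l hl hnl hn hn0 A.1 (j + 1) hj hA.2.1 (φ i) (hφ0 i) (hφ1 i))
        have hS : (0 : ℝ) ≤ pS l := Nat.cast_nonneg _
        have a3 := mul_le_mul_of_nonneg_right a2.1 hS
        have a4 := mul_le_mul_of_nonneg_right a2.2 hS
        have e : (pS l : ℝ) / ((2 : ℝ) ^ l) ^ 10 = 1 / (2 * ((2 : ℝ) ^ l) ^ 10) * pS l +
            1 / (2 * ((2 : ℝ) ^ l) ^ 10) * pS l := by field_simp; norm_num
        rw [e, abs_le]
        constructor <;> linarith [a1.1, a1.2]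
      exact good_step l hl hnl hn adj hadj ε hε1 hε j hj A hA L
        (fun u v => key (some (some (u, v)))) (key none) (key (some none)))
  refine le_trans ?_ hu
  have hf := st_fail hl hnl
  simp only [Fintype.card_option, Fintype.card_prod, Fintype.card_fin]
  push_cast
  linarith

theorem alg_correct (l : ℕ) (hl : 4 ≤ l) (hnl : n ≤ 2 ^ l) (hn : Even n) (hn0 : 0 < n)
    (adj : Fin n → Fin n → Bool) (hadj : ∀ u v, adj u v = adj v u) (ε : ℝ) (hε1 : ε < 1)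
    (hε : 1 ≤ ε * 2 ^ l) :
    1 - (1 / 2 : ℝ) ^ (2 ^ l) ≤ (algR l hn adj).prob (Accu adj ε) := by
  have h1 := prob_iterIdx (Good l adj ε) (roundR l hn adj)
    ((1 / 2 : ℝ) ^ (2 ^ l) / ((2 : ℝ) ^ l) ^ 7) (by positivity) (pJ l) (acc0 n)
    (good_zero l hl hnl hn adj ε) fun j hj A hA =>
      round_good l hl hnl hn hn0 adj hadj ε hε1 hε j hj A hA
  have h2 : ((pJ l : ℕ) : ℝ) = ((2 : ℝ) ^ l) ^ 7 := st_pow l 7
  rw [h2, mul_div_cancel₀ _ (by positivity)] at h1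
  refine h1.trans ?_
  unfold algR
  rw [prob_bind_ret, Rand.prob_eq_E, Rand.prob_eq_E]
  refine Rand.E_mono _ fun A => ?_
  by_cases hA : Good l adj ε (pJ l) A
  · simp [hA, good_final l hl hnl hn hn0 adj ε A hA]
  · simp only [hA, if_false]; split_ifs <;> norm_num

end Vale.Agent.P308
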