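import Vale.Agent.P308.Spec
import Vale.Agent.Lib.CT.Rec

/-! Coin trees read from a tape; polynomial time for programs that flip coins. -/

namespace Vale.Agent.P308

open Finset Vale.Agent.P317 Vale.Agent.Lib.TM

/-- Run a coin tree on a tape of bits; the unread part of the tape is returned. -/
def runT {α : Type} : Rand α → List Bool → α × List Bool
  | .ret a, l => (a, l)
  | .flip s t, l => bif l.headD false then runT t l.tail else runT s l.tail

/-- At most `d` coins are flipped on every branch. -/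
def Dep {α : Type} : Rand α → ℕ → Prop
  | .ret _, _ => True
  | .flip s t, d => 0 < d ∧ Dep s (d - 1) ∧ Dep t (d - 1)

section
variable {α β : Type}

theorem runT_bind (t : Rand α) (f : α → Rand β) (l : List Bool) :
    runT (t.bind f) l = runT (f (runT t l).1) (runT t l).2 := by
  induction t generalizing l with
  | ret a => rfl
  | flip s t ihs iht =>
    simp only [Rand.flip_bind, runT]
    cases l.headD false
    · exact ihs _
    · exact iht _

theorem All_runT {p : α → Prop} {t : Rand α} (h : t.All p) (l : List Bool) : p (runT t l).1 := by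
  induction t generalizing l with
  | ret a => exact h
  | flip s t ihs iht =>
    simp only [runT]
    cases l.headD false
    · exact ihs h.1 _
    · exact iht h.2 _

theorem length_runT (t : Rand α) (l : List Bool) : (runT t l).2.length ≤ l.length := by
  induction t generalizing l with
  | ret a => exact le_rfl
  | flip s t ihs iht =>
    simp only [runT]
    cases l.headD false
    · exact (ihs _).trans (by simp)
    · exact (iht _).trans (by simp)

theorem Dep.mono {t : Rand α} {d d' : ℕ} (h : Dep t d) (hd : d ≤ d') : Dep t d' := by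
  induction t generalizing d d' with
  | ret a => trivial
  | flip s t ihs iht =>
    exact ⟨h.1.trans_le hd, ihs h.2.1 (Nat.sub_le_sub_right hd 1),
      iht h.2.2 (Nat.sub_le_sub_right hd 1)⟩

theorem Dep.ret (a : α) (d : ℕ) : Dep (.ret a : Rand α) d := trivial

theorem Dep.bind {t : Rand α} {f : α → Rand β} {d e : ℕ} (h : Dep t d) (hf : ∀ a, Dep (f a) e) :
    Dep (t.bind f) (d + e) := by
  induction t generalizing d with
  | ret a => exact (hf a).mono (Nat.le_add_left _ _)
  | flip s t ihs iht =>
    have h0 := h.1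
    exact ⟨by omega, (ihs h.2.1).mono (by omega), (iht h.2.2).mono (by omega)⟩

theorem Dep.iterIdx {g : ℕ → α → Rand α} {d : ℕ} (h : ∀ i a, Dep (g i a) d) (k : ℕ) (a : α) :
    Dep (iterIdx g k a) (k * d) := by
  induction k with
  | zero => trivial
  | succ k ih =>
    rw [add_mul, one_mul]
    exact ih.bind (h k)

theorem Dep.iter {g : α → Rand α} {d : ℕ} (h : ∀ a, Dep (g a) d) (k : ℕ) (a : α) :
    Dep (iter g k a) (k * d) := by
  rw [iter_eq_iterIdx]
  exact Dep.iterIdx (fun _ => h) k a

theorem Dep.bits (k : ℕ) : Dep (bits k) k := by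
  have h : ∀ r : ℕ, Dep (coin.bind fun c => (Rand.ret (r + r + c) : Rand ℕ)) 1 := fun r =>
    ⟨Nat.one_pos, trivial, trivial⟩
  have := Dep.iter h k 0
  rwa [mul_one] at this

open Classical in
theorem prob_tape (t : Rand α) (p : α → Prop) (r : ℕ) (h : Dep t r) :
    t.prob p * 2 ^ r
      = ((univ.filter fun b : Fin r → Bool => p (runT t (List.ofFn b)).1).card : ℝ) := by
  induction t generalizing r with
  | ret a =>
    simp only [Rand.prob, runT]
    by_cases ha : p a <;> simp [ha]
  | flip s t ihs iht =>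
    obtain ⟨r, rfl⟩ : ∃ r', r = r' + 1 := ⟨r - 1, by have := h.1; omega⟩
    have h1 := ihs r h.2.1
    have h2 := iht r h.2.2
    rw [Finset.card_filter] at h1 h2 ⊢
    rw [← (Fin.consEquiv fun _ : Fin (r + 1) => Bool).sum_comp, Fintype.sum_prod_type,
      Fintype.sum_bool]
    have e : ∀ (c : Bool) (b : Fin r → Bool),
        List.ofFn ((Fin.consEquiv fun _ : Fin (r + 1) => Bool) (c, b)) = c :: List.ofFn b := by
      intro c b
      rw [List.ofFn_succ]
      rfl
    simp only [e, runT, List.headD_cons, List.tail_cons, cond_true, cond_false, Rand.prob]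
    rw [Nat.cast_add, ← h1, ← h2]
    ring

end

variable {α β σ : Type} [Enc α] [Enc β] [Enc σ]

/-- Polynomial time when run on a tape. -/
def RC (t : α → Rand β) : Prop := CT 0 fun p : α × List Bool => runT (t p.1) p.2

theorem RC.ret {f : α → β} (hf : CT 0 f) : RC fun a => (.ret (f a) : Rand β) :=
  (hf.comp CT.id.fst).mk CT.id.snd

theorem RC.comp {t : β → Rand σ} {g : α → β} (ht : RC t) (hg : CT 0 g) :
    RC fun a => t (g a) :=
  CT.comp (g := fun p : α × List Bool => (g p.1, p.2)) ht ((hg.comp CT.id.fst).mk CT.id.snd)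

theorem RC.bind {t : α → Rand β} {u : α → β → Rand σ} (ht : RC t)
    (hu : RC fun p : α × β => u p.1 p.2) : RC fun a => (t a).bind (u a) :=
  (CT.comp (g := fun p : α × List Bool => ((p.1, (runT (t p.1) p.2).1), (runT (t p.1) p.2).2)) hu
    ((CT.id.fst.mk (CT.fst ht)).mk (CT.snd ht))).of_eq fun _ => (runT_bind _ _ _).symm

theorem RC.cond {c : α → Bool} {t u : α → Rand β} (hc : CT 0 c) (ht : RC t) (hu : RC u) :
    RC fun a => bif c a then t a else u a :=
  (CT.cond (hc.comp CT.id.fst) ht hu).of_eq fun p => by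
    dsimp only
    cases c p.1 <;> rfl

theorem runT_iterIdx {τ : Type} (g : ℕ → τ → Rand τ) (k : ℕ) (a : τ) (l : List Bool) :
    runT (iterIdx g k a) l =
      (List.range k).foldl (fun st i => runT (g i st.1) st.2) (a, l) := by
  induction k with
  | zero => rfl
  | succ k ih => rw [iterIdx, runT_bind, ih, List.range_succ, List.foldl_append]; rfl

theorem RC.iterIdx {g : α → ℕ → σ → Rand σ} {k : α → ℕ} {init : α → σ} {B : α → ℕ}
    (hg : RC fun p : α × ℕ × σ => g p.1 p.2.1 p.2.2) (hk : CT 0 k) (hkB : Bd 0 k)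
    (hi : CT 0 init) (hB : Bd 0 B) (I : α → ℕ → σ → Prop) (h0 : ∀ a, I a 0 (init a))
    (h1 : ∀ a i s, i < k a → I a i s → (g a i s).All (I a (i + 1)))
    (h2 : ∀ a i s, i ≤ k a → I a i s → sz s ≤ B a) :
    RC fun a => iterIdx (g a) (k a) (init a) := by
  have hf : Bd 0 fun p : α × List Bool => sz p.1 := (CT.fst (e := 0) CT.id).size
  have h := CT.foldl_inv (e := 0)
    (g := fun (p : α × List Bool) (st : σ × List Bool) (i : ℕ) => runT (g p.1 i st.1) st.2)
    (init := fun p => (init p.1, p.2)) (l := fun p => List.range (k p.1))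
    (B := fun p => B p.1 + sz p.2 + 1)
    (CT.comp (g := fun q : (α × List Bool) × (σ × List Bool) × ℕ =>
      ((q.1.1, q.2.2, q.2.1.1), q.2.1.2)) hg (by fun_prop))
    ((hi.comp CT.id.fst).mk CT.id.snd) (CT.range (hk.comp CT.id.fst) (hkB.comp hf))
    (((hB.comp hf).add (CT.snd (e := 0) CT.id).size).add (Bd.const 1))
    (fun p st r => ∃ i, i ≤ k p.1 ∧ r = List.range' i (k p.1 - i) ∧ I p.1 i st.1 ∧
      st.2.length ≤ p.2.length)
    (fun p => ⟨0, Nat.zero_le _, by simp [List.range_eq_range'], h0 _, le_rfl⟩)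
    (fun p st x r ⟨i, a1, a2, a3, a4⟩ => by
      obtain ⟨m, hm⟩ : ∃ m, k p.1 - i = m + 1 := by
        rcases hh : k p.1 - i with _ | m
        · rw [hh] at a2; simp at a2
        · exact ⟨m, rfl⟩
      rw [hm, List.range'_succ, List.cons.injEq] at a2
      obtain ⟨rfl, rfl⟩ := a2
      exact ⟨x + 1, by omega, by rw [show k p.1 - (x + 1) = m by omega],
        All_runT (h1 _ _ _ (by omega) a3) _, (length_runT _ _).trans a4⟩)
    (fun p st r ⟨i, a1, _, a3, a4⟩ => by
      have := h2 _ _ _ a1 a3
      rw [sz_prod, sz_bits st.2, sz_bits p.2]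
      omega)
  exact h.of_eq fun p => (runT_iterIdx _ _ _ _).symm

theorem RC.iter {g : α → σ → Rand σ} {k : α → ℕ} {init : α → σ} {B : α → ℕ}
    (hg : RC fun p : α × σ => g p.1 p.2) (hk : CT 0 k) (hkB : Bd 0 k)
    (hi : CT 0 init) (hB : Bd 0 B) (I : α → ℕ → σ → Prop) (h0 : ∀ a, I a 0 (init a))
    (h1 : ∀ a i s, i < k a → I a i s → (g a s).All (I a (i + 1)))
    (h2 : ∀ a i s, i ≤ k a → I a i s → sz s ≤ B a) :
    RC fun a => iter (g a) (k a) (init a) := by
  simp only [iter_eq_iterIdx]
  exact RC.iterIdx (g := fun a _ s => g a s)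
    (RC.comp (g := fun p : α × ℕ × σ => (p.1, p.2.2)) hg (by fun_prop)) hk hkB hi hB I h0 h1 h2

theorem RC.coin : RC fun _ : α => coin := by
  have h : CT 0 fun p : α × List Bool =>
      bif p.2.headD false then ((1 : ℕ), p.2.tail) else (0, p.2.tail) := by fun_prop
  exact h

theorem RC.bits {k : α → ℕ} (hk : CT 0 k) (hkB : Bd 0 k) : RC fun a => bits (k a) := by
  refine RC.iter (g := fun _ r => Vale.Agent.P308.coin.bind fun c => .ret (r + r + c))
    (B := fun a => 6 * k a + 1) ?_ hk hkB (CT.const 0)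
    (((Bd.const 6).mul hkB).add (Bd.const 1)) (fun _ i r => r < 2 ^ i) (fun _ => Nat.one_pos)
    (fun a i r _ hr => ?_) fun a i r hi hr => ?_
  · exact RC.bind (u := fun (p : α × ℕ) c => .ret (p.2 + p.2 + c)) RC.coin (RC.ret (by fun_prop))
  · constructor
    · change r + r + 0 < 2 ^ (i + 1)
      rw [pow_succ]; omega
    · change r + r + 1 < 2 ^ (i + 1)
      rw [pow_succ]; omega
  · have := sz_le_of_lt hr
    omega

theorem All_bits (k : ℕ) : (bits k).All fun r => r < 2 ^ k := by
  unfold bits
  rw [iter_eq_iterIdx]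
  refine All_iterIdx (p := fun i r => r < 2 ^ i) k Nat.one_pos fun i _ r hr => ?_
  constructor
  · change r + r + 0 < 2 ^ (i + 1)
    rw [pow_succ]; omega
  · change r + r + 1 < 2 ^ (i + 1)
    rw [pow_succ]; omega

end Vale.Agent.P308
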