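import Vale.Agent.P308.Arc

/-! Weights with large marginals are close to an ultrametric. -/

namespace Vale.Agent.P308

open Finset Equiv

variable {V : Type} [DecidableEq V] [Fintype V] [Inhabited V]

omit [DecidableEq V] [Fintype V] in
theorem ultra_Ef_prefix {X : PM V} {L R : List V} (h : Ef X (L ++ R)) : Ef X L := by
  rcases Nat.even_or_odd L.length with he | ho
  · exact ((Ef_append_even he).1 h).1
  · by_cases hR : R = []
    · simpa [hR] using h
    · exact ((Ef_append_odd ho hR).1 h).1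

omit [DecidableEq V] [Fintype V] in
theorem ultra_inst_prefix {X Y : PM V} {L R : List V} (h : Inst (L ++ R) X Y)
    (ho : Odd L.length) : Inst L X Y := by
  have hL : L ≠ [] := by
    rintro rfl
    simp at ho
  refine ⟨hL, h.2.1.of_append_left, ultra_Ef_prefix h.2.2.1, (Ef_rotate hL).2 ⟨?_, fun he => ?_⟩⟩
  · have h1 := ((Ef_rotate h.1).1 h.2.2.2).1
    rw [List.tail_append_of_ne_nil hL] at h1
    exact ultra_Ef_prefix h1
  · exact absurd he (Nat.not_even_iff_odd.2 ho)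

theorem ultra_cases {X Y : PM V} {o x y w : V} (hX : X.1 x = w) (hY : Y.1 o = y) :
    (∃ L : List V, Odd L.length ∧ Inst L X Y ∧ hd L = o ∧ lt L = x) ∨
    (∃ L : List V, Odd L.length ∧ Inst L X Y ∧ hd L = o ∧ lt L = w) ∨
    ((sw {o} (X, Y)).1.1 o = y ∧ (sw {o} (X, Y)).1.1 x = w) := by
  obtain ⟨Q, hQ, hI, he⟩ := exists_closed X Y o
  by_cases hx : x ∈ Q
  · obtain ⟨A, B, rfl⟩ := List.append_of_mem hx
    rcases Nat.even_or_odd A.length with hA | hA
    · have e : A ++ x :: B = (A ++ [x]) ++ B := by simp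
      rw [e] at hI hQ
      have ho : Odd (A ++ [x]).length := by simpa using hA.add_one
      refine Or.inl ⟨A ++ [x], ho, ultra_inst_prefix hI ho, ?_, ?_⟩
      · rwa [hd_append (by simp)] at hQ
      · rw [lt_append _ (by simp)]
        rfl
    · have hA0 : A ≠ [] := by
        rintro rfl
        simp at hA
      refine Or.inr (Or.inl ⟨A, hA, ultra_inst_prefix hI hA, ?_, ?_⟩)
      · rwa [hd_append hA0] at hQ
      · have h1 := ((Ef_append_odd hA (by simp)).1 hI.2.2.1).2.1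
        have h2 : X.1 (lt A) = x := h1
        rw [← hX, ← h2, X.inv]
  · have ho : o ∈ Q := hQ ▸ hd_mem hI.1
    have h1 : Reach {o} (X, Y) o := (hI.reach he ho o).2 ho
    have h2 : ¬ Reach {o} (X, Y) x := fun h => hx ((hI.reach he ho x).1 h)
    refine Or.inr (Or.inr ⟨?_, ?_⟩)
    · simp only [sw, mix, if_pos h1, hY]
    · simp only [sw, mix, if_neg h2, hX]

omit [Inhabited V] in
theorem ultra_Zm_mul (a : V → V → ℝ) (u v u' v' : V) :
    Zm a u v * Zm a u' v' = ∑ p : PM V × PM V,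
      if p.1.1 u = v ∧ p.2.1 u' = v' then wt a p.1 * wt a p.2 else 0 := by
  rw [Zm, Zm, Finset.sum_mul_sum, Fintype.sum_prod_type]
  refine Finset.sum_congr rfl fun X _ => Finset.sum_congr rfl fun Y _ => ?_
  by_cases h1 : X.1 u = v <;> by_cases h2 : Y.1 u' = v' <;> simp [h1, h2]

/-- The exchange along a fixed list, as a bijection. -/
def ultraFlip (L : List V) : PM V × PM V ≃ PM V × PM V where
  toFun p := ((tau L)⁻¹ • p.2, tau L • p.1)
  invFun p := ((tau L)⁻¹ • p.2, tau L • p.1)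
  left_inv p := by simp
  right_inv p := by simp

open Classical in
theorem ultra_arc (a : V → V → ℝ) (ha : ∀ u v, a u v = a v u) (hp : ∀ u v, 0 < a u v)
    (o e f y : V) :
    (∑ p : PM V × PM V, if p.1.1 e = f ∧ p.2.1 o = y ∧
        ∃ L : List V, Odd L.length ∧ Inst L p.1 p.2 ∧ hd L = o ∧ lt L = e
        then wt a p.1 * wt a p.2 else 0) / (a e f * a o y) ^ 2
      ≤ Zm a e y * Zm a o f / (a e y * a o f) ^ 2 := by
  have hw : ∀ X : PM V, 0 < wt a X := wt_pos fun u v _ => hp u v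
  have hW : ∀ p : PM V × PM V, 0 ≤ wt a p.1 * wt a p.2 := fun p => (mul_pos (hw _) (hw _)).le
  have h1 : 0 < (a e f * a o y) ^ 2 := pow_pos (mul_pos (hp _ _) (hp _ _)) 2
  have h2 : 0 < (a e y * a o f) ^ 2 := pow_pos (mul_pos (hp _ _) (hp _ _)) 2
  let g : List V → PM V × PM V → ℝ := fun L p =>
    if (p.1.1 e = y ∧ p.2.1 o = f) ∧ Inst L p.1 p.2 ∧ hd L = o ∧ lt L = e
    then wt a p.1 * wt a p.2 / (a e y * a o f) ^ 2 else 0
  have hg : ∀ L p, 0 ≤ g L p := fun L p => by
    simp only [g]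
    split_ifs
    · exact div_nonneg (hW p) h2.le
    · exact le_rfl
  have s1 : ∀ p : PM V × PM V, (if p.1.1 e = f ∧ p.2.1 o = y ∧
        ∃ L : List V, Odd L.length ∧ Inst L p.1 p.2 ∧ hd L = o ∧ lt L = e
        then wt a p.1 * wt a p.2 else 0) / (a e f * a o y) ^ 2
      ≤ ∑ L ∈ arcs V, g L (ultraFlip L p) := by
    rintro ⟨X, Y⟩
    split_ifs with h
    · obtain ⟨hX, hY, L, ho, hI, hh, hl⟩ := h
      refine le_trans (le_of_eq ?_) (Finset.single_le_sum (f := fun L => g L (ultraFlip L (X, Y)))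
        (fun L _ => hg _ _) (mem_arcs.2 ⟨hI.1, hI.2.1⟩))
      have a1 : ((tau L)⁻¹ • Y).1 e = y := by
        rw [hI.tau_inv_apply, if_pos (hl ▸ lt_mem hI.1), if_pos ⟨ho, hl.symm⟩, hh]
        exact hY
      have a2 : (tau L • X).1 o = f := by
        rw [hI.tau_apply, if_pos (hh ▸ hd_mem hI.1), if_pos ⟨ho, hh.symm⟩, hl]
        exact hX
      have a3 := hI.wt_odd ha ho
      dsimp only at hX hY a3
      rw [hh, hl, hX, hY] at a3
      have a4 : g L (ultraFlip L (X, Y)) =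
          wt a ((tau L)⁻¹ • Y) * wt a (tau L • X) / (a e y * a o f) ^ 2 :=
        if_pos ⟨⟨a1, a2⟩, hI.flip, hh, hl⟩
      rw [a4, div_eq_div_iff h1.ne' h2.ne', a3]
      ring
    · rw [zero_div]
      exact Finset.sum_nonneg fun L _ => hg _ _
  have s2 : ∀ p : PM V × PM V, ∑ L ∈ arcs V, g L p ≤
      (if p.1.1 e = y ∧ p.2.1 o = f then wt a p.1 * wt a p.2 else 0) / (a e y * a o f) ^ 2 := by
    intro p
    by_cases h : ∃ L, (p.1.1 e = y ∧ p.2.1 o = f) ∧ Inst L p.1 p.2 ∧ hd L = o ∧ lt L = e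
    · obtain ⟨L, hL⟩ := h
      rw [if_pos hL.1, Finset.sum_eq_single L]
      · exact le_of_eq (if_pos hL)
      · intro L' _ hne
        refine if_neg fun h' => hne ?_
        exact alt_unique h'.2.1.alt hL.2.1.alt h'.2.1.2.1 hL.2.1.2.1 h'.2.1.1 hL.2.1.1
          (h'.2.2.1.trans hL.2.2.1.symm) (h'.2.2.2.trans hL.2.2.2.symm)
      · intro hn
        exact absurd (mem_arcs.2 ⟨hL.2.1.1, hL.2.1.2.1⟩) hn
    · rw [Finset.sum_eq_zero fun L _ => if_neg fun h' => h ⟨L, h'⟩]
      refine div_nonneg ?_ h2.le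
      split_ifs
      · exact hW p
      · exact le_rfl
  rw [Finset.sum_div, ultra_Zm_mul, Finset.sum_div]
  refine (Finset.sum_le_sum fun p _ => s1 p).trans (le_trans (le_of_eq ?_)
    (Finset.sum_le_sum fun p _ => s2 p))
  rw [Finset.sum_comm, Finset.sum_comm (s := univ)]
  exact Finset.sum_congr rfl fun L _ => Equiv.sum_comp (ultraFlip L) (g L)

omit [Inhabited V] in
theorem ultra_rest (a : V → V → ℝ) (ha : ∀ u v, a u v = a v u) (hp : ∀ u v, 0 < a u v)
    {o x y w : V} (hox : o ≠ x) (hxy : x ≠ y) :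
    (∑ p : PM V × PM V, if (sw {o} p).1.1 o = y ∧ (sw {o} p).1.1 x = w
        then wt a p.1 * wt a p.2 else 0) / (a x w * a o y) ^ 2
      ≤ Zf a ^ 2 / (a y w * a o x) ^ 2 := by
  have hw : ∀ X : PM V, 0 < wt a X := wt_pos fun u v _ => hp u v
  have h1 : 0 < (a x w * a o y) ^ 2 := pow_pos (mul_pos (hp _ _) (hp _ _)) 2
  have h2 : 0 < (a y w * a o x) ^ 2 := pow_pos (mul_pos (hp _ _) (hp _ _)) 2
  let e : PM V × PM V ≃ PM V × PM V := ⟨sw {o}, sw {o}, sw_sw _, sw_sw _⟩
  have s1 : (∑ p : PM V × PM V, if (sw {o} p).1.1 o = y ∧ (sw {o} p).1.1 x = w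
        then wt a p.1 * wt a p.2 else 0) =
      ∑ p : PM V × PM V, if p.1.1 o = y ∧ p.1.1 x = w then wt a p.1 * wt a p.2 else 0 := by
    rw [← Equiv.sum_comp e]
    refine Finset.sum_congr rfl fun p _ => ?_
    change (if (sw {o} (sw {o} p)).1.1 o = y ∧ (sw {o} (sw {o} p)).1.1 x = w
      then wt a (sw {o} p).1 * wt a (sw {o} p).2 else 0) = _
    rw [sw_sw, wt_sw]
  have s2 : ∀ X : PM V, (if X.1 o = y ∧ X.1 x = w then wt a X else 0) / (a x w * a o y) ^ 2
      ≤ wt a (swap y x • X) / (a y w * a o x) ^ 2 := by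
    intro X
    split_ifs with h
    · have h3 : X.1 y = o := X.eq_iff.1 h.1
      have h4 := wt_swap ha X hxy.symm (h3 ▸ hox)
      rw [h3, h.2, ha y o, ha x o] at h4
      refine le_of_eq ?_
      rw [div_eq_div_iff h1.ne' h2.ne']
      linarith [h4, mul_comm (a o y) (a x w) ▸ h4, mul_comm (a o x) (a y w) ▸ h4]
    · rw [zero_div]
      exact div_nonneg (hw _).le h2.le
  have s3 : ∑ X : PM V, wt a (swap y x • X) = Zf a :=
    Equiv.sum_comp (MulAction.toPerm (swap y x)) (wt a)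
  have hZ : 0 ≤ Zf a := Finset.sum_nonneg fun X _ => (hw X).le
  have s4 : (∑ p : PM V × PM V, if p.1.1 o = y ∧ p.1.1 x = w then wt a p.1 * wt a p.2 else 0) =
      (∑ X : PM V, if X.1 o = y ∧ X.1 x = w then wt a X else 0) * Zf a := by
    rw [Zf, Finset.sum_mul_sum, Fintype.sum_prod_type]
    refine Finset.sum_congr rfl fun X _ => Finset.sum_congr rfl fun Y _ => ?_
    split_ifs <;> simp
  rw [s1, s4, mul_div_right_comm, sq (Zf a), mul_div_right_comm]
  refine mul_le_mul_of_nonneg_right ?_ hZ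
  rw [Finset.sum_div, ← s3, Finset.sum_div]
  exact Finset.sum_le_sum fun X _ => s2 X

/-- The four-point inequality. -/
theorem ptolemy (a : V → V → ℝ) (ha : ∀ u v, a u v = a v u) (hp : ∀ u v, 0 < a u v)
    {o x y w : V} (hox : o ≠ x) (hoy : o ≠ y) (how : o ≠ w) (hxy : x ≠ y) (hxw : x ≠ w)
    (hyw : y ≠ w) :
    Zm a x w * Zm a o y / (a x w * a o y) ^ 2
      ≤ Zm a x y * Zm a o w / (a x y * a o w) ^ 2 + Zm a y w * Zm a o x / (a y w * a o x) ^ 2
        + Zf a ^ 2 / (a y w * a o x) ^ 2 := by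
  classical
  have _ := And.intro hoy (And.intro how (And.intro hxw hyw))
  have hw : ∀ X : PM V, 0 < wt a X := wt_pos fun u v _ => hp u v
  have h1 : 0 < (a x w * a o y) ^ 2 := pow_pos (mul_pos (hp _ _) (hp _ _)) 2
  have t1 := ultra_arc a ha hp o x w y
  have t2 := ultra_arc a ha hp o w x y
  have t3 := ultra_rest a ha hp (w := w) hox hxy
  have e : Zm a w y = Zm a y w :=
    Finset.sum_congr rfl fun X _ => if_congr X.eq_iff rfl rfl
  rw [ha w x, ha w y, e] at t2
  refine le_trans ?_ (add_le_add (add_le_add t1 t2) t3)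
  rw [← add_div, ← add_div, ultra_Zm_mul, ← Finset.sum_add_distrib, ← Finset.sum_add_distrib]
  refine div_le_div_of_nonneg_right (Finset.sum_le_sum ?_) h1.le
  rintro ⟨X, Y⟩ -
  have hW : 0 ≤ wt a X * wt a Y := (mul_pos (hw _) (hw _)).le
  have hi : ∀ (P : Prop) [Decidable P], 0 ≤ if P then wt a X * wt a Y else 0 := by
    intro P _
    split_ifs
    · exact hW
    · exact le_rfl
  dsimp only
  by_cases h : X.1 x = w ∧ Y.1 o = y
  · rw [if_pos h]
    rcases ultra_cases h.1 h.2 with h2 | h2 | h2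
    · rw [if_pos ⟨h.1, h.2, h2⟩]
      exact (le_add_of_nonneg_right (hi _)).trans (le_add_of_nonneg_right (hi _))
    · rw [if_pos (c := X.1 w = x ∧ _) ⟨X.eq_iff.1 h.1, h.2, h2⟩]
      exact (le_add_of_nonneg_left (hi _)).trans (le_add_of_nonneg_right (hi _))
    · rw [if_pos h2]
      exact le_add_of_nonneg_left (add_nonneg (hi _) (hi _))
  · rw [if_neg h]
    exact add_nonneg (add_nonneg (hi _) (hi _)) (hi _)

omit [Inhabited V] in
/-- The minimax closure. -/
theorem ultra_closure (R : V → V → ℝ) (o : V) (ρ K : ℝ) (hρ : 0 < ρ) (hK : 1 ≤ K)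
    (hs : ∀ u v, R u v = R v u) (hp : ∀ u v, u ≠ v → 0 < R u v) (ho : ∀ v, v ≠ o → R o v = ρ)
    (hle : ∀ u v, u ≠ v → R u v ≤ ρ)
    (htri : ∀ x y w, o ≠ x → o ≠ y → o ≠ w → x ≠ y → x ≠ w → y ≠ w →
      R x w ≤ R x y + K * R y w) :
    ∃ D : V → V → ℝ, (∀ u v, D u v = D v u) ∧ (∀ u v, 0 < D u v) ∧
      (∀ x y z, D x z ≤ max (D x y) (D y z)) ∧
      ∀ u v, u ≠ v → D u v ≤ R u v ∧ R u v ≤ Fintype.card V * K * D u v := by
  classical
  let G : ℝ → SimpleGraph V := fun t => SimpleGraph.fromRel fun u v => R u v ≤ t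
  have hG : ∀ t u v, (G t).Adj u v ↔ u ≠ v ∧ R u v ≤ t := by
    intro t u v
    simp only [G, SimpleGraph.fromRel_adj, hs v u, or_self]
  have hmono : ∀ t t', t ≤ t' → G t ≤ G t' := fun t t' h u v huv =>
    (hG t' u v).2 ⟨((hG t u v).1 huv).1, ((hG t u v).1 huv).2.trans h⟩
  let T : Finset ℝ := insert ρ ((univ.filter fun p : V × V => p.1 ≠ p.2).image fun p => R p.1 p.2)
  have hTR : ∀ u v, u ≠ v → R u v ∈ T := fun u v h =>
    mem_insert_of_mem (mem_image.2 ⟨(u, v), by simpa using h, rfl⟩)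
  have hT0 : ∀ t ∈ T, 0 < t := by
    intro t ht
    rcases mem_insert.1 ht with rfl | ht
    · exact hρ
    · obtain ⟨p, hp', rfl⟩ := mem_image.1 ht
      exact hp _ _ (by simpa using hp')
  have hex : ∀ u v, ∃ t, (t ∈ T ∧ (G t).Reachable u v) ∧
      ∀ t', t' ∈ T → (G t').Reachable u v → t ≤ t' := by
    intro u v
    have hne : (T.filter fun t => (G t).Reachable u v).Nonempty := by
      refine ⟨ρ, mem_filter.2 ⟨mem_insert_self _ _, ?_⟩⟩
      by_cases h : u = v
      · rw [h]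
      · exact ((hG ρ u v).2 ⟨h, hle u v h⟩).reachable
    obtain ⟨t, ht, hmin⟩ := Finset.exists_min_image _ id hne
    exact ⟨t, mem_filter.1 ht, fun t' h1 h2 => hmin t' (mem_filter.2 ⟨h1, h2⟩)⟩
  choose D hD hmin using hex
  have hwalk : ∀ t, 0 < t → t < ρ → ∀ u z (p : (G t).Walk u z),
      u = z ∨ (o ≠ u ∧ o ≠ z ∧ R z u ≤ p.length * K * t) := by
    intro t ht0 ht u z p
    induction p with
    | nil => exact Or.inl rfl
    | @cons u v z h p ih =>
      obtain ⟨huv, hR⟩ := (hG t u v).1 h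
      have hu : o ≠ u := by
        rintro rfl
        rw [ho v huv.symm] at hR
        linarith
      have hv : o ≠ v := by
        rintro rfl
        rw [hs, ho u huv] at hR
        linarith
      by_cases huz : u = z
      · exact Or.inl huz
      right
      have hl : (0 : ℝ) ≤ p.length * K * t := by positivity
      have hKt : t ≤ K * t := le_mul_of_one_le_left ht0.le hK
      rw [SimpleGraph.Walk.length_cons]
      push_cast
      by_cases hvz : v = z
      · subst hvz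
        refine ⟨hu, hv, ?_⟩
        rw [hs]
        linarith
      · obtain ⟨-, hz, h3⟩ := ih.resolve_left hvz
        refine ⟨hu, hz, (htri z v u hz hv hu (Ne.symm hvz) (Ne.symm huz) huv.symm).trans ?_⟩
        have : K * R v u ≤ K * t := mul_le_mul_of_nonneg_left (hs u v ▸ hR) (by linarith)
        linarith
  refine ⟨D, fun u v => le_antisymm (hmin u v _ (hD v u).1 (hD v u).2.symm)
    (hmin v u _ (hD u v).1 (hD u v).2.symm), fun u v => hT0 _ (hD u v).1, fun x y z => ?_,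
    fun u v huv => ⟨hmin u v _ (hTR u v huv) ((hG _ u v).2 ⟨huv, le_rfl⟩).reachable, ?_⟩⟩
  · refine hmin x z _ ?_ (((hD x y).2.mono (hmono _ _ (le_max_left _ _))).trans
      ((hD y z).2.mono (hmono _ _ (le_max_right _ _))))
    rcases max_choice (D x y) (D y z) with h | h <;> rw [h]
    · exact (hD x y).1
    · exact (hD y z).1
  · have h0 := hT0 _ (hD u v).1
    have hn : (1 : ℝ) ≤ Fintype.card V := by
      exact_mod_cast Fintype.card_pos_iff.2 ⟨u⟩
    rcases lt_or_ge (D u v) ρ with h | h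
    · obtain ⟨p⟩ := (hD u v).2
      obtain ⟨-, -, h3⟩ := (hwalk _ h0 h u v p.bypass).resolve_left huv
      have h4 : (p.bypass.length : ℝ) ≤ Fintype.card V := by
        exact_mod_cast p.bypass_isPath.length_lt.le
      rw [hs]
      refine h3.trans ?_
      have : 0 ≤ K * D u v := by positivity
      nlinarith
    · refine (hle u v huv).trans (h.trans (le_mul_of_one_le_left h0.le ?_))
      nlinarith

omit [Inhabited V] in
theorem ultra_Zm_le (a : V → V → ℝ) (hp : ∀ u v, 0 < a u v) (u v : V) : Zm a u v ≤ Zf a := by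
  refine Finset.sum_le_sum fun X _ => ?_
  split_ifs
  · exact le_rfl
  · exact (wt_pos (fun u v _ => hp u v) X).le

theorem exists_ultra (a : V → V → ℝ) (ha : ∀ u v, a u v = a v u) (hp : ∀ u v, 0 < a u v)
    (hZ : 0 < Zf a) (d κ : ℝ) (hd0 : 0 < d) (hd1 : d ≤ 1) (hκ0 : 1 ≤ κ)
    (hκ : 2 * (Fintype.card V : ℝ) ≤ κ ^ 2 * d ^ 3)
    (hm : ∀ u v, u ≠ v → d * Zf a ≤ Zm a u v) :
    ∃ (lam : V → ℝ) (σ : V → V → ℝ), (∀ v, 0 < lam v) ∧ (∀ u v, σ u v = σ v u) ∧
      (∀ u v, 0 < σ u v) ∧ (∀ x y z, min (σ x y) (σ y z) ≤ σ x z) ∧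
      ∀ u v, u ≠ v → σ u v ≤ a u v / (lam u * lam v) ∧ a u v / (lam u * lam v) ≤ κ * σ u v := by
  set o : V := default
  let z : V → V → ℝ := fun u v => Zm a u v / Zf a / a u v ^ 2
  have hzs : ∀ u v, z u v = z v u := fun u v => by
    have e : Zm a u v = Zm a v u := Finset.sum_congr rfl fun X _ => if_congr X.eq_iff rfl rfl
    simp only [z, e, ha u v]
  have hz1 : ∀ u v, u ≠ v → d ≤ z u v * a u v ^ 2 := fun u v h => by
    simp only [z]
    rw [div_mul_cancel₀ _ (pow_pos (hp u v) 2).ne', le_div_iff₀ hZ]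
    exact hm u v h
  have hz2 : ∀ u v, z u v * a u v ^ 2 ≤ 1 := fun u v => by
    simp only [z]
    rw [div_mul_cancel₀ _ (pow_pos (hp u v) 2).ne', div_le_one hZ]
    exact ultra_Zm_le a hp u v
  have hz0 : ∀ u v, u ≠ v → 0 < z u v := fun u v h =>
    (mul_pos_iff_of_pos_right (pow_pos (hp u v) 2)).1 (hd0.trans_le (hz1 u v h))
  set K : ℝ := 1 + 1 / d ^ 2 with hK
  have hK1 : 1 ≤ K := le_add_of_nonneg_right (by positivity)
  have hpt : ∀ x y w, o ≠ x → o ≠ y → o ≠ w → x ≠ y → x ≠ w → y ≠ w →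
      z x w * z o y ≤ z x y * z o w + K * (z y w * z o x) := by
    intro x y w h1 h2 h3 h4 h5 h6
    have h7 := div_le_div_of_nonneg_right (ptolemy a ha hp h1 h2 h3 h4 h5 h6) (pow_pos hZ 2).le
    have e : ∀ u v u' v', Zm a u v * Zm a u' v' / (a u v * a u' v') ^ 2 / Zf a ^ 2 =
        z u v * z u' v' := fun u v u' v' => by
      simp only [z]
      field_simp
    rw [add_div, add_div, e, e, e] at h7
    have h8 : Zf a ^ 2 / (a y w * a o x) ^ 2 / Zf a ^ 2 ≤ 1 / d ^ 2 * (z y w * z o x) := by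
      have b1 := hp y w
      have b2 := hp o x
      have h9 : d * d ≤ (z y w * a y w ^ 2) * (z o x * a o x ^ 2) :=
        mul_le_mul (hz1 y w h6) (hz1 o x h1) hd0.le (hd0.le.trans (hz1 y w h6))
      rw [div_right_comm, div_self (pow_pos hZ 2).ne', one_div_mul_eq_div,
        div_le_div_iff₀ (by positivity) (by positivity)]
      nlinarith
    rw [hK, add_mul]
    linarith
  obtain ⟨ρ, hρ0, hρ⟩ : ∃ ρ : ℝ, 0 < ρ ∧ ∀ u v, z u v * (1 / z o u) * (1 / z o v) ≤ ρ := by
    obtain ⟨ρ, hρ⟩ := Finite.exists_le fun p : V × V => z p.1 p.2 * (1 / z o p.1) * (1 / z o p.2)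
    exact ⟨max ρ 1, lt_max_of_lt_right one_pos, fun u v => le_max_of_le_left (hρ (u, v))⟩
  let L : V → ℝ := fun u => if u = o then ρ else 1 / z o u
  have hL0 : ∀ u, 0 < L u := fun u => by
    simp only [L]
    split_ifs with h
    · exact hρ0
    · exact one_div_pos.2 (hz0 o u (Ne.symm h))
  have hRo : ∀ v, v ≠ o → z o v * L o * L v = ρ := fun v hv => by
    have := (hz0 o v hv.symm).ne'
    simp only [L, if_true, if_neg hv]
    field_simp
  obtain ⟨D, hDs, hD0, hDu, hD⟩ := ultra_closure (fun u v => z u v * L u * L v) o ρ K hρ0 hK1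
    (fun u v => by rw [hzs u v]; ring)
    (fun u v h => mul_pos (mul_pos (hz0 u v h) (hL0 u)) (hL0 v)) hRo
    (fun u v h => by
      by_cases hu : u = o
      · rw [hu] at h ⊢
        exact (hRo v h.symm).le
      by_cases hv : v = o
      · rw [hv, hzs, mul_right_comm]
        exact (hRo u hu).le
      simp only [L, if_neg hu, if_neg hv]
      exact hρ u v)
    (fun x y w h1 h2 h3 h4 h5 h6 => by
      have b1 := hz0 o x h1
      have b2 := hz0 o y h2
      have b3 := hz0 o w h3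
      have h7 := div_le_div_of_nonneg_right (hpt x y w h1 h2 h3 h4 h5 h6)
        (mul_pos (mul_pos b1 b2) b3).le
      simp only [L, if_neg h1.symm, if_neg h2.symm, if_neg h3.symm]
      refine le_trans (le_of_eq ?_) (h7.trans (le_of_eq ?_)) <;> field_simp)
  have hn : (1 : ℝ) ≤ Fintype.card V := by
    exact_mod_cast Fintype.card_pos_iff.2 ⟨o⟩
  set c : ℝ := d / (Fintype.card V * K) with hc
  have hc0 : 0 < c := by positivity
  have hcκ : 1 ≤ κ ^ 2 * c := by
    rw [hc, ← mul_div_assoc, le_div_iff₀ (by positivity), one_mul, hK]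
    have h1 : 1 + 1 / d ^ 2 ≤ 2 / d ^ 2 := by
      have : 1 ≤ 1 / d ^ 2 := by
        rw [le_div_iff₀ (by positivity)]
        nlinarith
      rw [show 2 / d ^ 2 = 1 / d ^ 2 + 1 / d ^ 2 by ring]
      linarith
    refine (mul_le_mul_of_nonneg_left h1 (by positivity)).trans ?_
    rw [← mul_div_assoc, div_le_iff₀ (by positivity)]
    nlinarith
  refine ⟨fun u => Real.sqrt (L u), fun u v => Real.sqrt (c / D u v),
    fun v => Real.sqrt_pos.2 (hL0 v), fun u v => by simp only [hDs u v],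
    fun u v => Real.sqrt_pos.2 (div_pos hc0 (hD0 u v)), fun x y w => ?_, fun u v huv => ?_⟩
  · rcases le_max_iff.1 (hDu x y w) with h | h
    · exact min_le_of_left_le (Real.sqrt_le_sqrt (div_le_div_of_nonneg_left hc0.le (hD0 _ _) h))
    · exact min_le_of_right_le (Real.sqrt_le_sqrt (div_le_div_of_nonneg_left hc0.le (hD0 _ _) h))
  · obtain ⟨h1, h2⟩ := hD u v huv
    have b1 := hL0 u
    have b2 := hL0 v
    have b3 := hz0 u v huv
    have b4 := hD0 u v
    have b5 := hp u v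
    have e : (a u v / (Real.sqrt (L u) * Real.sqrt (L v))) ^ 2 =
        z u v * a u v ^ 2 / (z u v * L u * L v) := by
      rw [div_pow, mul_pow, Real.sq_sqrt b1.le, Real.sq_sqrt b2.le]
      field_simp
    have b6 : 0 ≤ a u v / (Real.sqrt (L u) * Real.sqrt (L v)) := by positivity
    constructor
    · refine Real.sqrt_le_iff.2 ⟨b6, ?_⟩
      rw [e]
      refine le_trans ?_ (div_le_div_of_nonneg_right (hz1 u v huv) (by positivity))
      rw [hc, div_div]
      exact div_le_div_of_nonneg_left hd0.le (by positivity) h2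
    · refine (pow_le_pow_iff_left₀ b6 (by positivity) two_ne_zero).1 ?_
      rw [e, mul_pow, Real.sq_sqrt (by positivity), ← mul_div_assoc]
      exact div_le_div₀ (by positivity) ((hz2 u v).trans hcκ) b4 h1

theorem poincare_marg (a : V → V → ℝ) (ha : ∀ u v, a u v = a v u) (hp : ∀ u v, 0 < a u v)
    (hZ : 0 < Zf a) (d κ : ℝ) (hd0 : 0 < d) (hd1 : d ≤ 1) (hκ0 : 1 ≤ κ)
    (hκ : 2 * (Fintype.card V : ℝ) ≤ κ ^ 2 * d ^ 3)
    (hm : ∀ u v, u ≠ v → d * Zf a ≤ Zm a u v) (h : PM V → ℝ) :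
    ∑ X, ∑ Y, wt a X * wt a Y * (h X - h Y) ^ 2
      ≤ 300 * (Fintype.card V : ℝ) ^ 7 * κ ^ 16 * (Darc a h + Zf a * Dsw a h) := by
  obtain ⟨lam, σ, hl, hs, h0, hu, hb⟩ := exists_ultra a ha hp hZ d κ hd0 hd1 hκ0 hκ hm
  have h1 := poincare (fun u v => a u v / (lam u * lam v)) σ κ hκ0
    (fun u v => by rw [ha u v, mul_comm]) hs h0 hu (fun u v huv => (hb u v huv).1)
    (fun u v huv => (hb u v huv).2) h
  set c : ℝ := 1 / (∏ v, lam v) ^ 2 with hc
  have hc0 : 0 < c := one_div_pos.2 (pow_pos (Finset.prod_pos fun v _ => hl v) 2)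
  have hw : ∀ X : PM V, wt (fun u v => a u v / (lam u * lam v)) X = c * wt a X := by
    intro X
    have e : ∏ v, lam (X.1 v) = ∏ v, lam v :=
      Equiv.prod_comp (Function.Involutive.toPerm X.1 X.inv) lam
    simp only [wt, Finset.prod_div_distrib, Finset.prod_mul_distrib, e, hc]
    ring
  have e1 : Darc (fun u v => a u v / (lam u * lam v)) h = c ^ 2 * Darc a h := by
    simp only [Darc, hw, Finset.mul_sum]
    refine Finset.sum_congr rfl fun Q _ => Finset.sum_congr rfl fun X _ =>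
      Finset.sum_congr rfl fun Y _ => ?_
    split_ifs
    · rw [← mul_assoc (c ^ 2), mul_min_of_nonneg _ _ (pow_pos hc0 2).le, mul_mul_mul_comm,
        mul_mul_mul_comm c (wt a _) c, ← sq]
    · rw [mul_zero]
  have e2 : Dsw (fun u v => a u v / (lam u * lam v)) h = c * Dsw a h := by
    simp only [Dsw, hw, Finset.mul_sum]
    refine Finset.sum_congr rfl fun u _ => Finset.sum_congr rfl fun v _ =>
      Finset.sum_congr rfl fun X _ => ?_
    rw [← mul_assoc c, mul_min_of_nonneg _ _ hc0.le]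
  have e3 : Zf (fun u v => a u v / (lam u * lam v)) = c * Zf a := by
    simp only [Zf, hw, Finset.mul_sum]
  have e4 : ∑ X, ∑ Y, wt (fun u v => a u v / (lam u * lam v)) X *
      wt (fun u v => a u v / (lam u * lam v)) Y * (h X - h Y) ^ 2 =
      c ^ 2 * ∑ X, ∑ Y, wt a X * wt a Y * (h X - h Y) ^ 2 := by
    simp only [hw, Finset.mul_sum]
    refine Finset.sum_congr rfl fun X _ => Finset.sum_congr rfl fun Y _ => ?_
    ring
  rw [e1, e2, e3, e4] at h1
  refine le_of_mul_le_mul_left (h1.trans (le_of_eq ?_)) (pow_pos hc0 2)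
  ring

end Vale.Agent.P308
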